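import Crest.Agent.R063.Prob

/-!
Central limit theorem for interval probabilities on finite product spaces, and elementary bounds
for Gaussian interval probabilities (row 63).
-/

set_option autoImplicit false
set_option linter.unusedSectionVars false

namespace Crest.Agent.R063

open Finset MeasureTheory ProbabilityTheory Filter
open scoped Topology ENNReal

/-- The law of a real function on a finite uniform space. -/
noncomputable def law {Ω : Type} [Fintype Ω] (W : Ω → ℝ) : Measure ℝ :=
  (Fintype.card Ω : ℝ≥0∞)⁻¹ • ∑ ω, Measure.dirac (W ω)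

section
variable {Ω : Type} [Fintype Ω] [Nonempty Ω]

instance law_prob (W : Ω → ℝ) : IsProbabilityMeasure (law W) := by
  constructor
  simp only [law, Measure.smul_apply, Measure.coe_finsetSum, Finset.sum_apply, measure_univ,
    Finset.sum_const, Finset.card_univ, nsmul_eq_mul, mul_one, smul_eq_mul]
  exact ENNReal.inv_mul_cancel (by simp) (by simp)

lemma integral_law {E : Type} [NormedAddCommGroup E] [NormedSpace ℝ E] [CompleteSpace E]
    (W : Ω → ℝ) (g : ℝ → E) : ∫ x, g x ∂(law W) = (Fintype.card Ω : ℝ)⁻¹ • ∑ ω, g (W ω) := by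
  unfold law
  rw [integral_smul_measure, integral_finsetSum_measure fun ω _ => integrable_dirac (by simp)]
  simp [integral_dirac]

lemma integral_law_real (W : Ω → ℝ) (g : ℝ → ℝ) : ∫ x, g x ∂(law W) = ex fun ω => g (W ω) := by
  rw [integral_law]; simp [ex, div_eq_inv_mul]

lemma law_real (W : Ω → ℝ) (s : Set ℝ) (hs : MeasurableSet s) :
    (law W s).toReal = pr fun ω => W ω ∈ s := by
  have := integral_law_real W (s.indicator 1)
  rw [integral_indicator_one hs] at this
  rw [← Measure.real, this]
  refine ex_congr fun ω => ?_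
  by_cases h : W ω ∈ s
  · rw [ind_pos h]; simp [h]
  · rw [ind_neg h]; simp [h]

lemma charFun_law_sum (W : Ω → ℝ) (N : ℕ) (c t : ℝ) :
    charFun (law fun x : Fin N → Ω => c * ∑ j, W (x j)) t = (charFun (law W) (c * t)) ^ N := by
  rw [charFun_apply_real, charFun_apply_real, integral_law, integral_law]
  have h1 : ∀ x : Fin N → Ω, Complex.exp (t * ((c * ∑ j, W (x j) : ℝ) : ℂ) * Complex.I) =
      ∏ j, Complex.exp (((c * t : ℝ) : ℂ) * W (x j) * Complex.I) := by
    intro x
    rw [← Complex.exp_sum]
    congr 1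
    push_cast
    rw [Finset.mul_sum, Finset.mul_sum, Finset.sum_mul]
    exact Finset.sum_congr rfl fun j _ => by ring
  simp_rw [h1]
  have h2 := Finset.prod_univ_sum (fun _ : Fin N => (Finset.univ : Finset Ω))
    (fun _ a => Complex.exp (((c * t : ℝ) : ℂ) * W a * Complex.I))
  simp only [Fintype.piFinset_univ, Finset.prod_const, Finset.card_univ, Fintype.card_fin] at h2
  rw [← h2, smul_pow]
  simp

/-- Gaussian probability of an interval. -/
noncomputable def gam (a b : ℝ) : ℝ := ∫ x in a..b, gaussianPDFReal 0 1 x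

lemma gam_eq {a b : ℝ} (h : a ≤ b) : (gaussianReal 0 1 (Set.Ico a b)).toReal = gam a b := by
  rw [gaussianReal_apply_eq_integral 0 one_ne_zero, ENNReal.toReal_ofReal
    (integral_nonneg fun x => gaussianPDFReal_nonneg _ _ _), gam,
    intervalIntegral.integral_of_le h, integral_Ico_eq_integral_Ioo, integral_Ioc_eq_integral_Ioo]

theorem clt (W : Ω → ℝ) (h0 : ex W = 0) (h1 : ex (fun ω => W ω ^ 2) = 1) {a b : ℝ} (hab : a ≤ b) :
    Tendsto (fun N : ℕ => pr fun x : Fin N → Ω =>
      a ≤ (√N)⁻¹ * ∑ j, W (x j) ∧ (√N)⁻¹ * ∑ j, W (x j) < b) atTop (𝓝 (gam a b)) := by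
  let μs : ℕ → ProbabilityMeasure ℝ := fun N =>
    ⟨law fun x : Fin N → Ω => (√N)⁻¹ * ∑ j, W (x j), inferInstance⟩
  let μ : ProbabilityMeasure ℝ := ⟨gaussianReal 0 1, inferInstance⟩
  have hlim : Tendsto μs atTop (𝓝 μ) := by
    refine ProbabilityMeasure.tendsto_iff_tendsto_charFun.2 fun t => ?_
    have h2 := tendsto_charFun_inv_sqrt_mul_pow (P := law W) (X := id) aemeasurable_id
      (by simpa using (integral_law_real W id).trans h0)
      (by simpa using (integral_law_real W fun x => x ^ 2).trans h1) t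
    simp only [Measure.map_id] at h2
    simp only [μs, μ, ProbabilityMeasure.coe_mk, charFun_law_sum, charFun_gaussianReal]
    convert h2 using 3
    push_cast; ring
  have hfr : (μ : Measure ℝ) (frontier (Set.Ico a b)) = 0 := by
    have hsub : frontier (Set.Ico a b) ⊆ {a, b} := by
      rcases hab.eq_or_lt with rfl | hlt
      · simp
      · rw [frontier_Ico hlt]
    refine measure_mono_null hsub ?_
    have := nullSingletonClass_gaussianReal (μ := 0) (v := 1) one_ne_zero
    exact Set.Finite.measure_zero (Set.toFinite _) (gaussianReal 0 1)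
  have h3 := ProbabilityMeasure.tendsto_measure_of_null_frontier_of_tendsto' hlim hfr
  have h4 := (ENNReal.tendsto_toReal (measure_ne_top (μ : Measure ℝ) _)).comp h3
  simp only [μ, ProbabilityMeasure.coe_mk, gam_eq hab] at h4
  convert h4 using 2 with N
  simp only [Function.comp, μs, ProbabilityMeasure.coe_mk]
  rw [law_real _ _ measurableSet_Ico]
  rfl

end

lemma pdf_eq (x : ℝ) : gaussianPDFReal 0 1 x = (√(2 * Real.pi))⁻¹ * Real.exp (-x ^ 2 / 2) := by
  simp [gaussianPDFReal]

lemma pdf_cont : Continuous (gaussianPDFReal 0 1) := by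
  have : gaussianPDFReal 0 1 = fun x => (√(2 * Real.pi))⁻¹ * Real.exp (-x ^ 2 / 2) :=
    funext pdf_eq
  rw [this]; fun_prop

lemma gam_pos {a b : ℝ} (h : a < b) : 0 < gam a b :=
  intervalIntegral.intervalIntegral_pos_of_pos (pdf_cont.intervalIntegrable _ _)
    (fun _ => gaussianPDFReal_pos _ _ _ one_ne_zero) h

lemma gam_lower : ∃ c : ℝ, 0 < c ∧ c ≤ 1 ∧
    ∀ a b : ℝ, -2 ≤ a → a ≤ b → b ≤ 2 → 2 * c * (b - a) ≤ gam a b := by
  refine ⟨min 1 (gaussianPDFReal 0 1 2 / 2), lt_min one_pos
    (half_pos (gaussianPDFReal_pos _ _ _ one_ne_zero)), min_le_left _ _, fun a b ha hab hb => ?_⟩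
  have h1 : ∫ _ in a..b, gaussianPDFReal 0 1 2 ≤ gam a b := by
    refine intervalIntegral.integral_mono_on hab (by simp) (pdf_cont.intervalIntegrable _ _)
      fun x hx => ?_
    rw [pdf_eq, pdf_eq]
    refine mul_le_mul_of_nonneg_left (Real.exp_le_exp.2 ?_) (by positivity)
    nlinarith [hx.1, hx.2]
  rw [intervalIntegral.integral_const, smul_eq_mul] at h1
  have := min_le_right 1 (gaussianPDFReal 0 1 2 / 2)
  nlinarith

lemma gam_dom {a b : ℝ} (hab : a ≤ b) :
    9 * gam a b ≤ 64 * gam (a + 1) (b + 1) + gam (a - 1) (b - 1) := by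
  unfold gam
  rw [← intervalIntegral.integral_comp_add_right, ← intervalIntegral.integral_comp_sub_right,
    ← intervalIntegral.integral_const_mul, ← intervalIntegral.integral_const_mul,
    ← intervalIntegral.integral_add]
  · refine intervalIntegral.integral_mono_on hab ?_ ?_ fun x _ => ?_
    · exact (continuous_const.mul pdf_cont).intervalIntegrable _ _
    · refine Continuous.intervalIntegrable ?_ _ _
      have := pdf_cont
      fun_prop
    · simp only [pdf_eq]
      have e1 : Real.exp (-(x + 1) ^ 2 / 2) =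
          Real.exp (-x ^ 2 / 2) * Real.exp (-1 / 2) * Real.exp (-x / 2) ^ 2 := by
        rw [← Real.exp_nat_mul, ← Real.exp_add, ← Real.exp_add]; congr 1; push_cast; ring
      have e2 : Real.exp (-(x - 1) ^ 2 / 2) =
          Real.exp (-x ^ 2 / 2) * Real.exp (-1 / 2) * Real.exp (x / 2) ^ 2 := by
        rw [← Real.exp_nat_mul, ← Real.exp_add, ← Real.exp_add]; congr 1; push_cast; ring
      have e3 : Real.exp (-x / 2) * Real.exp (x / 2) = 1 := by
        rw [← Real.exp_add]; simp [show -x / 2 + x / 2 = 0 by ring]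
      have e4 : (9 : ℝ) / 16 ≤ Real.exp (-1 / 2) := by
        have h5 : Real.exp (-1 / 2) ^ 2 * Real.exp 1 = 1 := by
          rw [← Real.exp_nat_mul, ← Real.exp_add]; norm_num
        have h6 := Real.exp_one_lt_d9
        have h7 := Real.exp_pos (-1 / 2)
        by_contra hc
        push Not at hc
        nlinarith [Real.exp_pos 1]
      rw [e1, e2]
      have hA : 0 < (√(2 * Real.pi))⁻¹ * Real.exp (-x ^ 2 / 2) := by positivity
      have hB : 16 ≤ 64 * Real.exp (-x / 2) ^ 2 + Real.exp (x / 2) ^ 2 := by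
        nlinarith [sq_nonneg (8 * Real.exp (-x / 2) - Real.exp (x / 2))]
      have hC : 9 ≤ Real.exp (-1 / 2) * (64 * Real.exp (-x / 2) ^ 2 + Real.exp (x / 2) ^ 2) := by
        nlinarith
      nlinarith [mul_le_mul_of_nonneg_left hC hA.le]
  · refine Continuous.intervalIntegrable ?_ _ _
    have := pdf_cont
    fun_prop
  · refine Continuous.intervalIntegrable ?_ _ _
    have := pdf_cont
    fun_prop

end Crest.Agent.R063
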