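import Crest.Agent.R063.Pen

/-!
Assembling the Boolean function in the span of lines, with explicit parameters (row 63).
-/

set_option autoImplicit false
set_option linter.unusedSectionVars false

namespace Crest.Agent.R063

open Finset

variable {Ω Ω' : Type} [Fintype Ω] [Nonempty Ω] [Fintype Ω'] [Nonempty Ω']

lemma Ln_comap {X Y : Type} [DecidableEq X] (cl : Y → X) {s : ℕ} {φ : (Fin s → X) → ℝ}
    (h : φ ∈ Ln X s) : (fun z : Fin s → Y => φ fun j => cl (z j)) ∈ Ln Y s := by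
  induction h using Submodule.span_induction with
  | mem φ h =>
    obtain ⟨i, hi⟩ := h
    refine Submodule.subset_span ⟨i, fun x a => ?_⟩
    have : (fun j => cl (Function.update x i a j)) = Function.update (fun j => cl (x j)) i (cl a) := by
      funext j
      by_cases hj : j = i
      · subst hj; simp
      · simp [hj]
    simp only [this, hi]
  | zero => exact Submodule.zero_mem _
  | add φ φ' _ _ h1 h2 => exact Submodule.add_mem _ h1 h2
  | smul c φ _ h1 => exact Submodule.smul_mem _ c h1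

lemma collision_lower {X : Type} [Fintype X] (Z : Ω → ℝ) (h2 : ex (fun ω => Z ω ^ 2) = 1) {l : ℕ}
    (hl : 0 < l) (cl : Ω → X) (val : X → ℤ) (hinj : Function.Injective val)
    (hval : ∀ ω, val (cl ω) = ⌊l * Z ω⌋) :
    1 / (9 * l) ≤ ∑ a, pr (fun ω => cl ω = a) ^ 2 := by
  classical
  have hl' : (0 : ℝ) < l := by exact_mod_cast hl
  have hl1 : (1 : ℝ) ≤ l := by exact_mod_cast hl
  let B : Finset X := Finset.univ.filter fun a => val a ∈ Finset.Icc (-(2 * l : ℤ)) (2 * l)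
  have hB : (B.card : ℝ) ≤ 5 * l := by
    have h1 : B.card ≤ (Finset.Icc (-(2 * l : ℤ)) (2 * l)).card :=
      Finset.card_le_card_of_injOn val (fun a ha => (Finset.mem_filter.mp ha).2) hinj.injOn
    have h3 : ((Finset.Icc (-(2 * l : ℤ)) (2 * l)).card : ℤ) = 4 * l + 1 := by
      rw [Int.card_Icc_of_le]
      · ring
      · omega
    have h4 : (B.card : ℤ) ≤ 4 * l + 1 := by rw [← h3]; exact_mod_cast h1
    have h5 : (B.card : ℝ) ≤ 4 * l + 1 := by exact_mod_cast h4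
    linarith
  have h3 : 3 / 4 ≤ ∑ a ∈ B, pr (fun ω => cl ω = a) := by
    unfold pr
    rw [← ex_sum B (fun a ω => ind (cl ω = a))]
    have : ex (fun ω => 1 - 1 / 4 * Z ω ^ 2) = 3 / 4 := by
      rw [ex_sub, ex_const, ex_mul_left, h2]; norm_num
    rw [← this]
    refine ex_mono fun ω => ?_
    by_cases h : cl ω ∈ B
    · have := sum_ind_mul B (cl ω) h (fun _ => 1)
      simp only [mul_one] at this
      rw [this]; nlinarith [sq_nonneg (Z ω)]
    · have h6 : 0 ≤ ∑ a ∈ B, ind (cl ω = a) := Finset.sum_nonneg fun a _ => ind_nonneg _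
      simp only [B, Finset.mem_filter, Finset.mem_univ, true_and, Finset.mem_Icc, hval, not_and_or,
        not_le] at h
      have f1 := Int.floor_le ((l : ℝ) * Z ω)
      have f2 := Int.lt_floor_add_one ((l : ℝ) * Z ω)
      have h7 : 4 ≤ Z ω ^ 2 := by
        rcases h with h | h
        · have : ((⌊l * Z ω⌋ + 1 : ℤ) : ℝ) ≤ ((-(2 * l) : ℤ) : ℝ) := by exact_mod_cast h
          push_cast at this
          have : Z ω ≤ -2 := by nlinarith
          nlinarith
        · have : ((2 * l : ℤ) : ℝ) < ((⌊l * Z ω⌋ : ℤ) : ℝ) := by exact_mod_cast h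
          push_cast at this
          have : 2 ≤ Z ω := by nlinarith
          nlinarith
      linarith
  have h4 : (∑ a ∈ B, pr (fun ω => cl ω = a)) ^ 2 ≤ B.card * ∑ a ∈ B, pr (fun ω => cl ω = a) ^ 2 :=
    sq_sum_le_card_mul_sum_sq
  have h5 : ∑ a ∈ B, pr (fun ω => cl ω = a) ^ 2 ≤ ∑ a, pr (fun ω => cl ω = a) ^ 2 :=
    Finset.sum_le_sum_of_subset_of_nonneg (Finset.subset_univ _) fun _ _ _ => sq_nonneg _
  have h6 : 0 ≤ ∑ a ∈ B, pr (fun ω => cl ω = a) ^ 2 := Finset.sum_nonneg fun _ _ => sq_nonneg _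
  rw [div_le_iff₀ (by positivity)]
  nlinarith

lemma one_add_inv_pow_le (m : ℕ) : (1 + 1 / (m : ℝ)) ^ m ≤ 3 := by
  rcases Nat.eq_zero_or_pos m with rfl | hm
  · simp
  have hm' : (0 : ℝ) < m := by exact_mod_cast hm
  calc (1 + 1 / (m : ℝ)) ^ m ≤ Real.exp (1 / m) ^ m :=
        pow_le_pow_left₀ (by positivity) (by linarith [Real.add_one_le_exp (1 / (m : ℝ))]) m
    _ = Real.exp 1 := by rw [← Real.exp_nat_mul]; congr 1; field_simp
    _ ≤ 3 := by linarith [Real.exp_one_lt_d9]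

lemma round_slice (Z : Ω → ℝ) (h2 : ex (fun ω => Z ω ^ 2) = 1) {l m s : ℕ} (hl : 0 < l) (hm : 0 < m)
    {c w τ : ℝ} (hc : 0 < c) (hc1 : c ≤ 1) (hw1 : 1 ≤ w) (hτ : 0 < τ) (hτ1 : τ ≤ 1)
    {X : Type} [Fintype X] [DecidableEq X] (cl : Ω → X) (val : X → ℤ)
    (hinj : Function.Injective val) (hval : ∀ ω, val (cl ω) = ⌊l * Z ω⌋)
    (u : ℝ) (hu : |u| ≤ s + 1) (g : (Fin m → X) → ℝ) (hg : ∀ z, |g z| ≤ 1) (hgL : g ∈ Ln X m) :
    ∃ f : (Fin m → X) → ℤ, (fun z => (f z : ℝ)) ∈ Ln X m ∧ (∀ z, |f z| ≤ (2 ^ m + 1 : ℕ)) ∧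
      ex (fun x : Fin m → Ω => ct c w (u + ∑ j, Z (x j)) (f fun j => cl (x j))) ≤
        ex (fun x : Fin m → Ω => aa (u + ∑ j, Z (x j)) * g (fun j => cl (x j)) +
          800 / c * BB (u + ∑ j, Z (x j)) * max (-g fun j => cl (x j)) 0) +
        320000 * w / c ^ 2 * (32 * (s + 1) ^ 2 + 32 * m ^ 2 + 32) *
          (6 * τ + 3 / τ * (m ^ 3 * (1 - 1 / (9 * l) + 2 / m) ^ m)) := by
  have hm' : (0 : ℝ) < m := by exact_mod_cast hm
  have hm1 : (1 : ℝ) ≤ m := by exact_mod_cast hm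
  have hX : Nonempty X := ⟨cl (Classical.arbitrary Ω)⟩
  let π : X → ℝ := fun a => pr fun ω => cl ω = a
  let wt : X → ℝ := fun a => ex fun ω => ind (cl ω = a) * (1 + Z ω ^ 2 / m)
  have hπ0 : ∀ a, 0 ≤ π a := fun a => pr_nonneg _
  have hπ1 : ∑ a, π a = 1 := by
    have := ex_fiber cl (fun _ _ => (1 : ℝ))
    rw [ex_const] at this
    simpa [π, pr] using this.symm
  have hw0 : ∑ a, wt a = 1 + 1 / m := by
    have := ex_fiber cl (fun _ ω => 1 + Z ω ^ 2 / m)
    rw [← this]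
    simp only [div_eq_mul_inv]
    rw [ex_add, ex_const, ex_mul_right, h2]
  have hπw : ∀ a, π a ≤ wt a := fun a => ex_mono fun ω =>
    le_mul_of_one_le_right (ind_nonneg _) (le_add_of_nonneg_right (by positivity))
  have hwt : ∀ a, 0 ≤ wt a := fun a => (hπ0 a).trans (hπw a)
  obtain ⟨o, -, ho⟩ := Finset.exists_max_image Finset.univ π Finset.univ_nonempty
  have hP1 : ∑ a, π a ^ 2 ≤ π o := by
    calc ∑ a, π a ^ 2 ≤ ∑ a, π a * π o := Finset.sum_le_sum fun a _ => by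
          rw [sq]; exact mul_le_mul_of_nonneg_left (ho a (Finset.mem_univ _)) (hπ0 a)
      _ = π o := by rw [← Finset.sum_mul, hπ1, one_mul]
  have hP2 : 1 / (9 * l) ≤ ∑ a, π a ^ 2 := collision_lower Z h2 hl cl val hinj hval
  have hP3 : π o ≤ 1 := pr_le_one _
  have hmi : (0 : ℝ) < 1 / m := by positivity
  have hχ1 : ∑ a ∈ Finset.univ.erase o, wt a ≤ 1 - 1 / (9 * l) + 2 / m := by
    have := Finset.add_sum_erase _ wt (Finset.mem_univ o)
    have h3 : (2 : ℝ) / m = 2 * (1 / m) := by ring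
    linarith [hπw o]
  have hχ2 : ∑ a, wt a * ∑ b, (ind (a = b) - π b) ^ 2 ≤ 1 - 1 / (9 * l) + 2 / m := by
    have e1 : ∀ a, ∑ b, (ind (a = b) - π b) ^ 2 = 1 - 2 * π a + ∑ b, π b ^ 2 := by
      intro a
      have : ∀ b, (ind (a = b) - π b) ^ 2 = ind (a = b) * (1 - 2 * π b) + π b ^ 2 := by
        intro b
        have := ind_sq (a = b)
        nlinarith
      simp_rw [this]
      rw [Finset.sum_add_distrib, sum_ind_mul _ _ (Finset.mem_univ _) (fun b => 1 - 2 * π b)]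
    simp_rw [e1]
    have e2 : ∑ a, wt a * (1 - 2 * π a + ∑ b, π b ^ 2) =
        (∑ a, wt a) * (1 + ∑ b, π b ^ 2) - 2 * ∑ a, wt a * π a := by
      rw [Finset.sum_mul, Finset.mul_sum, ← Finset.sum_sub_distrib]
      exact Finset.sum_congr rfl fun a _ => by ring
    have e3 : ∑ a, π a ^ 2 ≤ ∑ a, wt a * π a := Finset.sum_le_sum fun a _ => by
      rw [sq]; exact mul_le_mul_of_nonneg_right (hπw a) (hπ0 a)
    rw [e2, hw0]
    have h3 : (2 : ℝ) / m = 2 * (1 / m) := by ring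
    nlinarith
  set Λ : ℝ := 32 * (s + 1) ^ 2 + 32 * m ^ 2 + 32 with hΛ
  set M : ℝ := 320000 * w / c ^ 2 with hM
  have hM0 : 0 ≤ M := by rw [hM]; positivity
  have hΛ0 : 0 ≤ Λ := by positivity
  let Y : (Fin m → Ω) → ℝ := fun x => u + ∑ j, Z (x j)
  let cx : (Fin m → Ω) → (Fin m → X) := fun x j => cl (x j)
  have hBB : ∀ z : Fin m → X, ex (fun x => ind (cx x = z) * BB (Y x)) ≤ Λ * ∏ i, wt (z i) := by
    intro z
    rw [← ex_prod_coord (A := fun _ => Ω) (fun i ω => ind (cl ω = z i) * (1 + Z ω ^ 2 / m)),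
      ← ex_mul_left]
    refine ex_mono fun x => ?_
    rw [Finset.prod_mul_distrib, ← ind_forall_mem,
      ind_congr (show (∀ i ∈ Finset.univ, cl (x i) = z i) ↔ cx x = z by simp [cx, funext_iff]),
      mul_left_comm]
    refine mul_le_mul_of_nonneg_left ?_ (ind_nonneg _)
    have h3 := one_add_sum_le_prod Finset.univ (fun i => Z (x i) ^ 2 / m) (fun i => by positivity)
    rw [← Finset.sum_div] at h3
    have h4 : (∑ j, Z (x j)) ^ 2 ≤ m * ∑ j, Z (x j) ^ 2 := by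
      simpa using sq_sum_le_card_mul_sum_sq (s := Finset.univ) (f := fun j => Z (x j))
    have h5 : u ^ 2 ≤ (s + 1) ^ 2 := by
      rw [← sq_abs u]; exact pow_le_pow_left₀ (abs_nonneg _) hu 2
    have h6 : 0 ≤ ∑ j, Z (x j) ^ 2 := Finset.sum_nonneg fun _ _ => sq_nonneg _
    obtain ⟨v, hv, hv0⟩ : ∃ v, ∑ j, Z (x j) ^ 2 = m * v ∧ 0 ≤ v :=
      ⟨(∑ j, Z (x j) ^ 2) / m, by field_simp, by positivity⟩
    rw [hv] at h3 h4
    rw [mul_div_cancel_left₀ _ hm'.ne'] at h3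
    refine le_trans ?_ (mul_le_mul_of_nonneg_left h3 hΛ0)
    simp only [BB, Y]
    have h7 : 0 ≤ ((s : ℝ) + 1) ^ 2 * v := by positivity
    have h8 : 0 ≤ (m : ℝ) ^ 2 := by positivity
    rw [hΛ]
    nlinarith [sq_nonneg (u - ∑ j, Z (x j))]
  obtain ⟨f, hf1, hf2, hf3⟩ := rounding π wt o _ hπ0 hπ1 hwt hχ1 hχ2 m (M * Λ * (3 / τ)) g g
    (fun z => ex (fun x => ind (cx x = z) * (aa (Y x) * g z + 800 / c * BB (Y x) * max (-g z) 0)) +
      M * Λ * (2 * τ) * ∏ i, wt (z i))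
    (fun z n => ex fun x => ind (cx x = z) * ct c w (Y x) n) (by positivity)
    ⟨0, by simpa using hgL⟩ (by
      intro z t
      rw [← ex_mul_left, ← ex_mul_left, ← ex_add]
      calc _ ≤ ex (fun x => ind (cx x = z) * (aa (Y x) * g z + 800 / c * BB (Y x) * max (-g z) 0) +
            M * (2 * τ + 3 / τ * (t - g z) ^ 2) * (ind (cx x = z) * BB (Y x))) := by
            refine ex_mono fun x => ?_
            have := mul_le_mul_of_nonneg_left (ct_interp hc hc1 hw1 hτ hτ1 (Y x) t (g z) (hg z))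
              (ind_nonneg (cx x = z))
            rw [← hM] at this
            linarith
        _ ≤ _ := by
            rw [ex_add, ex_mul_left]
            have := mul_le_mul_of_nonneg_left (hBB z)
              (show 0 ≤ M * (2 * τ + 3 / τ * (t - g z) ^ 2) by positivity)
            linarith)
  refine ⟨f, ?_, ?_, ?_⟩
  · convert Submodule.add_mem _ hf1 hgL using 1
    funext z; simp
  · intro z
    have h3 := abs_le.mp (hf2 z)
    have h4 := abs_le.mp (hg z)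
    have : |(f z : ℝ)| ≤ 2 ^ m + 1 := by rw [abs_le]; constructor <;> linarith [h3.1, h3.2]
    exact_mod_cast this
  · rw [ex_fiber cx (fun z x => ct c w (Y x) (f z)),
      ex_fiber cx (fun z x => aa (Y x) * g z + 800 / c * BB (Y x) * max (-g z) 0)]
    refine hf3.trans ?_
    rw [Finset.sum_add_distrib, ← Finset.mul_sum]
    have h3 := Finset.prod_univ_sum (fun _ : Fin m => (Finset.univ : Finset X)) (fun _ a => wt a)
    simp only [Fintype.piFinset_univ, Finset.prod_const, Finset.card_univ, Fintype.card_fin,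
      hw0] at h3
    rw [← h3]
    simp only [sub_self, ne_eq, OfNat.ofNat_ne_zero, not_false_eq_true, zero_pow, mul_zero,
      Finset.sum_const_zero, zero_add]
    have := mul_le_mul_of_nonneg_left (one_add_inv_pow_le m)
      (show 0 ≤ M * Λ * (2 * τ) by positivity)
    linarith

theorem core (Z : Ω → ℝ) (U : Ω' → ℝ) (h0 : ex Z = 0) (h2 : ex (fun ω => Z ω ^ 2) = 1)
    (h4 : ex (fun ω => Z ω ^ 4) ≤ 4) {l m s b : ℕ} (hl : 0 < l) (hm : 0 < m)
    (hs : 1800 * m ≤ s ^ 2) (hb : 2 ≤ b) {c τ τ' ps : ℝ} (hc : 0 < c) (hc1 : c ≤ 1) (hτ : 0 < τ)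
    (hτ1 : τ ≤ 1) (hτ' : 0 < τ') (hps : 0 < ps)
    (hdom : ∀ k : ℤ, |k| ≤ b * l → 8 * pr (fun ω => ⌊l * Z ω⌋ = k) ≤
      64 * pr (fun ω => ⌊l * Z ω⌋ = k + l) + pr (fun ω => ⌊l * Z ω⌋ = k - l))
    (hU : ∀ k : ℤ, |k| ≤ l * s → ps ≤ pr fun y => ⌊l * U y⌋ = k)
    (hq : ∀ j, c * eta (2 ^ m + 1) (m + 2) j ≤
      pr fun ω => 0 ≤ Z ω ∧ Z ω < eta (2 ^ m + 1) (m + 2) j) :
    ∃ F : (Fin m → ℝ) → ℝ → (Fin (2 ^ m + 1 + 1) → ℝ) → ℝ, Lines F ∧
      (∀ z u t, F z u t = 0 ∨ F z u t = 1) ∧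
      ex (fun p : (Fin m → Ω) × Ω' × (Fin (2 ^ m + 1 + 1) → Ω) =>
        F (fun j => Z (p.1 j)) (U p.2.1) (fun j => Z (p.2.2 j)) *
          ((U p.2.1 + ∑ j, Z (p.1 j) + ∑ j, Z (p.2.2 j)) ^ 2 - 1)) ≤
      (∏ j, pr fun ω => 0 ≤ Z ω ∧ Z ω < eta (2 ^ m + 1) (m + 2) j) *
        (ps / 73 * (-5 / 2 + 10000 * (m * (1 / l) ^ 2) + 800 / c *
          ((48 * (b + 1) ^ 2 + 464) * ((2 * b * l + 1) * τ' + 3121 / (τ' * m)) + 10000 / b ^ 2 +
            384 * (m * (1 / l) ^ 2))) +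
        320000 * (m + 2) / c ^ 2 * (32 * (s + 1) ^ 2 + 32 * m ^ 2 + 32) *
          (6 * τ + 3 / τ * (m ^ 3 * (1 - 1 / (9 * l) + 2 / m) ^ m))) := by
  classical
  have hl' : (0 : ℝ) < l := by exact_mod_cast hl
  have hl1 : (1 : ℝ) ≤ l := by exact_mod_cast hl
  have hm' : (0 : ℝ) < m := by exact_mod_cast hm
  let T : Finset ℤ := Finset.univ.image fun ω => ⌊l * Z ω⌋
  let d : T := ⟨⌊l * Z (Classical.arbitrary Ω)⌋, Finset.mem_image_of_mem _ (Finset.mem_univ _)⟩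
  let cl : ℝ → T := fun z => if h : ⌊l * z⌋ ∈ T then ⟨_, h⟩ else d
  have hval : ∀ ω, (cl (Z ω) : ℤ) = ⌊l * Z ω⌋ := by
    intro ω
    have : ⌊l * Z ω⌋ ∈ T := Finset.mem_image_of_mem _ (Finset.mem_univ _)
    simp only [cl, this, dif_pos]
  set x0 := xo Z l m with hx0
  set r := rr (fun y => ⌊l * U y⌋) (l * s) ps with hr
  have hr0 : ∀ k, 0 ≤ r k := rr_nonneg _ _ hps
  have hr1 : ∀ k, r k ≤ 1 := rr_le_one _ _ hps hU
  let g : ℝ → (Fin m → T) → ℝ := fun u z =>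
    r ⌊l * u⌋ * GG x0 l (⌊l * u⌋ + ∑ j, (z j : ℤ)) (fun j => (z j : ℤ)) / 73
  have hg : ∀ u z, |g u z| ≤ 1 := by
    intro u z
    simp only [g]
    rw [abs_div, abs_mul, abs_of_nonneg (hr0 _), abs_of_pos (by norm_num : (0 : ℝ) < 73),
      div_le_one (by norm_num)]
    have := mul_le_mul (hr1 ⌊l * u⌋) (abs_GG_le x0 l (⌊l * u⌋ + ∑ j, (z j : ℤ)) (fun j => (z j : ℤ)))
      (abs_nonneg _) zero_le_one
    linarith
  have hgL : ∀ u, g u ∈ Ln T m := by
    intro u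
    have : g u = fun z => ∑ i, r ⌊l * u⌋ * (m : ℝ)⁻¹ / 73 *
        hh x0 l (⌊l * u⌋ + ∑ j ∈ Finset.univ.erase i, (z j : ℤ)) := by
      funext z
      simp only [g, GG]
      rw [← Finset.mul_sum, Finset.sum_congr rfl fun i _ => by
        rw [← Finset.sum_erase_add _ _ (Finset.mem_univ i), add_sub_assoc, add_sub_cancel_right]]
      ring
    rw [this]
    refine Ln_sum _ (fun i (z : Fin m → T) => r ⌊l * u⌋ * (m : ℝ)⁻¹ / 73 *
        hh x0 l (⌊l * u⌋ + ∑ j ∈ Finset.univ.erase i, (z j : ℤ))) fun i _ =>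
      Submodule.subset_span ⟨i, fun z a => ?_⟩
    simp only
    rw [Finset.sum_congr rfl fun j hj => by rw [Function.update_of_ne (Finset.ne_of_mem_erase hj)]]
  set Err : ℝ := 320000 * (m + 2) / c ^ 2 * (32 * (s + 1) ^ 2 + 32 * m ^ 2 + 32) *
          (6 * τ + 3 / τ * (m ^ 3 * (1 - 1 / (9 * l) + 2 / m) ^ m)) with hErr
  have hErr0 : 0 ≤ Err := by
    have : (0 : ℝ) ≤ 1 - 1 / (9 * l) + 2 / m := by
      have : (1 : ℝ) / (9 * l) ≤ 1 := by rw [div_le_one (by positivity)]; linarith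
      have : (0 : ℝ) ≤ 2 / m := by positivity
      linarith
    positivity
  have hw1 : (1 : ℝ) ≤ m + 2 := by linarith
  have hall : ∀ u : ℝ, ∃ f : (Fin m → T) → ℤ, (fun z => (f z : ℝ)) ∈ Ln T m ∧
      (∀ z, |f z| ≤ (2 ^ m + 1 : ℕ)) ∧
      ex (fun x : Fin m → Ω => ct c (m + 2) (u + ∑ j, Z (x j)) (f fun j => cl (Z (x j)))) ≤
        ex (fun x : Fin m → Ω => aa (u + ∑ j, Z (x j)) * g u (fun j => cl (Z (x j))) +
          800 / c * BB (u + ∑ j, Z (x j)) * max (-g u fun j => cl (Z (x j))) 0) + Err := by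
    intro u
    by_cases hu : |⌊l * u⌋| ≤ (l * s : ℤ)
    · refine round_slice Z h2 hl hm hc hc1 hw1 hτ hτ1 (fun ω => cl (Z ω)) Subtype.val
        Subtype.val_injective hval u ?_ (g u) (hg u) (hgL u)
      have f1 := Int.floor_le ((l : ℝ) * u)
      have f2 := Int.lt_floor_add_one ((l : ℝ) * u)
      have f3 : |((⌊l * u⌋ : ℤ) : ℝ)| ≤ l * s := by exact_mod_cast hu
      rw [abs_le] at f3 ⊢
      constructor <;> nlinarith [f3.1, f3.2]
    · refine ⟨0, by simp only [Pi.zero_apply, Int.cast_zero]; exact (Ln T m).zero_mem, fun z => by simp only [Pi.zero_apply]; positivity, ?_⟩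
      have : r ⌊l * u⌋ = 0 := by simp only [hr, rr, hu, if_false]
      simp only [g, this, ct]
      simpa [ex_zero] using hErr0
  choose f hf1 hf2 hf3 using hall
  have hlog : 1 + Real.log ((2 ^ m + 1 : ℕ) : ℝ) ≤ m + 2 := by
    have e1 : ((2 ^ m + 1 : ℕ) : ℝ) ≤ 2 ^ (m + 1) := by
      push_cast
      have : (1 : ℝ) ≤ 2 ^ m := one_le_pow₀ (by norm_num)
      rw [pow_succ]; linarith
    have e2 := Real.log_le_log (by positivity) e1
    rw [Real.log_pow] at e2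
    have e3 := Real.log_two_lt_d9
    push_cast at e2 ⊢
    nlinarith
  refine ⟨fun z u t => gad (eta (2 ^ m + 1) (m + 2)) (f u fun j => cl (z j)) t,
    gad_lines _ (fun u z => f u fun j => cl (z j)) (fun u z => hf2 u _)
      (fun u => Ln_comap cl (hf1 u)), fun z u t => gad_bool _ _ _, ?_⟩
  set P := ∏ j, pr fun ω => 0 ≤ Z ω ∧ Z ω < eta (2 ^ m + 1) (m + 2) j with hP
  have hP0 : 0 ≤ P := Finset.prod_nonneg fun _ _ => pr_nonneg _
  rw [ex_prod]
  simp_rw [ex_prod]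
  calc _ ≤ ex (fun x : Fin m → Ω => ex fun y : Ω' =>
          P * ct c (m + 2) (U y + ∑ j, Z (x j)) (f (U y) fun j => cl (Z (x j)))) :=
        ex_mono fun x => ex_mono fun y => gad_cost Z h2 hc hc1 hlog hw1 hq _ (hf2 _ _)
    _ = P * ex (fun y : Ω' => ex fun x : Fin m → Ω =>
          ct c (m + 2) (U y + ∑ j, Z (x j)) (f (U y) fun j => cl (Z (x j)))) := by
        rw [ex_comm]; simp_rw [ex_mul_left]
    _ ≤ _ := by
        refine mul_le_mul_of_nonneg_left ((ex_mono fun y => hf3 (U y)).trans ?_) hP0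
        rw [ex_add, ex_const]
        refine add_le_add ?_ le_rfl
        have a1 := lin_part Z U h0 h2 hl hm hs hps hU
        have a2 := pen_part Z U h4 hl hm hb hps hτ' hdom hU
        rw [← hr, ← hx0] at a1 a2
        have e1 : ∀ (y : Ω') (x : Fin m → Ω), aa (U y + ∑ j, Z (x j)) * g (U y) (fun j => cl (Z (x j))) +
            800 / c * BB (U y + ∑ j, Z (x j)) * max (-g (U y) fun j => cl (Z (x j))) 0 =
            1 / 73 * (aa (U y + ∑ j, Z (x j)) * (r ⌊l * U y⌋ *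
              GG x0 l (⌊l * U y⌋ + ∑ j, ⌊l * Z (x j)⌋) (fun j => ⌊l * Z (x j)⌋))) +
            800 / c / 73 * (BB (U y + ∑ j, Z (x j)) * (r ⌊l * U y⌋ *
              max (-GG x0 l (⌊l * U y⌋ + ∑ j, ⌊l * Z (x j)⌋) (fun j => ⌊l * Z (x j)⌋)) 0)) := by
          intro y x
          simp only [g, hval]
          generalize GG x0 l (⌊l * U y⌋ + ∑ j, ⌊l * Z (x j)⌋) (fun j => ⌊l * Z (x j)⌋) = G
          have : max (-(r ⌊l * U y⌋ * G / 73)) 0 = r ⌊l * U y⌋ * max (-G) 0 / 73 := by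
            have h5 := hr0 ⌊l * U y⌋
            rcases le_total G 0 with h | h
            · rw [max_eq_left (by nlinarith), max_eq_left (by linarith)]; ring
            · rw [max_eq_right (by nlinarith), max_eq_right (by linarith)]; ring
          rw [this]; ring
        simp_rw [e1, ex_add, ex_mul_left]
        have a3 := mul_le_mul_of_nonneg_left a2 (show 0 ≤ 800 / c / 73 by positivity)
        refine (add_le_add (mul_le_mul_of_nonneg_left a1 (by norm_num)) a3).trans (le_of_eq ?_)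
        ring

end Crest.Agent.R063
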