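import Crest.Agent.R063.Prob

/-!
Finite spaces identified with Boolean cubes, degree (span of juntas), labels of bounded degree and
conditional means of the sum of the coordinates (row 63).
-/

set_option autoImplicit false
set_option linter.unusedSectionVars false

namespace Crest.Agent.R063

open Finset

/-- A type identified with a Boolean cube. -/
class Cube (Ω : Type) where
  ι : Type
  [fι : Fintype ι]
  [dι : DecidableEq ι]
  e : Ω ≃ (ι → Bool)

instance cubeFintype (Ω : Type) [c : Cube Ω] : Fintype (Cube.ι Ω) := c.fι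
instance cubeDecEq (Ω : Type) [c : Cube Ω] : DecidableEq (Cube.ι Ω) := c.dι
instance cubeNonempty (Ω : Type) [c : Cube Ω] : Nonempty Ω := ⟨c.e.symm fun _ => true⟩

instance cubeProd (A B : Type) [Cube A] [Cube B] : Cube (A × B) where
  ι := Cube.ι A ⊕ Cube.ι B
  e := (Equiv.prodCongr Cube.e Cube.e).trans (Equiv.sumArrowEquivProdArrow _ _ _).symm

instance cubePi (κ A : Type) [Fintype κ] [DecidableEq κ] [Cube A] : Cube (κ → A) where
  ι := κ × Cube.ι A
  e := (Equiv.piCongrRight fun _ => Cube.e).trans (Equiv.curry _ _ _).symm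

/-- The one-dimensional cube. -/
@[reducible] def cubeBool : Cube Bool where
  ι := Unit
  e := (Equiv.funUnique Unit Bool).symm

/-- Sign of a bit. -/
def sg (b : Bool) : ℝ := if b then 1 else -1

section
variable {Ω : Type} [Cube Ω]

/-- Sum of the coordinates. -/
def L (x : Ω) : ℝ := ∑ i, sg (Cube.e x i)

/-- Functions depending only on the coordinates in `J`. -/
def Junta (J : Finset (Cube.ι Ω)) (G : Ω → ℝ) : Prop :=
  ∀ x y, (∀ i ∈ J, Cube.e x i = Cube.e y i) → G x = G y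

/-- Functions of degree at most `d`. -/
def Deg (Ω : Type) [Cube Ω] (d : ℕ) : Submodule ℝ (Ω → ℝ) :=
  Submodule.span ℝ {G | ∃ J : Finset (Cube.ι Ω), J.card ≤ d ∧ Junta J G}

lemma Deg_mono {d d' : ℕ} (h : d ≤ d') {F : Ω → ℝ} (hF : F ∈ Deg Ω d) : F ∈ Deg Ω d' := by
  refine Submodule.span_mono ?_ hF
  rintro G ⟨J, hJ, hG⟩
  exact ⟨J, hJ.trans h, hG⟩

lemma const_mem_Deg (d : ℕ) (c : ℝ) : (fun _ : Ω => c) ∈ Deg Ω d :=
  Submodule.subset_span ⟨∅, by simp, fun _ _ _ => rfl⟩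

lemma mul_mem_Deg {a b : ℕ} {F G : Ω → ℝ} (hF : F ∈ Deg Ω a) (hG : G ∈ Deg Ω b) :
    (fun x => F x * G x) ∈ Deg Ω (a + b) := by
  change F * G ∈ _
  induction hF using Submodule.span_induction with
  | mem F hF =>
    induction hG using Submodule.span_induction with
    | mem G hG =>
      obtain ⟨J, hJ, hF⟩ := hF
      obtain ⟨K, hK, hG⟩ := hG
      refine Submodule.subset_span ⟨J ∪ K, (Finset.card_union_le _ _).trans (by omega), ?_⟩
      intro x y h
      simp only [Pi.mul_apply]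
      rw [hF x y fun i hi => h i (Finset.mem_union_left _ hi),
        hG x y fun i hi => h i (Finset.mem_union_right _ hi)]
    | zero => rw [mul_zero]; exact Submodule.zero_mem _
    | add G G' _ _ h1 h2 => rw [mul_add]; exact Submodule.add_mem _ h1 h2
    | smul c G _ h1 => rw [mul_smul_comm]; exact Submodule.smul_mem _ _ h1
  | zero => rw [zero_mul]; exact Submodule.zero_mem _
  | add F F' _ _ h1 h2 => rw [add_mul]; exact Submodule.add_mem _ h1 h2
  | smul c F _ h1 => rw [smul_mul_assoc]; exact Submodule.smul_mem _ _ h1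

lemma prod_mem_Deg {κ : Type*} (S : Finset κ) (d : κ → ℕ) (F : κ → Ω → ℝ)
    (h : ∀ j ∈ S, F j ∈ Deg Ω (d j)) : (fun x => ∏ j ∈ S, F j x) ∈ Deg Ω (∑ j ∈ S, d j) := by
  classical
  induction S using Finset.induction_on with
  | empty => simpa using const_mem_Deg (Ω := Ω) 0 1
  | insert j S hj ih =>
    simp only [Finset.prod_insert hj, Finset.sum_insert hj]
    exact mul_mem_Deg (h j (Finset.mem_insert_self _ _))
      (ih fun k hk => h k (Finset.mem_insert_of_mem hk))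

lemma sum_mem_Deg {κ : Type*} (S : Finset κ) (d : ℕ) (F : κ → Ω → ℝ)
    (h : ∀ j ∈ S, F j ∈ Deg Ω d) : (fun x => ∑ j ∈ S, F j x) ∈ Deg Ω d := by
  have := Submodule.sum_mem (Deg Ω d) h
  convert this using 1
  funext x; simp

lemma const_mul_mem_Deg {d : ℕ} (c : ℝ) {F : Ω → ℝ} (h : F ∈ Deg Ω d) :
    (fun x => c * F x) ∈ Deg Ω d := Submodule.smul_mem _ c h

lemma lift_mem_Deg {Ω' : Type} [Cube Ω'] (φ : Ω' → Ω) (j : Cube.ι Ω → Cube.ι Ω')
    (hj : ∀ x i, Cube.e (φ x) i = Cube.e x (j i)) {d : ℕ} {F : Ω → ℝ} (hF : F ∈ Deg Ω d) :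
    (fun x => F (φ x)) ∈ Deg Ω' d := by
  induction hF using Submodule.span_induction with
  | mem F hF =>
    obtain ⟨J, hJ, hF⟩ := hF
    refine Submodule.subset_span ⟨J.image j, Finset.card_image_le.trans hJ, ?_⟩
    intro x y h
    refine hF _ _ fun i hi => ?_
    rw [hj, hj]
    exact h _ (Finset.mem_image_of_mem _ hi)
  | zero => exact Submodule.zero_mem _
  | add F F' _ _ h1 h2 => exact Submodule.add_mem _ h1 h2
  | smul c F _ h1 => exact Submodule.smul_mem _ c h1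

lemma fst_mem_Deg {B : Type} [Cube B] {d : ℕ} {F : Ω → ℝ} (hF : F ∈ Deg Ω d) :
    (fun x : Ω × B => F x.1) ∈ Deg (Ω × B) d :=
  lift_mem_Deg Prod.fst Sum.inl (fun _ _ => rfl) hF

lemma snd_mem_Deg {B : Type} [Cube B] {d : ℕ} {F : Ω → ℝ} (hF : F ∈ Deg Ω d) :
    (fun x : B × Ω => F x.2) ∈ Deg (B × Ω) d :=
  lift_mem_Deg Prod.snd Sum.inr (fun _ _ => rfl) hF

lemma eval_mem_Deg {κ : Type} [Fintype κ] [DecidableEq κ] (k : κ) {d : ℕ} {F : Ω → ℝ}
    (hF : F ∈ Deg Ω d) : (fun x : κ → Ω => F (x k)) ∈ Deg (κ → Ω) d :=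
  lift_mem_Deg (fun x : κ → Ω => x k) (fun i => (k, i)) (fun _ _ => rfl) hF

lemma L_prod {B : Type} [Cube B] (x : Ω × B) : L x = L x.1 + L x.2 := by
  unfold L
  exact Fintype.sum_sum_type (fun i : Cube.ι Ω ⊕ Cube.ι B => sg (Cube.e x i))

lemma L_pi {κ : Type} [Fintype κ] [DecidableEq κ] (x : κ → Ω) : L x = ∑ k, L (x k) := by
  unfold L
  exact Fintype.sum_prod_type (fun i : κ × Cube.ι Ω => sg (Cube.e x i))

/-- Flipping one coordinate. -/
def flip (i : Cube.ι Ω) (x : Ω) : Ω :=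
  Cube.e.symm (Function.update (Cube.e x) i (!(Cube.e x i)))

lemma e_flip (i : Cube.ι Ω) (x : Ω) :
    Cube.e (flip i x) = Function.update (Cube.e x) i (!(Cube.e x i)) := by
  simp [flip]

lemma flip_flip (i : Cube.ι Ω) (x : Ω) : flip i (flip i x) = x := by
  apply Cube.e.injective
  rw [e_flip, e_flip]
  simp

lemma sg_not (b : Bool) : sg (!b) = - sg b := by cases b <;> simp [sg]

variable [Fintype Ω]

lemma fourier_zero {d : ℕ} {F : Ω → ℝ} (hF : F ∈ Deg Ω d) (S : Finset (Cube.ι Ω))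
    (hS : d < S.card) : ∑ x, F x * ∏ i ∈ S, sg (Cube.e x i) = 0 := by
  induction hF using Submodule.span_induction with
  | mem F hF =>
    obtain ⟨J, hJ, hF⟩ := hF
    obtain ⟨i, hiS, hiJ⟩ : ∃ i ∈ S, i ∉ J := by
      by_contra h
      push Not at h
      have := Finset.card_le_card (show S ⊆ J from h)
      omega
    let τ : Ω ≃ Ω := ⟨flip i, flip i, flip_flip i, flip_flip i⟩
    have h1 := Equiv.sum_comp τ (fun x => F x * ∏ i ∈ S, sg (Cube.e x i))
    have h2 : ∀ x, F (τ x) * ∏ k ∈ S, sg (Cube.e (τ x) k) = -(F x * ∏ k ∈ S, sg (Cube.e x k)) := by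
      intro x
      have hτ : τ x = flip i x := rfl
      rw [hτ, hF (flip i x) x (fun k hk => by
        rw [e_flip, Function.update_of_ne (by rintro rfl; exact hiJ hk)])]
      rw [← Finset.mul_prod_erase S _ hiS, ← Finset.mul_prod_erase S _ hiS, e_flip,
        Function.update_self, sg_not]
      rw [Finset.prod_congr rfl (fun k hk => by
        rw [Function.update_of_ne (Finset.ne_of_mem_erase hk)])]
      ring
    simp_rw [h2] at h1
    rw [Finset.sum_neg_distrib] at h1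
    linarith
  | zero => simp
  | add F F' _ _ h1 h2 => simp only [Pi.add_apply, add_mul, Finset.sum_add_distrib, h1, h2, add_zero]
  | smul c F _ h1 => simp only [Pi.smul_apply, smul_eq_mul, mul_assoc, ← Finset.mul_sum, h1, mul_zero]

lemma ex_L : ex (L : Ω → ℝ) = 0 := by
  unfold L
  rw [ex_sum Finset.univ (fun i (x : Ω) => sg (Cube.e x i))]
  refine Finset.sum_eq_zero fun i _ => ?_
  have := fourier_zero (const_mem_Deg (Ω := Ω) 0 1) {i} (by simp)
  simp only [Finset.prod_singleton, one_mul] at this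
  simp [ex, this]

lemma eq_sum_image {α : Type} (π : Ω → α) (φ : α → ℝ) (x : Ω) [DecidableEq α] :
    φ (π x) = ∑ a ∈ Finset.univ.image π, ind (π x = a) * φ a :=
  (sum_ind_mul _ _ (Finset.mem_image_of_mem _ (Finset.mem_univ x)) φ).symm

lemma mem_Deg_of_cost {α : Type} (π : Ω → α) (d : α → ℕ)
    (h : ∀ a, (fun x => ind (π x = a)) ∈ Deg Ω (d a)) (D : ℕ) (φ : α → ℝ)
    (hφ : ∀ a, φ a ≠ 0 → d a ≤ D) : (fun x => φ (π x)) ∈ Deg Ω D := by
  classical
  simp_rw [eq_sum_image π φ]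
  refine sum_mem_Deg _ _ (fun a x => ind (π x = a) * φ a) fun a _ => ?_
  by_cases ha : φ a = 0
  · simp only [ha, mul_zero]; exact const_mem_Deg _ _
  · simp_rw [mul_comm _ (φ a)]
    exact const_mul_mem_Deg _ (Deg_mono (hφ a ha) (h a))

/-- A label all of whose functions have degree at most `D`. -/
def Lab {α : Type} (D : ℕ) (π : Ω → α) : Prop := ∀ φ : α → ℝ, (fun x => φ (π x)) ∈ Deg Ω D

lemma Lab.of_ind {α : Type} {D : ℕ} {π : Ω → α}
    (h : ∀ a, (fun x => ind (π x = a)) ∈ Deg Ω D) : Lab D π :=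
  fun φ => mem_Deg_of_cost π (fun _ => D) h D φ fun _ _ => le_rfl

lemma Lab.comp {α β : Type} {D : ℕ} {π : Ω → α} (h : Lab D π) (ψ : α → β) :
    Lab D (fun x => ψ (π x)) := fun φ => h fun a => φ (ψ a)

lemma Lab.const {α : Type} (a : α) : Lab 0 (fun _ : Ω => a) := fun φ => const_mem_Deg 0 (φ a)

lemma Lab.prod {B : Type} [Cube B] [Fintype B] {α β : Type} {D₁ D₂ : ℕ} {π₁ : Ω → α} {π₂ : B → β}
    (h₁ : Lab D₁ π₁) (h₂ : Lab D₂ π₂) : Lab (D₁ + D₂) (fun x : Ω × B => (π₁ x.1, π₂ x.2)) := by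
  refine Lab.of_ind fun a => ?_
  have : (fun x : Ω × B => ind ((π₁ x.1, π₂ x.2) = a)) =
      fun x => ind (π₁ x.1 = a.1) * ind (π₂ x.2 = a.2) := by
    funext x; rw [← ind_and]; exact ind_congr Prod.ext_iff
  rw [this]
  exact mul_mem_Deg (fst_mem_Deg (h₁ fun u => ind (u = a.1)))
    (snd_mem_Deg (h₂ fun u => ind (u = a.2)))

lemma pi_ind_mem_Deg {κ : Type} [Fintype κ] [DecidableEq κ] {α : Type} (π : κ → Ω → α)
    (d : κ → α → ℕ) (h : ∀ k a, (fun x => ind (π k x = a)) ∈ Deg Ω (d k a)) (a : κ → α) :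
    (fun x : κ → Ω => ind ((fun k => π k (x k)) = a)) ∈ Deg (κ → Ω) (∑ k, d k (a k)) := by
  have : (fun x : κ → Ω => ind ((fun k => π k (x k)) = a)) =
      fun x => ∏ k, ind (π k (x k) = a k) := by
    funext x
    rw [← ind_forall_mem]
    exact ind_congr (by simp [funext_iff])
  rw [this]
  exact prod_mem_Deg _ _ (fun k (x : κ → Ω) => ind (π k (x k) = a k)) fun k _ =>
    eval_mem_Deg k (h k (a k))

lemma Lab.pi {κ : Type} [Fintype κ] [DecidableEq κ] {α : Type} {π : κ → Ω → α} {D : κ → ℕ}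
    (h : ∀ k, Lab (D k) (π k)) : Lab (∑ k, D k) (fun (x : κ → Ω) k => π k (x k)) :=
  Lab.of_ind fun a => pi_ind_mem_Deg π (fun k _ => D k) (fun k a => h k fun u => ind (u = a)) a

/-- `μ ∘ π` is the conditional mean of the sum of the coordinates given the label `π`. -/
def Orth {α : Type} (π : Ω → α) (μ : α → ℝ) : Prop :=
  ∀ φ : α → ℝ, ex (fun x => φ (π x) * (L x - μ (π x))) = 0

lemma exists_orth {α : Type} (π : Ω → α) : ∃ μ, Orth π μ := by
  classical
  refine ⟨fun a => ex (fun x => ind (π x = a) * L x) / ex (fun x => ind (π x = a)), fun φ => ?_⟩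
  set μ : α → ℝ := fun a => ex (fun x => ind (π x = a) * L x) / ex (fun x => ind (π x = a))
  have h1 : ∀ x, φ (π x) * (L x - μ (π x)) =
      ∑ a ∈ Finset.univ.image π, φ a * (ind (π x = a) * L x - μ a * ind (π x = a)) := by
    intro x
    rw [eq_sum_image π (fun a => φ a * (L x - μ a)) x]
    exact Finset.sum_congr rfl fun a _ => by ring
  simp_rw [h1]
  rw [ex_sum _ (fun a x => φ a * (ind (π x = a) * L x - μ a * ind (π x = a)))]
  refine Finset.sum_eq_zero fun a ha => ?_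
  rw [ex_mul_left, ex_sub, ex_mul_left]
  obtain ⟨y, -, rfl⟩ := Finset.mem_image.mp ha
  have hpos : 0 < ex (fun x => ind (π x = π y)) := by
    unfold ex
    refine div_pos ?_ (by exact_mod_cast Fintype.card_pos)
    exact Finset.sum_pos' (fun x _ => ind_nonneg _) ⟨y, Finset.mem_univ _, by rw [ind_pos rfl]; norm_num⟩
  simp only [μ]
  rw [div_mul_cancel₀ _ hpos.ne', sub_self, mul_zero]

lemma Orth.mul_L {α : Type} {π : Ω → α} {μ : α → ℝ} (h : Orth π μ) (φ : α → ℝ) :
    ex (fun x => φ (π x) * L x) = ex (fun x => φ (π x) * μ (π x)) := by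
  have := h φ
  simp only [mul_sub] at this
  rw [ex_sub] at this
  linarith

lemma Orth.mean {α : Type} {π : Ω → α} {μ : α → ℝ} (h : Orth π μ) : ex (fun x => μ (π x)) = 0 := by
  have := h.mul_L fun _ => 1
  simp only [one_mul] at this
  rw [← this]; exact ex_L

lemma Orth.sq_ge {α : Type} {π : Ω → α} {μ : α → ℝ} (h : Orth π μ) (φ : α → ℝ) :
    2 * ex (fun x => φ (π x) * L x) - ex (fun x => φ (π x) ^ 2) ≤ ex (fun x => μ (π x) ^ 2) := by
  rw [h.mul_L, ← ex_mul_left, ← ex_sub]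
  exact ex_mono fun x => by nlinarith [sq_nonneg (μ (π x) - φ (π x))]

lemma Orth.comp {α β : Type} {π : Ω → α} {ψ : α → β} {μ : β → ℝ}
    (h : Orth π (fun a => μ (ψ a))) : Orth (fun x => ψ (π x)) μ := fun φ => h fun a => φ (ψ a)

lemma Orth.prod {B : Type} [Cube B] [Fintype B] {α β : Type} {π₁ : Ω → α} {π₂ : B → β}
    {μ₁ : α → ℝ} {μ₂ : β → ℝ} (h₁ : Orth π₁ μ₁) (h₂ : Orth π₂ μ₂) :
    Orth (fun x : Ω × B => (π₁ x.1, π₂ x.2)) (fun a => μ₁ a.1 + μ₂ a.2) := by
  intro φ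
  have h1 : ∀ x : Ω × B, φ (π₁ x.1, π₂ x.2) * (L x - (μ₁ (π₁ x.1) + μ₂ (π₂ x.2))) =
      φ (π₁ x.1, π₂ x.2) * (L x.1 - μ₁ (π₁ x.1)) + φ (π₁ x.1, π₂ x.2) * (L x.2 - μ₂ (π₂ x.2)) := by
    intro x; rw [L_prod]; ring
  simp_rw [h1]
  rw [ex_add, ex_prod, ex_prod, ex_comm]
  simp only
  rw [ex_congr (fun b => h₁ fun a => φ (a, π₂ b)), ex_congr (fun a => h₂ fun b => φ (π₁ a, b))]
  simp [ex_zero]

lemma Orth.pi {κ : Type} [Fintype κ] [DecidableEq κ] {α : Type} {π : Ω → α} {μ : α → ℝ}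
    (h : Orth π μ) : Orth (fun (x : κ → Ω) k => π (x k)) (fun a => ∑ k, μ (a k)) := by
  intro φ
  have h1 : ∀ x : κ → Ω, φ (fun k => π (x k)) * (L x - ∑ k, μ (π (x k))) =
      ∑ k, φ (fun k => π (x k)) * (L (x k) - μ (π (x k))) := by
    intro x; rw [L_pi, ← Finset.sum_sub_distrib, Finset.mul_sum]
  simp_rw [h1]
  rw [ex_sum _ (fun k (x : κ → Ω) => φ (fun k => π (x k)) * (L (x k) - μ (π (x k))))]
  refine Finset.sum_eq_zero fun k _ => ?_
  rw [ex_update (A := fun _ => Ω) k]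
  simp only [Function.update_self]
  have h2 : ∀ (x : κ → Ω) (a : Ω), (fun j => π (Function.update x k a j)) =
      Function.update (fun j => π (x j)) k (π a) := by
    intro x a; funext j
    by_cases hj : j = k
    · subst hj; simp
    · simp [hj]
  simp_rw [h2]
  rw [ex_congr (fun x : κ → Ω => h fun a => φ (Function.update (fun j => π (x j)) k a))]
  exact ex_zero

end

end Crest.Agent.R063
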