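import Crest.Agent.R063.Gadget

/-!
The fractional solution and its cost (row 63).
-/

set_option autoImplicit false
set_option linter.unusedSectionVars false

namespace Crest.Agent.R063

open Finset

/-- The three-point signed weight on lines. -/
noncomputable def hh (x0 : ℤ) (l : ℕ) (x : ℤ) : ℝ :=
  64 * ind (x = x0) - 8 * ind (x = x0 + l) + ind (x = x0 + 2 * l)

lemma abs_hh_le (x0 : ℤ) (l : ℕ) (x : ℤ) : |hh x0 l x| ≤ 73 := by
  unfold hh
  have := ind_nonneg (x = x0); have := ind_le_one (x = x0)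
  have := ind_nonneg (x = x0 + l); have := ind_le_one (x = x0 + l)
  have := ind_nonneg (x = x0 + 2 * l); have := ind_le_one (x = x0 + 2 * l)
  rw [abs_le]; constructor <;> linarith

/-- Average of the line weights through a point. -/
noncomputable def GG (x0 : ℤ) (l : ℕ) {m : ℕ} (σ : ℤ) (κ : Fin m → ℤ) : ℝ :=
  (m : ℝ)⁻¹ * ∑ i, hh x0 l (σ - κ i)

lemma abs_GG_le (x0 : ℤ) (l : ℕ) {m : ℕ} (σ : ℤ) (κ : Fin m → ℤ) : |GG x0 l σ κ| ≤ 73 := by
  unfold GG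
  rcases Nat.eq_zero_or_pos m with rfl | hm
  · simp
  have hm' : (0 : ℝ) < m := by exact_mod_cast hm
  rw [abs_mul, abs_of_pos (inv_pos.mpr hm'), inv_mul_le_iff₀ hm']
  refine (Finset.abs_sum_le_sum_abs _ _).trans ?_
  simpa using Finset.sum_le_card_nsmul Finset.univ _ 73 fun i _ => abs_hh_le x0 l (σ - κ i)

/-- Flattening weight of the wide symbol. -/
noncomputable def rr {Ω' : Type} [Fintype Ω'] (kU : Ω' → ℤ) (R : ℤ) (ps : ℝ) (k : ℤ) : ℝ :=
  if |k| ≤ R then ps / pr (fun y => kU y = k) else 0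

section
variable {Ω Ω' : Type} [Fintype Ω] [Nonempty Ω] [Fintype Ω'] [Nonempty Ω']

lemma rr_nonneg (kU : Ω' → ℤ) (R : ℤ) {ps : ℝ} (hps : 0 < ps) (k : ℤ) : 0 ≤ rr kU R ps k := by
  unfold rr
  split_ifs
  · exact div_nonneg hps.le (pr_nonneg _)
  · exact le_rfl

lemma rr_le_one (kU : Ω' → ℤ) (R : ℤ) {ps : ℝ} (hps : 0 < ps)
    (h : ∀ k : ℤ, |k| ≤ R → ps ≤ pr fun y => kU y = k) (k : ℤ) : rr kU R ps k ≤ 1 := by
  unfold rr
  split_ifs with hk
  · exact (div_le_one (hps.trans_le (h k hk))).mpr (h k hk)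
  · exact zero_le_one

lemma flatten (kU : Ω' → ℤ) (R : ℤ) {ps : ℝ} (hps : 0 < ps)
    (h : ∀ k : ℤ, |k| ≤ R → ps ≤ pr fun y => kU y = k) (Φ : ℤ → ℝ) :
    ex (fun y => rr kU R ps (kU y) * Φ (kU y)) = ps * ∑ k ∈ Finset.Icc (-R) R, Φ k := by
  have h1 : ∀ y, rr kU R ps (kU y) * Φ (kU y) =
      ∑ k ∈ Finset.Icc (-R) R, ind (kU y = k) * (rr kU R ps k * Φ k) := by
    intro y
    by_cases hk : kU y ∈ Finset.Icc (-R) R
    · exact (sum_ind_mul _ _ hk fun k => rr kU R ps k * Φ k).symm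
    · rw [Finset.sum_eq_zero fun k hk' => by rw [ind_neg (by rintro rfl; exact hk hk'), zero_mul]]
      rw [Finset.mem_Icc, ← abs_le] at hk
      simp [rr, hk]
  simp_rw [h1]
  rw [ex_sum _ (fun k y => ind (kU y = k) * (rr kU R ps k * Φ k)), Finset.mul_sum]
  refine Finset.sum_congr rfl fun k hk => ?_
  rw [ex_mul_right]
  rw [Finset.mem_Icc, ← abs_le] at hk
  have := (hps.trans_le (h k hk)).ne'
  simp only [rr, hk, if_true]
  change pr (fun y => kU y = k) * _ = _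
  field_simp

lemma sum_ind_shift (S : Finset ℤ) (A a : ℤ) (ψ : ℝ) (hψ : 0 ≤ ψ) :
    ∑ k ∈ S, ind (k + A = a) * ψ ≤ ψ := by
  have := sum_ind_mul_le S (a - A) (fun _ => ψ) hψ
  refine le_trans (le_of_eq (Finset.sum_congr rfl fun k _ => ?_)) this
  rw [ind_congr (show k + A = a ↔ a - A = k by omega)]

lemma sum_ind_shift_eq (R A a : ℤ) (ψ : ℝ) :
    ∑ k ∈ Finset.Icc (-R) R, ind (k + A = a) * ψ = (1 - ind (R < |a - A|)) * ψ := by
  have h1 : ∑ k ∈ Finset.Icc (-R) R, ind (k + A = a) * ψ =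
      ∑ k ∈ Finset.Icc (-R) R, ind (a - A = k) * ψ :=
    Finset.sum_congr rfl fun k _ => by rw [ind_congr (show k + A = a ↔ a - A = k by omega)]
  rw [h1]
  by_cases h : R < |a - A|
  · rw [ind_pos h, Finset.sum_eq_zero, sub_self, zero_mul]
    intro k hk
    rw [Finset.mem_Icc, ← abs_le] at hk
    rw [ind_neg, zero_mul]
    rintro rfl; omega
  · rw [ind_neg h, sum_ind_mul _ _ (by rw [Finset.mem_Icc, ← abs_le]; omega) (fun _ => ψ)]
    ring

/-- Remainder of a real number with respect to the grid. -/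
noncomputable def zeta (l : ℕ) (z : ℝ) : ℝ := z - (⌊l * z⌋ : ℝ) / l

lemma zeta_nonneg {l : ℕ} (hl : 0 < l) (z : ℝ) : 0 ≤ zeta l z := by
  have hl' : (0 : ℝ) < l := by exact_mod_cast hl
  unfold zeta
  rw [sub_nonneg, div_le_iff₀ hl', mul_comm]
  exact Int.floor_le _

lemma zeta_le {l : ℕ} (hl : 0 < l) (z : ℝ) : zeta l z ≤ 1 / l := by
  have hl' : (0 : ℝ) < l := by exact_mod_cast hl
  unfold zeta
  rw [sub_le_iff_le_add, ← add_div, le_div_iff₀ hl', mul_comm]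
  linarith [Int.lt_floor_add_one ((l : ℝ) * z)]

/-- The offset of the lines. -/
noncomputable def xo (Z : Ω → ℝ) (l m : ℕ) : ℤ := -⌊(l : ℝ) * ((m - 1) * ex fun ω => zeta l (Z ω))⌋

lemma xo_spec (Z : Ω → ℝ) {l : ℕ} (hl : 0 < l) (m : ℕ) :
    0 ≤ (xo Z l m : ℝ) / l + (m - 1) * ex (fun ω => zeta l (Z ω)) ∧
    (xo Z l m : ℝ) / l + (m - 1) * ex (fun ω => zeta l (Z ω)) ≤ 1 / l := by
  have h1 := zeta_nonneg hl ((m - 1) * ex fun ω => zeta l (Z ω))
  have h2 := zeta_le hl ((m - 1) * ex fun ω => zeta l (Z ω))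
  unfold zeta at h1 h2
  unfold xo zeta
  push_cast
  rw [neg_div]
  constructor <;> linarith

lemma ex_Xi_sq (Z : Ω → ℝ) {l : ℕ} (hl : 0 < l) {m : ℕ} (S : Finset (Fin m)) :
    ex (fun x : Fin m → Ω => (∑ j ∈ S, (zeta l (Z (x j)) - ex fun ω => zeta l (Z ω))) ^ 2) ≤
      m * (1 / l) ^ 2 := by
  rw [ex_sq_sum S (fun _ ω => zeta l (Z ω) - ex fun ω => zeta l (Z ω))
    (fun _ => by rw [ex_sub, ex_const, sub_self])]
  have h0 : 0 ≤ ex fun ω => zeta l (Z ω) := ex_nonneg fun ω => zeta_nonneg hl _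
  have h1 : ex (fun ω => zeta l (Z ω)) ≤ 1 / l := ex_le_of_le fun ω => zeta_le hl _
  have h2 : ex (fun a => (zeta l (Z a) - ex fun ω => zeta l (Z ω)) ^ 2) ≤ (1 / l) ^ 2 := by
    refine ex_le_of_le fun a => ?_
    have := zeta_nonneg hl (Z a)
    have := zeta_le hl (Z a)
    exact sq_le_sq' (by linarith) (by linarith)
  rw [Finset.sum_const, nsmul_eq_mul]
  have h3 : (S.card : ℝ) ≤ m := by
    have := Finset.card_le_univ S
    rw [Fintype.card_fin] at this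
    exact_mod_cast this
  exact mul_le_mul h3 h2 (ex_nonneg fun _ => sq_nonneg _) (Nat.cast_nonneg _)

lemma lin_one (Z : Ω → ℝ) (U : Ω' → ℝ) (h0 : ex Z = 0) (h2 : ex (fun ω => Z ω ^ 2) = 1)
    {l m s : ℕ} (hl : 0 < l) (hs : 1800 * m ≤ s ^ 2) {ps : ℝ} (hps : 0 < ps)
    (hU : ∀ k : ℤ, |k| ≤ l * s → ps ≤ pr fun y => ⌊l * U y⌋ = k) (i : Fin m) :
    ex (fun y : Ω' => ex fun x : Fin m → Ω => aa (U y + ∑ j, Z (x j)) *
      (rr (fun y => ⌊l * U y⌋) (l * s) ps ⌊l * U y⌋ *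
        hh (xo Z l m) l (⌊l * U y⌋ + ∑ j, ⌊l * Z (x j)⌋ - ⌊l * Z (x i)⌋))) ≤
      ps * (-5 / 2 + 10000 * (m * (1 / l) ^ 2)) := by
  have hl' : (0 : ℝ) < l := by exact_mod_cast hl
  have hl1 : (1 : ℝ) / l ≤ 1 := by rw [div_le_one hl']; exact_mod_cast hl
  have hδ : (0 : ℝ) < 1 / l := by positivity
  have hm : (1 : ℝ) ≤ m := by exact_mod_cast i.pos
  set x0 := xo Z l m with hx0
  set zb := ex fun ω => zeta l (Z ω) with hzb
  set r := rr (fun y => ⌊l * U y⌋) (l * s) ps with hr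
  have hr0 : ∀ k, 0 ≤ r k := rr_nonneg _ _ hps
  let κ : (Fin m → Ω) → ℤ := fun x => ∑ j ∈ Finset.univ.erase i, ⌊l * Z (x j)⌋
  let S : (Fin m → Ω) → ℝ := fun x => ∑ j ∈ Finset.univ.erase i, Z (x j)
  let Ξ : (Fin m → Ω) → ℝ := fun x => ∑ j ∈ Finset.univ.erase i, (zeta l (Z (x j)) - zb)
  let E : (Fin m → Ω) → ℝ := fun x => 2 * Ξ x ^ 2 + 8 * (1 / l) ^ 2
  have hE0 : ∀ x, 0 ≤ E x := fun x => by positivity
  have hκS : ∀ x, (κ x : ℝ) / l = S x - (m - 1) * zb - Ξ x := by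
    intro x
    simp only [κ, S, Ξ, zeta, Finset.sum_sub_distrib, Finset.sum_const, nsmul_eq_mul,
      Finset.card_erase_of_mem (Finset.mem_univ i), Finset.card_univ, Fintype.card_fin]
    push_cast
    rw [Nat.cast_sub i.pos, Finset.sum_div]
    push_cast; ring
  obtain ⟨hx1, hx2⟩ := xo_spec Z hl m
  rw [← hx0, ← hzb] at hx1 hx2
  -- integrate out the symbol `i`
  have step1 : ∀ y : Ω', ex (fun x : Fin m → Ω => aa (U y + ∑ j, Z (x j)) *
      (r ⌊l * U y⌋ * hh x0 l (⌊l * U y⌋ + ∑ j, ⌊l * Z (x j)⌋ - ⌊l * Z (x i)⌋))) =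
      ex (fun x : Fin m → Ω => r ⌊l * U y⌋ * (hh x0 l (⌊l * U y⌋ + κ x) *
        (101 / 100 * (U y + S x) ^ 2 + 2 / 100))) := by
    intro y
    have e1 : ∀ x : Fin m → Ω, aa (U y + ∑ j, Z (x j)) *
        (r ⌊l * U y⌋ * hh x0 l (⌊l * U y⌋ + ∑ j, ⌊l * Z (x j)⌋ - ⌊l * Z (x i)⌋)) =
        r ⌊l * U y⌋ * (hh x0 l (⌊l * U y⌋ + κ x) * aa (U y + S x + Z (x i))) := by
      intro x
      rw [← Finset.sum_erase_add _ _ (Finset.mem_univ i),
        ← Finset.sum_erase_add _ (fun j => ⌊l * Z (x j)⌋) (Finset.mem_univ i)]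
      simp only [κ, S, add_assoc]
      rw [add_sub_assoc, add_sub_cancel_right]; ring
    simp_rw [e1]
    rw [ex_update (A := fun _ => Ω) i]
    refine ex_congr fun x => ?_
    have e2 : ∀ a, κ (Function.update x i a) = κ x := fun a => Finset.sum_congr rfl fun j hj => by
      rw [Function.update_of_ne (Finset.ne_of_mem_erase hj)]
    have e3 : ∀ a, S (Function.update x i a) = S x := fun a => Finset.sum_congr rfl fun j hj => by
      rw [Function.update_of_ne (Finset.ne_of_mem_erase hj)]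
    simp only [e2, e3, Function.update_self]
    rw [ex_mul_left, ex_mul_left]
    congr 2
    have e4 : ∀ a, aa (U y + S x + Z a) = 101 / 100 * (U y + S x) ^ 2 - 99 / 100 +
        (101 / 50 * (U y + S x)) * Z a + 101 / 100 * Z a ^ 2 := by intro a; unfold aa; ring
    simp_rw [e4]
    rw [ex_add, ex_add, ex_const, ex_mul_left, ex_mul_left, h0, h2]; ring
  simp_rw [step1]
  -- remove the dependence on the fine value of the wide symbol
  let Φ : (Fin m → Ω) → ℤ → ℝ := fun x k =>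
    ind (k + κ x = x0) * (64 * (101 / 100 * E x + 2 / 100)) -
      ind (k + κ x = x0 + l) * (8 * (1 - 101 * E x)) +
      ind (k + κ x = x0 + 2 * l) * (101 / 100 * (404 / 100 + 101 * E x) + 2 / 100)
  have step2 : ∀ (y : Ω') (x : Fin m → Ω), hh x0 l (⌊l * U y⌋ + κ x) *
      (101 / 100 * (U y + S x) ^ 2 + 2 / 100) ≤ Φ x ⌊l * U y⌋ := by
    intro y x
    have hz1 := zeta_nonneg hl (U y)
    have hz2 := zeta_le hl (U y)
    have key : ∀ j : ℕ, ⌊l * U y⌋ + κ x = x0 + j * l → ∃ ξ, U y + S x = j + ξ ∧ ξ ^ 2 ≤ E x := by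
      intro j hj
      refine ⟨Ξ x + (zeta l (U y) + ((x0 : ℝ) / l + (m - 1) * zb)), ?_, ?_⟩
      · have e5 : ((⌊l * U y⌋ : ℤ) : ℝ) + κ x = x0 + j * l := by exact_mod_cast hj
        have e6 : ((⌊l * U y⌋ : ℤ) : ℝ) / l + κ x / l = x0 / l + j := by
          rw [← add_div, e5, add_div, mul_div_cancel_right₀ _ hl'.ne']
        rw [hκS] at e6
        unfold zeta; linarith
      · simp only [E]
        have : ∀ v : ℝ, 0 ≤ v → v ≤ 2 * (1 / l) → (Ξ x + v) ^ 2 ≤ 2 * Ξ x ^ 2 + 8 * (1 / l) ^ 2 := by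
          intro v h1 h2
          have := pow_le_pow_left₀ h1 h2 2
          nlinarith [sq_nonneg (Ξ x - v)]
        exact this _ (by linarith) (by linarith)
    have t0 : ind (⌊l * U y⌋ + κ x = x0) * (64 * (101 / 100 * (U y + S x) ^ 2 + 2 / 100)) ≤
        ind (⌊l * U y⌋ + κ x = x0) * (64 * (101 / 100 * E x + 2 / 100)) := by
      by_cases h : ⌊l * U y⌋ + κ x = x0
      · obtain ⟨ξ, h1, h3⟩ := key 0 (by simpa using h)
        rw [ind_pos h, h1]; simp only [Nat.cast_zero, zero_add]; linarith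
      · rw [ind_neg h]; simp
    have t1 : ind (⌊l * U y⌋ + κ x = x0 + l) * (8 * (1 - 101 * E x)) ≤
        ind (⌊l * U y⌋ + κ x = x0 + l) * (8 * (101 / 100 * (U y + S x) ^ 2 + 2 / 100)) := by
      by_cases h : ⌊l * U y⌋ + κ x = x0 + l
      · obtain ⟨ξ, h1, h3⟩ := key 1 (by simpa using h)
        rw [ind_pos h, h1]; simp only [Nat.cast_one]
        nlinarith [sq_nonneg (10 * ξ + 1 / 10)]
      · rw [ind_neg h]; simp
    have t2 : ind (⌊l * U y⌋ + κ x = x0 + 2 * l) * (101 / 100 * (U y + S x) ^ 2 + 2 / 100) ≤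
        ind (⌊l * U y⌋ + κ x = x0 + 2 * l) * (101 / 100 * (404 / 100 + 101 * E x) + 2 / 100) := by
      by_cases h : ⌊l * U y⌋ + κ x = x0 + 2 * l
      · obtain ⟨ξ, h1, h3⟩ := key 2 (by simpa using h)
        rw [ind_pos h, h1]; simp only [Nat.cast_ofNat]
        nlinarith [sq_nonneg (10 * ξ - 1 / 5)]
      · rw [ind_neg h]; simp
    simp only [Φ, hh]
    linarith
  let D : (Fin m → Ω) → ℝ := fun x => ((x0 + l - κ x : ℤ) : ℝ) / l
  have hs' : 1800 * (m : ℝ) ≤ (s : ℝ) ^ 2 := by exact_mod_cast hs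
  have hs2 : (0 : ℝ) < (s : ℝ) ^ 2 := by linarith
  have step3 : ∀ x : Fin m → Ω, ∑ k ∈ Finset.Icc (-(l * s : ℤ)) (l * s), Φ x k ≤
      -13 / 5 + 1000 * E x + 8 * (D x ^ 2 / s ^ 2) := by
    intro x
    have := hE0 x
    simp only [Φ, Finset.sum_add_distrib, Finset.sum_sub_distrib]
    have a0 := sum_ind_shift (Finset.Icc (-(l * s : ℤ)) (l * s)) (κ x) x0
      (64 * (101 / 100 * E x + 2 / 100)) (by positivity)
    have a2 := sum_ind_shift (Finset.Icc (-(l * s : ℤ)) (l * s)) (κ x) (x0 + 2 * l)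
      (101 / 100 * (404 / 100 + 101 * E x) + 2 / 100) (by positivity)
    rw [sum_ind_shift_eq (l * s) (κ x) (x0 + l)]
    have a1 : ind ((l * s : ℤ) < |x0 + l - κ x|) ≤ D x ^ 2 / s ^ 2 := by
      by_cases h : (l * s : ℤ) < |x0 + l - κ x|
      · rw [ind_pos h, le_div_iff₀ hs2, one_mul, ← sq_abs (D x)]
        refine pow_le_pow_left₀ (Nat.cast_nonneg _) ?_ 2
        simp only [D]
        rw [abs_div, abs_of_pos hl', le_div_iff₀ hl', mul_comm]
        exact_mod_cast h.le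
      · rw [ind_neg h]; positivity
    have a3 := ind_nonneg ((l * s : ℤ) < |x0 + l - κ x|)
    have a4 := ind_le_one ((l * s : ℤ) < |x0 + l - κ x|)
    generalize ind ((l * s : ℤ) < |x0 + l - κ x|) = o at a1 a3 a4
    nlinarith [mul_nonneg a3 this]
  have hXi := ex_Xi_sq Z hl (Finset.univ.erase i)
  rw [← hzb] at hXi
  have hS : ex (fun x => S x ^ 2) ≤ m := by
    simp only [S]
    rw [ex_sq_sum _ (fun _ => Z) (fun _ => h0), Finset.sum_const, h2, nsmul_eq_mul, mul_one]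
    have := Finset.card_le_univ (Finset.univ.erase i)
    rw [Fintype.card_fin] at this
    exact_mod_cast this
  have hδ2 : (1 / (l : ℝ)) ^ 2 ≤ 1 := pow_le_one₀ hδ.le hl1
  have hD : ex (fun x => D x ^ 2) ≤ 18 * m := by
    have : ∀ x, D x ^ 2 ≤ 12 + 3 * Ξ x ^ 2 + 3 * S x ^ 2 := by
      intro x
      have e7 : D x = (1 + ((x0 : ℝ) / l + (m - 1) * zb)) + Ξ x - S x := by
        simp only [D]
        push_cast
        rw [sub_div, add_div, div_self hl'.ne', hκS]; ring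
      rw [e7]
      generalize (x0 : ℝ) / l + (m - 1) * zb = v at hx1 hx2
      have : (1 + v) ^ 2 ≤ 4 := by nlinarith
      nlinarith [sq_nonneg (1 + v - Ξ x), sq_nonneg (1 + v + S x), sq_nonneg (Ξ x + S x)]
    refine (ex_mono this).trans ?_
    rw [ex_add, ex_add, ex_const, ex_mul_left, ex_mul_left]
    have : ex (fun x => Ξ x ^ 2) ≤ m * (1 / l) ^ 2 := hXi
    nlinarith
  calc _ ≤ ex (fun y : Ω' => ex fun x : Fin m → Ω => r ⌊l * U y⌋ * Φ x ⌊l * U y⌋) :=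
        ex_mono fun y => ex_mono fun x => mul_le_mul_of_nonneg_left (step2 y x) (hr0 _)
    _ = ex (fun x : Fin m → Ω => ps * ∑ k ∈ Finset.Icc (-(l * s : ℤ)) (l * s), Φ x k) := by
        rw [ex_comm]
        exact ex_congr fun x => flatten (fun y => ⌊l * U y⌋) (l * s) hps hU (Φ x)
    _ ≤ ex (fun x : Fin m → Ω => ps * (-13 / 5 + 1000 * E x + 8 * (D x ^ 2 / s ^ 2))) :=
        ex_mono fun x => mul_le_mul_of_nonneg_left (step3 x) hps.le
    _ ≤ _ := by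
        rw [ex_mul_left]
        refine mul_le_mul_of_nonneg_left ?_ hps.le
        simp only [E, div_eq_mul_inv (D _ ^ 2)]
        rw [ex_add, ex_add, ex_const, ex_mul_left, ex_mul_left, ex_add, ex_const, ex_mul_left,
          ex_mul_right]
        have h5 : ex (fun x => Ξ x ^ 2) ≤ m * (1 / l) ^ 2 := hXi
        have h6 : ex (fun x => D x ^ 2) * ((s : ℝ) ^ 2)⁻¹ ≤ 1 / 100 := by
          rw [← div_eq_mul_inv, div_le_iff₀ hs2]; linarith
        have h7 : (1 / (l : ℝ)) ^ 2 ≤ m * (1 / l) ^ 2 := le_mul_of_one_le_left (by positivity) hm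
        linarith

lemma lin_part (Z : Ω → ℝ) (U : Ω' → ℝ) (h0 : ex Z = 0) (h2 : ex (fun ω => Z ω ^ 2) = 1)
    {l m s : ℕ} (hl : 0 < l) (hm : 0 < m) (hs : 1800 * m ≤ s ^ 2) {ps : ℝ} (hps : 0 < ps)
    (hU : ∀ k : ℤ, |k| ≤ l * s → ps ≤ pr fun y => ⌊l * U y⌋ = k) :
    ex (fun y : Ω' => ex fun x : Fin m → Ω => aa (U y + ∑ j, Z (x j)) *
      (rr (fun y => ⌊l * U y⌋) (l * s) ps ⌊l * U y⌋ *
        GG (xo Z l m) l (⌊l * U y⌋ + ∑ j, ⌊l * Z (x j)⌋) (fun j => ⌊l * Z (x j)⌋))) ≤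
      ps * (-5 / 2 + 10000 * (m * (1 / l) ^ 2)) := by
  have hm' : (0 : ℝ) < m := by exact_mod_cast hm
  have e1 : ∀ (y : Ω') (x : Fin m → Ω), aa (U y + ∑ j, Z (x j)) *
      (rr (fun y => ⌊l * U y⌋) (l * s) ps ⌊l * U y⌋ *
        GG (xo Z l m) l (⌊l * U y⌋ + ∑ j, ⌊l * Z (x j)⌋) (fun j => ⌊l * Z (x j)⌋)) =
      (m : ℝ)⁻¹ * ∑ i, aa (U y + ∑ j, Z (x j)) *
      (rr (fun y => ⌊l * U y⌋) (l * s) ps ⌊l * U y⌋ *
        hh (xo Z l m) l (⌊l * U y⌋ + ∑ j, ⌊l * Z (x j)⌋ - ⌊l * Z (x i)⌋)) := by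
    intro y x
    rw [← Finset.mul_sum, ← Finset.mul_sum, GG]; ring
  simp_rw [e1, ex_mul_left]
  rw [inv_mul_le_iff₀ hm']
  simp_rw [ex_sum Finset.univ (fun (i : Fin m) (x : Fin m → Ω) => aa (U _ + ∑ j, Z (x j)) *
      (rr (fun y => ⌊l * U y⌋) (l * s) ps ⌊l * U _⌋ *
        hh (xo Z l m) l (⌊l * U _⌋ + ∑ j, ⌊l * Z (x j)⌋ - ⌊l * Z (x i)⌋)))]
  rw [ex_sum Finset.univ (fun (i : Fin m) (y : Ω') => ex fun x : Fin m → Ω =>
    aa (U y + ∑ j, Z (x j)) * (rr (fun y => ⌊l * U y⌋) (l * s) ps ⌊l * U y⌋ *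
        hh (xo Z l m) l (⌊l * U y⌋ + ∑ j, ⌊l * Z (x j)⌋ - ⌊l * Z (x i)⌋)))]
  simpa using Finset.sum_le_card_nsmul Finset.univ _ _ fun i _ => lin_one Z U h0 h2 hl hs hps hU i

end

end Crest.Agent.R063
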