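import Crest.Agent.R063.Round

/-!
Turning an integer function into a Boolean one with the help of extra coordinates (row 63).
-/

set_option autoImplicit false
set_option linter.unusedSectionVars false

namespace Crest.Agent.R063

open Finset

lemma Ln_rep {X : Type} {s : ℕ} {φ : (Fin s → X) → ℝ} (h : φ ∈ Ln X s) :
    ∃ ψ : Fin s → (Fin s → X) → ℝ, (∀ i x a, ψ i (Function.update x i a) = ψ i x) ∧
      ∀ x, φ x = ∑ i, ψ i x := by
  induction h using Submodule.span_induction with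
  | mem φ h =>
    obtain ⟨i, hi⟩ := h
    refine ⟨fun j x => if j = i then φ x else 0, fun j x a => ?_, fun x => by simp⟩
    by_cases hj : j = i
    · subst hj; simp [hi]
    · simp [hj]
  | zero => exact ⟨0, fun _ _ _ => rfl, fun x => by simp⟩
  | add φ φ' _ _ h1 h2 =>
    obtain ⟨ψ, h1, h1'⟩ := h1
    obtain ⟨ψ', h2, h2'⟩ := h2
    exact ⟨fun i x => ψ i x + ψ' i x, fun i x a => by simp only [h1, h2],
      fun x => by simp only [Pi.add_apply, h1', h2', Finset.sum_add_distrib]⟩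
  | smul c φ _ h1 =>
    obtain ⟨ψ, h1, h1'⟩ := h1
    exact ⟨fun i x => c * ψ i x, fun i x a => by simp only [h1],
      fun x => by simp only [Pi.smul_apply, smul_eq_mul, h1', Finset.mul_sum]⟩

/-- Sums of functions each missing one symbol of the first or of the third group. -/
def Lines {m K : ℕ} (F : (Fin m → ℝ) → ℝ → (Fin (K + 1) → ℝ) → ℝ) : Prop :=
  ∃ (ψ : Fin m → (Fin m → ℝ) → ℝ → (Fin (K + 1) → ℝ) → ℝ)
    (ψ' : Fin (K + 1) → (Fin m → ℝ) → ℝ → (Fin (K + 1) → ℝ) → ℝ),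
    (∀ i z u t a, ψ i (Function.update z i a) u t = ψ i z u t) ∧
    (∀ l z u t a, ψ' l z u (Function.update t l a) = ψ' l z u t) ∧
    ∀ z u t, F z u t = ∑ i, ψ i z u t + ∑ l, ψ' l z u t

variable {K : ℕ}

open Classical in
/-- The set of extra symbols outside their thin class. -/
noncomputable def Nn (η t : Fin (K + 1) → ℝ) : Finset (Fin (K + 1)) :=
  Finset.univ.filter fun l => ¬ (0 ≤ t l ∧ t l < η l)

lemma mem_Nn {η t : Fin (K + 1) → ℝ} {l : Fin (K + 1)} : l ∈ Nn η t ↔ ¬ (0 ≤ t l ∧ t l < η l) := by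
  simp only [Nn, Finset.mem_filter, Finset.mem_univ, true_and]

lemma Nn_erase_update (η t : Fin (K + 1) → ℝ) (l : Fin (K + 1)) (a : ℝ) :
    (Nn η (Function.update t l a)).erase l = (Nn η t).erase l := by
  ext k
  simp only [Finset.mem_erase, mem_Nn]
  refine and_congr_right fun hk => ?_
  rw [Function.update_of_ne hk]

/-- The Boolean extension of an integer value. -/
noncomputable def gad (η : Fin (K + 1) → ℝ) (f : ℤ) (t : Fin (K + 1) → ℝ) : ℝ :=
  ind (1 ≤ f) * ind (Nn η t = ∅) +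
    ∑ j : Fin K, ind ((j : ℤ) + 1 ≤ -f) * ind (Nn η t = {j.succ}) +
    ∑ j : Fin K, ind ((j : ℤ) + 1 ≤ f - 1) * ind (Nn η t = {0, j.succ})

lemma sing_ne_pair (j j' : Fin K) : ({j.succ} : Finset (Fin (K + 1))) ≠ {0, j'.succ} := by
  intro h
  have : (0 : Fin (K + 1)) ∈ ({j.succ} : Finset (Fin (K + 1))) := by rw [h]; simp
  exact (Fin.succ_ne_zero j).symm (Finset.mem_singleton.mp this)

lemma pair_inj {j j' : Fin K} (h : ({0, j.succ} : Finset (Fin (K + 1))) = {0, j'.succ}) : j = j' := by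
  have : j.succ ∈ ({0, j'.succ} : Finset (Fin (K + 1))) := by rw [← h]; simp
  simp only [Finset.mem_insert, Fin.succ_ne_zero, Finset.mem_singleton, Fin.succ_inj,
    false_or] at this
  exact this

lemma gad_bool (η : Fin (K + 1) → ℝ) (f : ℤ) (t : Fin (K + 1) → ℝ) :
    gad η f t = 0 ∨ gad η f t = 1 := by
  unfold gad
  generalize Nn η t = S
  by_cases h0 : S = ∅
  · subst h0
    rw [Finset.sum_eq_zero fun j _ => by rw [ind_neg (Finset.singleton_ne_empty _).symm, mul_zero],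
      Finset.sum_eq_zero fun j _ => by rw [ind_neg (Finset.insert_ne_empty _ _).symm, mul_zero],
      ind_pos rfl]
    simpa using ind_zero_or_one _
  rw [ind_neg h0, mul_zero, zero_add]
  by_cases h1 : ∃ j : Fin K, S = {j.succ}
  · obtain ⟨j, rfl⟩ := h1
    rw [Finset.sum_eq_single j (fun j' _ hj => by
        rw [ind_neg (fun h => hj (Fin.succ_injective _ (Finset.singleton_injective h)).symm),
          mul_zero]) (by simp),
      Finset.sum_eq_zero fun j' _ => by rw [ind_neg (sing_ne_pair j j'), mul_zero], ind_pos rfl]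
    simpa using ind_zero_or_one _
  push Not at h1
  rw [Finset.sum_eq_zero fun j _ => by rw [ind_neg (h1 j), mul_zero], zero_add]
  by_cases h2 : ∃ j : Fin K, S = {0, j.succ}
  · obtain ⟨j, rfl⟩ := h2
    rw [Finset.sum_eq_single j (fun j' _ hj => by
        rw [ind_neg (fun h => hj (pair_inj h).symm), mul_zero]) (by simp), ind_pos rfl]
    simpa using ind_zero_or_one _
  push Not at h2
  left
  exact Finset.sum_eq_zero fun j _ => by rw [ind_neg (h2 j), mul_zero]

lemma ind_erase_empty (S : Finset (Fin (K + 1))) (l : Fin (K + 1)) :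
    ind (S.erase l = ∅) = ind (S = ∅) + ind (S = {l}) := by
  by_cases h0 : S = ∅
  · subst h0
    rw [ind_pos (by simp), ind_pos rfl, ind_neg (Finset.singleton_ne_empty _).symm, add_zero]
  · rw [ind_neg h0, zero_add]
    refine ind_congr ⟨fun h => ?_, fun h => by simp [h]⟩
    rcases Finset.subset_singleton_iff.mp (Finset.erase_eq_empty_iff _ _ |>.mp h |>.elim
      (fun h => by simp [h]) fun h => by simp [h] : S ⊆ {l}) with h | h
    · exact absurd h h0
    · exact h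

lemma ind_erase_zero (S : Finset (Fin (K + 1))) (j : Fin K) :
    ind (S.erase 0 = {j.succ}) = ind (S = {j.succ}) + ind (S = {0, j.succ}) := by
  by_cases h0 : (0 : Fin (K + 1)) ∈ S
  · rw [ind_neg (p := S = {j.succ}), zero_add]
    · refine ind_congr ⟨fun h => ?_, fun h => ?_⟩
      · rw [← h, Finset.insert_erase h0]
      · rw [h, Finset.erase_insert]
        simp [(Fin.succ_ne_zero j).symm]
    · rintro rfl
      exact (Fin.succ_ne_zero j).symm (Finset.mem_singleton.mp h0)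
  · rw [Finset.erase_eq_of_notMem h0, ind_neg (p := S = {0, j.succ}), add_zero]
    rintro rfl
    simp at h0

lemma sum_ind_le_aux (n : ℤ) (K : ℕ) :
    ∑ j : Fin K, ind (((j : ℕ) : ℤ) + 1 ≤ n) = min (K : ℝ) (max (n : ℝ) 0) := by
  induction K with
  | zero => simp
  | succ K ih =>
    rw [Fin.sum_univ_castSucc]
    simp only [Fin.val_castSucc, Fin.val_last, ih]
    push_cast
    by_cases h : (K : ℤ) + 1 ≤ n
    · rw [ind_pos h]
      have h' : (K : ℝ) + 1 ≤ n := by exact_mod_cast h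
      have hK : (0 : ℝ) ≤ K := Nat.cast_nonneg K
      rw [max_eq_left (by linarith), min_eq_left (by linarith), min_eq_left h']
    · rw [ind_neg h]
      have h' : (n : ℝ) ≤ K := by exact_mod_cast (show n ≤ K by omega)
      have hK : (0 : ℝ) ≤ K := Nat.cast_nonneg K
      have h2 : max (n : ℝ) 0 ≤ K := max_le h' hK
      rw [min_eq_right h2, min_eq_right (by linarith), add_zero]

lemma sum_ind_le {n : ℤ} (hn : n ≤ K) :
    ∑ j : Fin K, ind (((j : ℕ) : ℤ) + 1 ≤ n) = max (n : ℝ) 0 := by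
  rw [sum_ind_le_aux, min_eq_right]
  exact max_le (by exact_mod_cast hn) (Nat.cast_nonneg K)

lemma gad_eq (η : Fin (K + 1) → ℝ) {f : ℤ} (hf : |f| ≤ K) (t : Fin (K + 1) → ℝ) :
    gad η f t = f * ind (Nn η t = ∅) +
      (∑ j : Fin K, ind ((j : ℤ) + 1 ≤ f - 1) * ind ((Nn η t).erase 0 = {j.succ}) +
      ∑ j : Fin K, (ind ((j : ℤ) + 1 ≤ -f) - ind ((j : ℤ) + 1 ≤ f - 1)) *
        ind ((Nn η t).erase j.succ = ∅)) := by
  unfold gad
  generalize Nn η t = S
  rw [abs_le] at hf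
  have h1 := sum_ind_le (K := K) (n := -f) (by omega)
  have h2 := sum_ind_le (K := K) (n := f - 1) (by omega)
  have h3 : ind (1 ≤ f) = f + max ((-f : ℤ) : ℝ) 0 - max ((f - 1 : ℤ) : ℝ) 0 := by
    push_cast
    by_cases h : 1 ≤ f
    · have h' : (1 : ℝ) ≤ f := by exact_mod_cast h
      rw [ind_pos h, max_eq_right (by linarith), max_eq_left (by linarith)]; ring
    · have h' : (f : ℝ) ≤ 0 := by exact_mod_cast (show f ≤ 0 by omega)
      rw [ind_neg h, max_eq_left (by linarith), max_eq_right (by linarith)]; ring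
  rw [h3, ← h1, ← h2]
  simp only [ind_erase_empty, ind_erase_zero, mul_add, sub_mul, add_mul, Finset.sum_add_distrib,
    Finset.sum_sub_distrib, Finset.sum_mul]
  ring

lemma gad_lines {m : ℕ} (η : Fin (K + 1) → ℝ) (f : ℝ → (Fin m → ℝ) → ℤ)
    (hf : ∀ u z, |f u z| ≤ K) (hL : ∀ u, (fun z => (f u z : ℝ)) ∈ Ln ℝ m) :
    Lines (fun z u t => gad η (f u z) t) := by
  choose ψ hψ hψ' using fun u => Ln_rep (hL u)
  refine ⟨fun i z u t => ψ u i z * ind (Nn η t = ∅),
    fun l z u t => Fin.cases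
      (∑ j : Fin K, ind ((j : ℤ) + 1 ≤ f u z - 1) * ind ((Nn η t).erase 0 = {j.succ}))
      (fun j => (ind ((j : ℤ) + 1 ≤ -f u z) - ind ((j : ℤ) + 1 ≤ f u z - 1)) *
        ind ((Nn η t).erase j.succ = ∅)) l, ?_, ?_, ?_⟩
  · intro i z u t a
    simp only [hψ]
  · intro l z u t a
    refine Fin.cases ?_ (fun j => ?_) l
    · simp only [Fin.cases_zero, Nn_erase_update]
    · simp only [Fin.cases_succ, Nn_erase_update]
  · intro z u t
    simp only [Fin.sum_univ_succ, Fin.cases_zero, Fin.cases_succ]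
    rw [gad_eq η (hf u z), ← Finset.sum_mul, ← hψ' u z]

/-- Upper bound for the cost of a main point. -/
noncomputable def aa (y : ℝ) : ℝ := 101 / 100 * y ^ 2 - 99 / 100
/-- Upper bound for the cost of an auxiliary point. -/
noncomputable def BB (y : ℝ) : ℝ := 16 * y ^ 2 + 32

lemma BB_pos (y : ℝ) : 0 < BB y := by unfold BB; positivity
lemma abs_aa_le (y : ℝ) : |aa y| ≤ BB y := by
  unfold aa BB; rw [abs_le]; constructor <;> nlinarith [sq_nonneg y]

/-- Cost of an integer value. -/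
noncomputable def ct (c w y : ℝ) (f : ℤ) : ℝ :=
  aa y * f + 800 / c * BB y * max (-(f : ℝ)) 0 + 320000 * w / c ^ 2 * BB y * ((f : ℝ) ^ 2 - |(f : ℝ)|)

/-- Widths of the thin classes. -/
noncomputable def eta (K : ℕ) (w : ℝ) : Fin (K + 1) → ℝ :=
  Fin.cases (1 / 400) fun j => 1 / (400 * (1 + j * w))

lemma eta_pos {w : ℝ} (hw : 0 ≤ w) (l : Fin (K + 1)) : 0 < eta K w l := by
  refine Fin.cases ?_ (fun j => ?_) l
  · simp [eta]
  · simp only [eta, Fin.cases_succ]; positivity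

lemma eta_le_one {w : ℝ} (hw : 0 ≤ w) (l : Fin (K + 1)) : eta K w l ≤ 1 := by
  refine Fin.cases ?_ (fun j => ?_) l
  · simp only [eta, Fin.cases_zero]; norm_num
  · simp only [eta, Fin.cases_succ]
    rw [div_le_one (by positivity)]
    have : (0 : ℝ) ≤ j * w := by positivity
    linarith

lemma eta_sum {w : ℝ} (hw : 1 + Real.log K ≤ w) (hw1 : 1 ≤ w) : ∑ l, eta K w l ≤ 3 / 400 := by
  rw [Fin.sum_univ_succ]
  simp only [eta, Fin.cases_zero, Fin.cases_succ]
  have h1 : ∑ j : Fin K, 1 / (400 * (1 + (j : ℕ) * w)) ≤ 1 / 400 + 1 / (400 * w) * (harmonic K : ℝ) := by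
    rw [Fin.sum_univ_eq_sum_range (fun j : ℕ => 1 / (400 * (1 + (j : ℝ) * w))) K]
    calc ∑ j ∈ Finset.range K, 1 / (400 * (1 + (j : ℝ) * w))
        ≤ ∑ j ∈ Finset.range (K + 1), 1 / (400 * (1 + (j : ℝ) * w)) := by
          rw [Finset.sum_range_succ]
          have : 0 ≤ 1 / (400 * (1 + (K : ℝ) * w)) := by positivity
          linarith
      _ ≤ 1 / 400 + 1 / (400 * w) * (harmonic K : ℝ) := by
          rw [Finset.sum_range_succ', add_comm]
          simp only [Nat.cast_zero, zero_mul, add_zero, mul_one, harmonic]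
          push_cast
          rw [Finset.mul_sum]
          gcongr with j hj
          rw [← one_div, div_mul_div_comm, one_mul]
          refine one_div_le_one_div_of_le (by positivity) ?_
          nlinarith
  have h2 := harmonic_le_one_add_log K
  have h3 : 1 / (400 * w) * (harmonic K : ℝ) ≤ 1 / 400 := by
    rw [div_mul_eq_mul_div, one_mul, div_le_div_iff₀ (by positivity) (by norm_num)]
    nlinarith
  linarith

lemma one_add_sum_le_prod {κ : Type*} (S : Finset κ) (x : κ → ℝ) (hx : ∀ l, 0 ≤ x l) :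
    1 + ∑ l ∈ S, x l ≤ ∏ l ∈ S, (1 + x l) := by
  classical
  induction S using Finset.induction_on with
  | empty => simp
  | insert a S ha ih =>
    rw [Finset.sum_insert ha, Finset.prod_insert ha]
    have h1 : 0 ≤ ∑ l ∈ S, x l := Finset.sum_nonneg fun l _ => hx l
    nlinarith [hx a, mul_nonneg (hx a) h1, mul_le_mul_of_nonneg_left ih (hx a)]

section cost
variable {Ω : Type} [Fintype Ω] [Nonempty Ω]

lemma sum_thin_bound {η t : Fin (K + 1) → ℝ} {S : Finset (Fin (K + 1))} (hη : ∀ l, 0 ≤ η l)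
    (h : Nn η t = S) : 0 ≤ ∑ l ∈ Sᶜ, t l ∧ ∑ l ∈ Sᶜ, t l ≤ ∑ l, η l := by
  have h1 : ∀ l ∈ Sᶜ, 0 ≤ t l ∧ t l < η l := by
    intro l hl
    rw [Finset.mem_compl, ← h, mem_Nn, not_not] at hl
    exact hl
  refine ⟨Finset.sum_nonneg fun l hl => (h1 l hl).1, ?_⟩
  calc ∑ l ∈ Sᶜ, t l ≤ ∑ l ∈ Sᶜ, η l := Finset.sum_le_sum fun l hl => (h1 l hl).2.le
    _ ≤ ∑ l, η l := Finset.sum_le_sum_of_subset_of_nonneg (Finset.subset_univ _) fun l _ _ => hη l

lemma ind_Nn_le (η t : Fin (K + 1) → ℝ) (S : Finset (Fin (K + 1))) :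
    ind (Nn η t = S) ≤ ∏ l ∈ Sᶜ, ind (0 ≤ t l ∧ t l < η l) := by
  rw [← ind_forall_mem]
  refine ind_mono fun h l hl => ?_
  rw [Finset.mem_compl, ← h, mem_Nn, not_not] at hl
  exact hl

lemma cost_empty (Z : Ω → ℝ) {η : Fin (K + 1) → ℝ} (hη : ∀ l, 0 ≤ η l) (hH : ∑ l, η l ≤ 3 / 400)
    (y : ℝ) :
    ex (fun t : Fin (K + 1) → Ω => ind (Nn η (fun l => Z (t l)) = ∅) * ((y + ∑ l, Z (t l)) ^ 2 - 1)) ≤
      (∏ l, pr fun ω => 0 ≤ Z ω ∧ Z ω < η l) * aa y := by
  have h1 : (∏ l, pr fun ω => 0 ≤ Z ω ∧ Z ω < η l) =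
      ex (fun t : Fin (K + 1) → Ω => ind (Nn η (fun l => Z (t l)) = ∅)) := by
    unfold pr
    rw [← ex_prod_coord (A := fun _ => Ω) (fun l ω => ind (0 ≤ Z ω ∧ Z ω < η l))]
    refine ex_congr fun t => ?_
    rw [← ind_forall_mem]
    refine ind_congr ?_
    simp only [Finset.eq_empty_iff_forall_notMem, mem_Nn, not_not, Finset.mem_univ, true_imp_iff]
  rw [h1, ← ex_mul_right]
  refine ex_mono fun t => ?_
  by_cases h : Nn η (fun l => Z (t l)) = ∅
  · rw [ind_pos h]
    have := sum_thin_bound hη h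
    simp only [Finset.compl_empty] at this
    unfold aa
    obtain ⟨h2, h3⟩ := this
    generalize ∑ l, Z (t l) = v at h2 h3
    have h4 : v ^ 2 ≤ (3 / 400) ^ 2 := pow_le_pow_left₀ h2 (h3.trans hH) 2
    nlinarith [sq_nonneg (y / 10 - 10 * v)]
  · rw [ind_neg h]; simp

lemma cost_small (Z : Ω → ℝ) (h2 : ex (fun ω => Z ω ^ 2) = 1) {η : Fin (K + 1) → ℝ}
    (hη : ∀ l, 0 ≤ η l) (hH : ∑ l, η l ≤ 3 / 400) (y : ℝ) (S : Finset (Fin (K + 1)))
    (hS : S.card ≤ 2) :
    ex (fun t : Fin (K + 1) → Ω => ind (Nn η (fun l => Z (t l)) = S) * ((y + ∑ l, Z (t l)) ^ 2 - 1)) ≤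
      (∏ l ∈ Sᶜ, pr fun ω => 0 ≤ Z ω ∧ Z ω < η l) * BB y := by
  let G : Fin (K + 1) → Ω → ℝ := fun l ω => if l ∈ S then 1 + Z ω ^ 2 else ind (0 ≤ Z ω ∧ Z ω < η l)
  have h1 : ∀ t : Fin (K + 1) → Ω, ∏ l, G l (t l) =
      (∏ l ∈ S, (1 + Z (t l) ^ 2)) * ∏ l ∈ Sᶜ, ind (0 ≤ Z (t l) ∧ Z (t l) < η l) := by
    intro t
    rw [← Finset.prod_mul_prod_compl S]
    congr 1
    · exact Finset.prod_congr rfl fun l hl => by simp [G, hl]
    · exact Finset.prod_congr rfl fun l hl => by simp [G, Finset.mem_compl.mp hl]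
  have h3 : ∏ l, ex (G l) = 2 ^ S.card * ∏ l ∈ Sᶜ, pr fun ω => 0 ≤ Z ω ∧ Z ω < η l := by
    rw [← Finset.prod_mul_prod_compl S]
    congr 1
    · rw [← Finset.prod_const]
      refine Finset.prod_congr rfl fun l hl => ?_
      simp only [G, hl, if_true]
      rw [ex_add, ex_const, h2]; norm_num
    · exact Finset.prod_congr rfl fun l hl => by simp [G, Finset.mem_compl.mp hl, pr]
  have hq : 0 ≤ ∏ l ∈ Sᶜ, pr fun ω => 0 ≤ Z ω ∧ Z ω < η l :=
    Finset.prod_nonneg fun l _ => pr_nonneg _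
  calc _ ≤ ex (fun t : Fin (K + 1) → Ω => (4 * y ^ 2 + 8) * ∏ l, G l (t l)) := by
        refine ex_mono fun t => ?_
        rw [h1]
        have hP : 1 + ∑ l ∈ S, Z (t l) ^ 2 ≤ ∏ l ∈ S, (1 + Z (t l) ^ 2) :=
          one_add_sum_le_prod S _ fun l => sq_nonneg _
        have hs0 : 0 ≤ ∑ l ∈ S, Z (t l) ^ 2 := Finset.sum_nonneg fun l _ => sq_nonneg _
        by_cases h : Nn η (fun l => Z (t l)) = S
        · have h5 := ind_Nn_le η (fun l => Z (t l)) S
          rw [ind_pos h] at h5 ⊢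
          obtain ⟨h6, h7⟩ := sum_thin_bound hη h
          rw [← Finset.sum_add_sum_compl S]
          have h8 : (∑ l ∈ S, Z (t l)) ^ 2 ≤ 2 * ∑ l ∈ S, Z (t l) ^ 2 := by
            refine (sq_sum_le_card_mul_sum_sq).trans (mul_le_mul_of_nonneg_right ?_ hs0)
            exact_mod_cast hS
          generalize ∑ l ∈ Sᶜ, Z (t l) = v at h6 h7
          generalize ∑ l ∈ S, Z (t l) = a at h8
          generalize ∑ l ∈ S, Z (t l) ^ 2 = a2 at h8 hP hs0
          generalize ∏ l ∈ S, (1 + Z (t l) ^ 2) = P at hP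
          generalize ∏ l ∈ Sᶜ, ind (0 ≤ Z (t l) ∧ Z (t l) < η l) = Q at h5
          have h9 : v ^ 2 ≤ 1 := by nlinarith
          have h10 : (y + (a + v)) ^ 2 ≤ 3 * y ^ 2 + 3 * a ^ 2 + 3 * v ^ 2 := by
            nlinarith [sq_nonneg (y - a), sq_nonneg (y - v), sq_nonneg (a - v)]
          have h11 : 1 + a2 ≤ P * Q := by nlinarith
          nlinarith [sq_nonneg y, mul_nonneg (sq_nonneg y) hs0]
        · rw [ind_neg h, zero_mul]
          exact mul_nonneg (by positivity) (mul_nonneg (by linarith)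
            (Finset.prod_nonneg fun l _ => ind_nonneg _))
    _ = (4 * y ^ 2 + 8) * (2 ^ S.card * ∏ l ∈ Sᶜ, pr fun ω => 0 ≤ Z ω ∧ Z ω < η l) := by
        rw [ex_mul_left, ex_prod_coord (A := fun _ => Ω) G, h3]
    _ ≤ _ := by
        have : (2 : ℝ) ^ S.card ≤ 2 ^ 2 := pow_le_pow_right₀ (by norm_num) hS
        unfold BB
        nlinarith [mul_nonneg (sq_nonneg y) hq]

theorem gad_cost (Z : Ω → ℝ) (h2 : ex (fun ω => Z ω ^ 2) = 1) {c w : ℝ} (hc : 0 < c) (hc1 : c ≤ 1)
    (hw : 1 + Real.log K ≤ w) (hw1 : 1 ≤ w)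
    (hq : ∀ l, c * eta K w l ≤ pr fun ω => 0 ≤ Z ω ∧ Z ω < eta K w l) (y : ℝ) {f : ℤ}
    (hf : |f| ≤ K) :
    ex (fun t : Fin (K + 1) → Ω => gad (eta K w) f (fun l => Z (t l)) * ((y + ∑ l, Z (t l)) ^ 2 - 1)) ≤
      (∏ l, pr fun ω => 0 ≤ Z ω ∧ Z ω < eta K w l) * ct c w y f := by
  have hw0 : 0 ≤ w := by linarith
  have hη := fun l => (eta_pos (K := K) hw0 l).le
  have hH := eta_sum hw hw1
  set η := eta K w with hηdef
  set q : Fin (K + 1) → ℝ := fun l => pr fun ω => 0 ≤ Z ω ∧ Z ω < η l with hqdef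
  have hq0 : ∀ l, 0 ≤ q l := fun l => pr_nonneg _
  set P := ∏ l, q l with hP
  have hP0 : 0 ≤ P := Finset.prod_nonneg fun l _ => hq0 l
  have hB := BB_pos y
  have hz : c / 400 ≤ q 0 := by
    have h := hq 0
    have e : η 0 = 1 / 400 := by simp only [hηdef, eta, Fin.cases_zero]
    have h' : c * η 0 ≤ q 0 := h
    rw [e] at h'
    linarith
  have hs : ∀ j : Fin K, c / (400 * (1 + j * w)) ≤ q j.succ := by
    intro j
    have e : η j.succ = 1 / (400 * (1 + j * w)) := by simp only [hηdef, eta, Fin.cases_succ]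
    have h' : c * η j.succ ≤ q j.succ := hq j.succ
    rwa [e, mul_one_div] at h'
  have hone : ∀ j : Fin K, ∏ l ∈ ({j.succ} : Finset (Fin (K + 1)))ᶜ, q l ≤
      P * (400 / c * (1 + j * w)) := by
    intro j
    have h1 := Finset.prod_mul_prod_compl ({j.succ} : Finset (Fin (K + 1))) q
    rw [Finset.prod_singleton, ← hP] at h1
    have h3 : 0 ≤ ∏ l ∈ ({j.succ} : Finset (Fin (K + 1)))ᶜ, q l := Finset.prod_nonneg fun l _ => hq0 l
    have h4 := mul_le_mul_of_nonneg_right (hs j) h3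
    rw [h1, div_mul_eq_mul_div, div_le_iff₀ (by positivity)] at h4
    rw [div_mul_eq_mul_div, ← mul_div_assoc, le_div_iff₀ hc]
    linarith
  have htwo : ∀ j : Fin K, ∏ l ∈ ({0, j.succ} : Finset (Fin (K + 1)))ᶜ, q l ≤
      P * (160000 / c ^ 2 * (1 + j * w)) := by
    intro j
    have h1 := Finset.prod_mul_prod_compl ({0, j.succ} : Finset (Fin (K + 1))) q
    rw [Finset.prod_pair (Fin.succ_ne_zero j).symm, ← hP] at h1
    have h3 : 0 ≤ ∏ l ∈ ({0, j.succ} : Finset (Fin (K + 1)))ᶜ, q l :=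
      Finset.prod_nonneg fun l _ => hq0 l
    have h5 : c / 400 * (c / (400 * (1 + j * w))) ≤ q 0 * q j.succ :=
      mul_le_mul hz (hs j) (by positivity) (hq0 0)
    have h4 := mul_le_mul_of_nonneg_right h5 h3
    rw [h1, div_mul_div_comm, div_mul_eq_mul_div, div_le_iff₀ (by positivity)] at h4
    rw [div_mul_eq_mul_div, ← mul_div_assoc, le_div_iff₀ (by positivity)]
    linarith
  have hcount : ∀ n : ℤ, n ≤ K → ∑ j : Fin K, ind ((j : ℤ) + 1 ≤ n) * (1 + (j : ℕ) * w) ≤
      max (n : ℝ) 0 * (1 + (n - 1) * w) := by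
    intro n hn
    rw [← sum_ind_le hn, Finset.sum_mul]
    refine Finset.sum_le_sum fun j _ => ?_
    by_cases h : ((j : ℕ) : ℤ) + 1 ≤ n
    · rw [ind_pos h]
      have : ((j : ℕ) : ℝ) + 1 ≤ n := by exact_mod_cast h
      nlinarith
    · rw [ind_neg h]; simp
  rw [abs_le] at hf
  have hmain : ex (fun t : Fin (K + 1) → Ω =>
      gad η f (fun l => Z (t l)) * ((y + ∑ l, Z (t l)) ^ 2 - 1)) ≤
      ind (1 ≤ f) * (P * aa y) + P * BB y * (400 / c) * (max (-(f : ℝ)) 0 * (1 + (-f - 1) * w)) +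
        P * BB y * (160000 / c ^ 2) * (max ((f : ℝ) - 1) 0 * (1 + (f - 1 - 1) * w)) := by
    simp only [gad, add_mul, Finset.sum_mul, mul_assoc]
    rw [ex_add, ex_add, ex_mul_left,
      ex_sum _ (fun (j : Fin K) (t : Fin (K + 1) → Ω) => ind ((j : ℤ) + 1 ≤ -f) *
        (ind (Nn η (fun l => Z (t l)) = {j.succ}) * ((y + ∑ l, Z (t l)) ^ 2 - 1))),
      ex_sum _ (fun (j : Fin K) (t : Fin (K + 1) → Ω) => ind ((j : ℤ) + 1 ≤ f - 1) *
        (ind (Nn η (fun l => Z (t l)) = {0, j.succ}) * ((y + ∑ l, Z (t l)) ^ 2 - 1)))]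
    refine add_le_add (add_le_add (mul_le_mul_of_nonneg_left (cost_empty Z hη hH y) (ind_nonneg _))
      ?_) ?_
    · have h6 := hcount (-f) (by omega)
      push_cast at h6
      refine le_trans ?_ (mul_le_mul_of_nonneg_left (mul_le_mul_of_nonneg_left
        (mul_le_mul_of_nonneg_left h6 (by positivity)) hB.le) hP0)
      simp only [Finset.mul_sum]
      refine Finset.sum_le_sum fun j _ => ?_
      rw [ex_mul_left]
      have h7 := (cost_small Z h2 hη hH y {j.succ} (by simp)).trans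
        (mul_le_mul_of_nonneg_right (hone j) hB.le)
      refine (mul_le_mul_of_nonneg_left h7 (ind_nonneg _)).trans (le_of_eq (by ring))
    · have h6 := hcount (f - 1) (by omega)
      push_cast at h6
      refine le_trans ?_ (mul_le_mul_of_nonneg_left (mul_le_mul_of_nonneg_left
        (mul_le_mul_of_nonneg_left h6 (by positivity)) hB.le) hP0)
      simp only [Finset.mul_sum]
      refine Finset.sum_le_sum fun j _ => ?_
      rw [ex_mul_left]
      have h7 := (cost_small Z h2 hη hH y {0, j.succ} Finset.card_le_two).trans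
        (mul_le_mul_of_nonneg_right (htwo j) hB.le)
      refine (mul_le_mul_of_nonneg_left h7 (ind_nonneg _)).trans (le_of_eq (by ring))
  refine hmain.trans ?_
  have ha := abs_le.mp (abs_aa_le y)
  have hA1 : (400 : ℝ) ≤ 400 / c := by rw [le_div_iff₀ hc]; linarith
  have hA2 : 160000 / c ^ 2 = (400 / c) ^ 2 := by rw [div_pow]; norm_num
  have hA3 : 800 / c = 2 * (400 / c) := by ring
  have hA4 : 320000 * w / c ^ 2 = 2 * (400 / c) ^ 2 * w := by rw [div_pow]; ring
  unfold ct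
  rw [hA2, hA3, hA4]
  generalize 400 / c = A at hA1
  have key : ind (1 ≤ f) * aa y + BB y * A * (max (-(f : ℝ)) 0 * (1 + (-f - 1) * w)) +
      BB y * A ^ 2 * (max ((f : ℝ) - 1) 0 * (1 + (f - 1 - 1) * w)) ≤
      aa y * f + 2 * A * BB y * max (-(f : ℝ)) 0 + 2 * A ^ 2 * w * BB y * ((f : ℝ) ^ 2 - |(f : ℝ)|) := by
    generalize BB y = B at hB ha
    generalize aa y = a at ha
    by_cases h : 1 ≤ f
    · have h' : (1 : ℝ) ≤ f := by exact_mod_cast h
      rw [ind_pos h, max_eq_right (by linarith), max_eq_left (by linarith), abs_of_nonneg (by linarith)]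
      generalize (f : ℝ) = x at h'
      obtain ⟨k, rfl⟩ : ∃ k, x = k + 1 := ⟨x - 1, by ring⟩
      have hk : 0 ≤ k := by linarith
      have e1 : 1 ≤ A ^ 2 * w := by nlinarith
      have e2 : B * k ≤ B * k * (A ^ 2 * w) := le_mul_of_one_le_right (by positivity) e1
      have e3 : 0 ≤ B * A ^ 2 * k * (w - 1) := by have : 0 ≤ w - 1 := by linarith
                                                  positivity
      have e4 : 0 ≤ B * A ^ 2 * k * k * w := by positivity
      have e5 : 0 ≤ B * A ^ 2 * k * w := by positivity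
      have e6 := mul_le_mul_of_nonneg_right ha.1 hk
      nlinarith
    · have h' : (f : ℝ) ≤ 0 := by exact_mod_cast (show f ≤ 0 by omega)
      have h'' : f = 0 ∨ (f : ℝ) ≤ -1 := by
        rcases (show f = 0 ∨ f ≤ -1 by omega) with h | h
        · exact Or.inl h
        · right; exact_mod_cast h
      rw [ind_neg h, max_eq_left (by linarith), max_eq_right (by linarith), abs_of_nonpos h']
      rcases h'' with rfl | h''
      · simp
      generalize (f : ℝ) = x at h' h''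
      obtain ⟨k, rfl⟩ : ∃ k, x = -(k + 1) := ⟨-x - 1, by ring⟩
      have hk : 0 ≤ k := by linarith
      have e1 : B * (k + 1) ≤ B * (k + 1) * A := le_mul_of_one_le_right (by positivity) (by linarith)
      have e2 : 0 ≤ B * A * w * k * (k + 1) * (2 * A - 1) := by
        have : 0 ≤ 2 * A - 1 := by linarith
        have : 0 ≤ A := by linarith
        positivity
      have e6 := mul_le_mul_of_nonneg_right ha.2 (show 0 ≤ k + 1 by linarith)
      nlinarith
  have := mul_le_mul_of_nonneg_left key hP0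
  nlinarith

end cost

lemma ct_interp {c w τ : ℝ} (hc : 0 < c) (hc1 : c ≤ 1) (hw1 : 1 ≤ w) (hτ : 0 < τ) (hτ1 : τ ≤ 1)
    (y t g : ℝ) (hg : |g| ≤ 1) :
    (1 - Int.fract t) * ct c w y ⌊t⌋ + Int.fract t * ct c w y (⌊t⌋ + 1) ≤
      aa y * g + 800 / c * BB y * max (-g) 0 +
        320000 * w / c ^ 2 * BB y * (2 * τ + 3 / τ * (t - g) ^ 2) := by
  have hB := BB_pos y
  have ha := abs_aa_le y
  have hA1 : (400 : ℝ) ≤ 400 / c := by rw [le_div_iff₀ hc]; linarith
  have hA3 : 800 / c = 2 * (400 / c) := by ring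
  have hA4 : 320000 * w / c ^ 2 = 2 * (400 / c) ^ 2 * w := by rw [div_pow]; ring
  unfold ct
  rw [hA3, hA4]
  generalize 400 / c = A at hA1
  have hθ0 := Int.fract_nonneg t
  have hθ1 := Int.fract_lt_one t
  have hn : t = ⌊t⌋ + Int.fract t := (Int.floor_add_fract t).symm
  have hcase : (0 : ℝ) ≤ ⌊t⌋ ∨ (⌊t⌋ : ℝ) ≤ -1 := by
    rcases (show 0 ≤ ⌊t⌋ ∨ ⌊t⌋ ≤ -1 by omega) with h | h
    · left; exact_mod_cast h
    · right; exact_mod_cast h
  have hcase2 : (⌊t⌋ : ℝ) = 0 ∨ (1 : ℝ) ≤ ⌊t⌋ ∨ (⌊t⌋ : ℝ) = -1 ∨ (⌊t⌋ : ℝ) ≤ -2 := by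
    rcases (show ⌊t⌋ = 0 ∨ 1 ≤ ⌊t⌋ ∨ ⌊t⌋ = -1 ∨ ⌊t⌋ ≤ -2 by omega) with h | h | h | h
    · left; exact_mod_cast h
    · right; left; exact_mod_cast h
    · right; right; left; exact_mod_cast h
    · right; right; right; exact_mod_cast h
  push_cast
  generalize (⌊t⌋ : ℝ) = n at hn hcase hcase2
  generalize Int.fract t = θ at hθ0 hθ1 hn
  have hge := abs_le.mp hg
  have he1 := le_abs_self (t - g)
  have he2 := neg_abs_le (t - g)
  have he0 := abs_nonneg (t - g)
  have hsq := sq_abs (t - g)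
  have h1 : (1 - θ) * max (-n) 0 + θ * max (-(n + 1)) 0 ≤ max (-g) 0 + |t - g| := by
    have := le_max_left (-g) 0
    have := le_max_right (-g) 0
    rcases hcase with h | h
    · rw [max_eq_right (show -n ≤ 0 by linarith), max_eq_right (show -(n + 1) ≤ 0 by linarith)]
      linarith
    · rw [max_eq_left (show 0 ≤ -n by linarith), max_eq_left (show 0 ≤ -(n + 1) by linarith)]
      nlinarith
  have h2 : (1 - θ) * (n ^ 2 - |n|) + θ * ((n + 1) ^ 2 - |n + 1|) ≤ 2 * |t - g| + (t - g) ^ 2 := by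
    rw [← hsq]
    generalize |t - g| = e at *
    rcases hcase2 with h | h | h | h
    · subst h; simp; positivity
    · rw [abs_of_nonneg (show 0 ≤ n by linarith), abs_of_nonneg (show 0 ≤ n + 1 by linarith)]
      have : t - 1 ≤ e := by linarith
      have : t ^ 2 - t ≤ e + e ^ 2 := by nlinarith
      nlinarith
    · subst h; simp; positivity
    · rw [abs_of_nonpos (show n ≤ 0 by linarith), abs_of_nonpos (show n + 1 ≤ 0 by linarith)]
      have : -t - 1 ≤ e := by linarith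
      have : t ^ 2 + t ≤ e + e ^ 2 := by nlinarith
      nlinarith
  have h3 : aa y * t ≤ aa y * g + BB y * |t - g| := by
    have : aa y * (t - g) ≤ BB y * |t - g| :=
      (le_abs_self _).trans (by rw [abs_mul]; exact mul_le_mul_of_nonneg_right ha he0)
    linarith
  have h4 : 4 * |t - g| + (t - g) ^ 2 ≤ 2 * τ + 3 / τ * (t - g) ^ 2 := by
    rw [← hsq]
    generalize |t - g| = e at *
    have : 3 / τ * e ^ 2 = 3 * (e ^ 2 / τ) := by ring
    rw [this]
    have h5 : e ^ 2 ≤ e ^ 2 / τ := by rw [le_div_iff₀ hτ]; nlinarith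
    have h6 : 2 * e ≤ τ + e ^ 2 / τ := by
      rw [← sub_nonneg]
      have : τ + e ^ 2 / τ - 2 * e = (τ - e) ^ 2 / τ := by field_simp; ring
      rw [this]; positivity
    linarith
  generalize BB y = B at *
  have hA0 : 0 ≤ A := by linarith
  have h7 := mul_le_mul_of_nonneg_left h1 (show 0 ≤ 2 * A * B by positivity)
  have h8 := mul_le_mul_of_nonneg_left h2 (show 0 ≤ 2 * A ^ 2 * w * B by positivity)
  have h9 := mul_le_mul_of_nonneg_left h4 (show 0 ≤ 2 * A ^ 2 * w * B by positivity)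
  have h10 : 2 * A + 1 ≤ 4 * A ^ 2 * w := by nlinarith
  have h11 := mul_le_mul_of_nonneg_right h10 (mul_nonneg hB.le he0)
  have h12 : aa y * t = (1 - θ) * (aa y * n) + θ * (aa y * (n + 1)) := by rw [hn]; ring
  nlinarith

end Crest.Agent.R063
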