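import Crest.Agent.R063.Frac

/-!
The negative part of the fractional solution is small (row 63).
-/

set_option autoImplicit false
set_option linter.unusedSectionVars false

namespace Crest.Agent.R063

open Finset

variable {Ω Ω' : Type} [Fintype Ω] [Nonempty Ω] [Fintype Ω'] [Nonempty Ω']

lemma sum_ind_le_one (S : Finset ℤ) (k a : ℤ) : ∑ σ ∈ S, ind (σ - k = a) ≤ 1 := by
  have := sum_ind_shift S (-k) a 1 zero_le_one
  simpa only [mul_one, ← sub_eq_add_neg] using this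

lemma sum_hh_sq (x0 : ℤ) (l : ℕ) (S : Finset ℤ) (k : ℤ) : ∑ σ ∈ S, hh x0 l (σ - k) ^ 2 ≤ 12483 := by
  have h1 : ∀ σ, hh x0 l (σ - k) ^ 2 ≤ 12288 * ind (σ - k = x0) + 192 * ind (σ - k = x0 + l) +
      3 * ind (σ - k = x0 + 2 * l) := by
    intro σ
    unfold hh
    have a := ind_sq (σ - k = x0)
    have b := ind_sq (σ - k = x0 + l)
    have c := ind_sq (σ - k = x0 + 2 * l)
    generalize ind (σ - k = x0) = p at a
    generalize ind (σ - k = x0 + l) = q at b
    generalize ind (σ - k = x0 + 2 * l) = r at c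
    nlinarith [sq_nonneg (64 * p + 8 * q), sq_nonneg (64 * p - r), sq_nonneg (8 * q + r)]
  refine (Finset.sum_le_sum fun σ _ => h1 σ).trans ?_
  simp only [Finset.sum_add_distrib, ← Finset.mul_sum]
  have := sum_ind_le_one S k x0
  have := sum_ind_le_one S k (x0 + l)
  have := sum_ind_le_one S k (x0 + 2 * l)
  linarith

lemma GG_var (kk : Ω → ℤ) (x0 : ℤ) (l : ℕ) {m : ℕ} (hm : 0 < m) (σ : ℤ) :
    ex (fun x : Fin m → Ω => (GG x0 l σ (fun j => kk (x j)) - ex fun ω => hh x0 l (σ - kk ω)) ^ 2) ≤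
      (m : ℝ)⁻¹ * ex fun ω => hh x0 l (σ - kk ω) ^ 2 := by
  have hm' : (0 : ℝ) < m := by exact_mod_cast hm
  set F := ex fun ω => hh x0 l (σ - kk ω) with hF
  have e1 : ∀ x : Fin m → Ω, (GG x0 l σ (fun j => kk (x j)) - F) ^ 2 =
      (m : ℝ)⁻¹ ^ 2 * (∑ i, (hh x0 l (σ - kk (x i)) - F)) ^ 2 := by
    intro x
    rw [← mul_pow, Finset.sum_sub_distrib, GG]
    simp only [Finset.sum_const, Finset.card_univ, Fintype.card_fin, nsmul_eq_mul]
    congr 1
    field_simp
  simp_rw [e1]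
  rw [ex_mul_left, ex_sq_sum _ (fun _ ω => hh x0 l (σ - kk ω) - F)
    (fun _ => by rw [ex_sub, ex_const, hF, sub_self])]
  simp only [Finset.sum_const, Finset.card_univ, Fintype.card_fin, nsmul_eq_mul]
  have e2 : ex (fun a => (hh x0 l (σ - kk a) - F) ^ 2) ≤ ex fun ω => hh x0 l (σ - kk ω) ^ 2 := by
    have : ∀ a, (hh x0 l (σ - kk a) - F) ^ 2 =
        hh x0 l (σ - kk a) ^ 2 - 2 * F * hh x0 l (σ - kk a) + F ^ 2 := fun a => by ring
    simp_rw [this]
    rw [ex_add, ex_sub, ex_mul_left, ex_const, ← hF]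
    nlinarith [sq_nonneg F]
  calc (m : ℝ)⁻¹ ^ 2 * (m * ex fun a => (hh x0 l (σ - kk a) - F) ^ 2)
      = (m : ℝ)⁻¹ * ex fun a => (hh x0 l (σ - kk a) - F) ^ 2 := by field_simp
    _ ≤ _ := mul_le_mul_of_nonneg_left e2 (by positivity)

lemma GG_fluct (kk : Ω → ℤ) (x0 : ℤ) (l : ℕ) {m : ℕ} (hm : 0 < m) (S : Finset ℤ) {τ : ℝ}
    (hτ : 0 < τ) :
    ex (fun x : Fin m → Ω => ∑ σ ∈ S,
      |GG x0 l σ (fun j => kk (x j)) - ex fun ω => hh x0 l (σ - kk ω)|) ≤
      S.card * τ + 3121 / (τ * m) := by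
  have hm' : (0 : ℝ) < m := by exact_mod_cast hm
  rw [ex_sum S (fun σ (x : Fin m → Ω) =>
    |GG x0 l σ (fun j => kk (x j)) - ex fun ω => hh x0 l (σ - kk ω)|)]
  have h1 : ∀ σ, ex (fun x : Fin m → Ω =>
      |GG x0 l σ (fun j => kk (x j)) - ex fun ω => hh x0 l (σ - kk ω)|) ≤
      τ + 1 / (4 * τ * m) * ex fun ω => hh x0 l (σ - kk ω) ^ 2 := by
    intro σ
    have h2 : ∀ u : ℝ, |u| ≤ τ + 1 / (4 * τ) * u ^ 2 := by
      intro u
      rw [← sq_abs u, ← sub_nonneg]
      have : τ + 1 / (4 * τ) * |u| ^ 2 - |u| = (2 * τ - |u|) ^ 2 / (4 * τ) := by field_simp; ring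
      rw [this]; positivity
    refine (ex_mono fun x => h2 _).trans ?_
    rw [ex_add, ex_const, ex_mul_left]
    have := mul_le_mul_of_nonneg_left (GG_var kk x0 l hm σ) (show 0 ≤ 1 / (4 * τ) by positivity)
    refine (add_le_add le_rfl this).trans (le_of_eq ?_)
    field_simp
  refine (Finset.sum_le_sum fun σ _ => h1 σ).trans ?_
  rw [Finset.sum_add_distrib, ← Finset.mul_sum, Finset.sum_const, nsmul_eq_mul,
    ← ex_sum S (fun σ ω => hh x0 l (σ - kk ω) ^ 2)]
  have h3 : ex (fun ω => ∑ σ ∈ S, hh x0 l (σ - kk ω) ^ 2) ≤ 12483 :=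
    ex_le_of_le fun ω => sum_hh_sq x0 l S _
  have h4 := mul_le_mul_of_nonneg_left h3 (show 0 ≤ 1 / (4 * τ * m) by positivity)
  have h5 : 1 / (4 * τ * m) * 12483 ≤ 3121 / (τ * m) := by
    rw [div_mul_eq_mul_div, div_le_div_iff₀ (by positivity) (by positivity)]
    nlinarith [mul_pos hτ hm']
  linarith

lemma neg_GG_le (x0 : ℤ) (l : ℕ) {m : ℕ} (σ : ℤ) (κ : Fin m → ℤ) :
    max (-GG x0 l σ κ) 0 ≤ 8 * (m : ℝ)⁻¹ * ∑ i, ind (σ - κ i = x0 + l) := by
  refine max_le ?_ (mul_nonneg (by positivity) (Finset.sum_nonneg fun i _ => ind_nonneg _))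
  unfold GG
  rw [mul_comm 8, mul_assoc, ← mul_neg, ← Finset.sum_neg_distrib, Finset.mul_sum _ _ 8]
  refine mul_le_mul_of_nonneg_left (Finset.sum_le_sum fun i _ => ?_) (by positivity)
  unfold hh
  linarith [ind_nonneg (σ - κ i = x0), ind_nonneg (σ - κ i = x0 + 2 * l)]

lemma pen_part (Z : Ω → ℝ) (U : Ω' → ℝ) (h4 : ex (fun ω => Z ω ^ 4) ≤ 4)
    {l m s b : ℕ} (hl : 0 < l) (hm : 0 < m) (hb : 2 ≤ b) {ps τ : ℝ} (hps : 0 < ps) (hτ : 0 < τ)
    (hdom : ∀ k : ℤ, |k| ≤ b * l → 8 * pr (fun ω => ⌊l * Z ω⌋ = k) ≤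
      64 * pr (fun ω => ⌊l * Z ω⌋ = k + l) + pr (fun ω => ⌊l * Z ω⌋ = k - l))
    (hU : ∀ k : ℤ, |k| ≤ l * s → ps ≤ pr fun y => ⌊l * U y⌋ = k) :
    ex (fun y : Ω' => ex fun x : Fin m → Ω => BB (U y + ∑ j, Z (x j)) *
      (rr (fun y => ⌊l * U y⌋) (l * s) ps ⌊l * U y⌋ *
        max (-GG (xo Z l m) l (⌊l * U y⌋ + ∑ j, ⌊l * Z (x j)⌋) (fun j => ⌊l * Z (x j)⌋)) 0)) ≤
      ps * ((48 * (b + 1) ^ 2 + 464) * ((2 * b * l + 1) * τ + 3121 / (τ * m)) + 10000 / b ^ 2 +
        384 * (m * (1 / l) ^ 2)) := by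
  have hl' : (0 : ℝ) < l := by exact_mod_cast hl
  have hl1 : (1 : ℝ) / l ≤ 1 := by rw [div_le_one hl']; exact_mod_cast hl
  have hδ : (0 : ℝ) < 1 / l := by positivity
  have hm' : (0 : ℝ) < m := by exact_mod_cast hm
  have hb' : (2 : ℝ) ≤ b := by exact_mod_cast hb
  set x0 := xo Z l m with hx0
  set zb := ex fun ω => zeta l (Z ω) with hzb
  have hzb0 : 0 ≤ zb := ex_nonneg fun ω => zeta_nonneg hl _
  have hzb1 : zb ≤ 1 / l := ex_le_of_le fun ω => zeta_le hl _
  set r := rr (fun y => ⌊l * U y⌋) (l * s) ps with hr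
  have hr0 : ∀ k, 0 ≤ r k := rr_nonneg _ _ hps
  obtain ⟨hx1, hx2⟩ := xo_spec Z hl m
  rw [← hx0, ← hzb] at hx1 hx2
  let kk : Ω → ℤ := fun ω => ⌊l * Z ω⌋
  let A : (Fin m → Ω) → ℤ := fun x => ∑ j, kk (x j)
  let Ξ : (Fin m → Ω) → ℝ := fun x => ∑ j, (zeta l (Z (x j)) - zb)
  let w : ℤ → ℝ := fun σ => 48 * (((σ - x0 : ℤ) : ℝ) / l) ^ 2 + 464
  have hw0 : ∀ σ, 0 ≤ w σ := fun σ => by positivity
  let G : (Fin m → Ω) → ℤ → ℝ := fun x σ => GG x0 l σ fun j => kk (x j)
  let F : ℤ → ℝ := fun σ => ex fun ω => hh x0 l (σ - kk ω)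
  let Win : Finset ℤ := Finset.Icc (x0 + l - b * l) (x0 + l + b * l)
  have hWin : ∀ σ, σ ∈ Win ↔ |σ - x0 - l| ≤ b * l := by
    intro σ; simp only [Win, Finset.mem_Icc, abs_le]; omega
  have hWc : (Win.card : ℝ) = 2 * b * l + 1 := by
    have : (Win.card : ℤ) = 2 * b * l + 1 := by
      simp only [Win]
      rw [Int.card_Icc_of_le]
      · ring
      · have : (0 : ℤ) ≤ b * l := by positivity
        omega
    exact_mod_cast this
  have hF : ∀ σ ∈ Win, 0 ≤ F σ := by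
    intro σ hσ
    have := hdom (σ - x0 - l) ((hWin σ).mp hσ)
    simp only [F, hh]
    rw [ex_add, ex_sub, ex_mul_left, ex_mul_left]
    have e0 : ex (fun ω => ind (σ - kk ω = x0)) = pr fun ω => ⌊l * Z ω⌋ = σ - x0 - l + l :=
      ex_congr fun ω => ind_congr (by simp only [kk]; omega)
    have e1 : ex (fun ω => ind (σ - kk ω = x0 + l)) = pr fun ω => ⌊l * Z ω⌋ = σ - x0 - l :=
      ex_congr fun ω => ind_congr (by simp only [kk]; omega)
    have e2 : ex (fun ω => ind (σ - kk ω = x0 + 2 * l)) = pr fun ω => ⌊l * Z ω⌋ = σ - x0 - l - l :=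
      ex_congr fun ω => ind_congr (by simp only [kk]; omega)
    rw [e0, e1, e2]; linarith
  have hwm : ∀ σ ∈ Win, w σ ≤ 48 * (b + 1) ^ 2 + 464 := by
    intro σ hσ
    have h1 : |((σ - x0 - l : ℤ) : ℝ)| ≤ b * l := by exact_mod_cast (hWin σ).mp hσ
    have h2 : |((σ - x0 : ℤ) : ℝ) / l| ≤ b + 1 := by
      rw [abs_div, abs_of_pos hl', div_le_iff₀ hl']
      push_cast at h1 ⊢
      rw [abs_le] at h1 ⊢
      constructor <;> nlinarith [h1.1, h1.2]
    have h3 := pow_le_pow_left₀ (abs_nonneg _) h2 2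
    rw [sq_abs] at h3
    simp only [w]; linarith
  let Φ : (Fin m → Ω) → ℤ → ℝ := fun x k => (w (k + A x) + 48 * Ξ x ^ 2) * max (-G x (k + A x)) 0
  have step2 : ∀ (y : Ω') (x : Fin m → Ω),
      BB (U y + ∑ j, Z (x j)) ≤ w (⌊l * U y⌋ + A x) + 48 * Ξ x ^ 2 := by
    intro y x
    have hz1 := zeta_nonneg hl (U y)
    have hz2 := zeta_le hl (U y)
    have e1 : U y + ∑ j, Z (x j) = ((⌊l * U y⌋ + A x - x0 : ℤ) : ℝ) / l +
        (zeta l (U y) + ((x0 : ℝ) / l + (m - 1) * zb) + zb) + Ξ x := by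
      simp only [A, Ξ, kk, zeta, Finset.sum_sub_distrib, Finset.sum_const, nsmul_eq_mul,
        Finset.card_univ, Fintype.card_fin]
      push_cast
      rw [sub_div, add_div, Finset.sum_div]; ring
    rw [e1]
    simp only [BB, w]
    have h1 : 0 ≤ zeta l (U y) + ((x0 : ℝ) / l + (m - 1) * zb) + zb := by linarith
    have h2 : zeta l (U y) + ((x0 : ℝ) / l + (m - 1) * zb) + zb ≤ 3 := by linarith
    generalize zeta l (U y) + ((x0 : ℝ) / l + (m - 1) * zb) + zb = v at h1 h2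
    generalize ((⌊l * U y⌋ + A x - x0 : ℤ) : ℝ) / l = a
    have : v ^ 2 ≤ 9 := by nlinarith
    nlinarith [sq_nonneg (a - v), sq_nonneg (a - Ξ x), sq_nonneg (v - Ξ x)]
  let T : Ω → ℝ := fun ω => ind (x0 + l + kk ω ∉ Win) * w (x0 + l + kk ω)
  have step3 : ∀ x : Fin m → Ω, ∑ k ∈ Finset.Icc (-(l * s : ℤ)) (l * s), Φ x k ≤
      (48 * (b + 1) ^ 2 + 464) * ∑ σ ∈ Win, |G x σ - F σ| + 8 * (m : ℝ)⁻¹ * ∑ i, T (x i) +
        384 * Ξ x ^ 2 := by
    intro x
    have p1 : ∀ k, Φ x k ≤ (48 * (b + 1) ^ 2 + 464) * ∑ σ ∈ Win, ind (k + A x = σ) * |G x σ - F σ| +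
        8 * (m : ℝ)⁻¹ * ∑ i, ind (k + A x = x0 + l + kk (x i)) * T (x i) +
        8 * (m : ℝ)⁻¹ * ∑ i, ind (k + A x = x0 + l + kk (x i)) * (48 * Ξ x ^ 2) := by
      intro k
      simp only [Φ]
      generalize k + A x = σ
      have n1 : max (-G x σ) 0 ≤ 8 * (m : ℝ)⁻¹ * ∑ i, ind (σ = x0 + l + kk (x i)) := by
        refine (neg_GG_le x0 l σ _).trans (le_of_eq ?_)
        congr 1
        exact Finset.sum_congr rfl fun i _ => ind_congr (by omega)
      have n2 : 48 * Ξ x ^ 2 * max (-G x σ) 0 ≤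
          8 * (m : ℝ)⁻¹ * ∑ i, ind (σ = x0 + l + kk (x i)) * (48 * Ξ x ^ 2) := by
        rw [← Finset.sum_mul]
        have := mul_le_mul_of_nonneg_left n1 (show 0 ≤ 48 * Ξ x ^ 2 by positivity)
        linarith
      have n3 : 0 ≤ 8 * (m : ℝ)⁻¹ * ∑ i, ind (σ = x0 + l + kk (x i)) * T (x i) :=
        mul_nonneg (by positivity) (Finset.sum_nonneg fun i _ => mul_nonneg (ind_nonneg _)
          (mul_nonneg (ind_nonneg _) (hw0 _)))
      have n4 : 0 ≤ (48 * ((b : ℝ) + 1) ^ 2 + 464) * ∑ σ' ∈ Win, ind (σ = σ') * |G x σ' - F σ'| :=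
        mul_nonneg (by positivity) (Finset.sum_nonneg fun i _ => mul_nonneg (ind_nonneg _)
          (abs_nonneg _))
      rw [add_mul]
      by_cases hσ : σ ∈ Win
      · rw [sum_ind_mul _ _ hσ fun σ' => |G x σ' - F σ'|]
        have n5 : max (-G x σ) 0 ≤ |G x σ - F σ| :=
          max_le (by linarith [neg_abs_le (G x σ - F σ), hF σ hσ]) (abs_nonneg _)
        have n6 := mul_le_mul (hwm σ hσ) n5 (le_max_right _ _) (by positivity)
        linarith
      · have n5 : w σ * max (-G x σ) 0 ≤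
            8 * (m : ℝ)⁻¹ * ∑ i, ind (σ = x0 + l + kk (x i)) * T (x i) := by
          refine (mul_le_mul_of_nonneg_left n1 (hw0 σ)).trans (le_of_eq ?_)
          rw [mul_left_comm, Finset.mul_sum]
          congr 1
          refine Finset.sum_congr rfl fun i _ => ?_
          by_cases h : σ = x0 + l + kk (x i)
          · simp only [T]
            rw [← h, ind_pos hσ]; ring
          · rw [ind_neg h]; simp
        linarith
    refine (Finset.sum_le_sum fun k _ => p1 k).trans ?_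
    rw [Finset.sum_add_distrib, Finset.sum_add_distrib, ← Finset.mul_sum, ← Finset.mul_sum,
      ← Finset.mul_sum, Finset.sum_comm, Finset.sum_comm (t := Finset.univ),
      Finset.sum_comm (t := Finset.univ)]
    refine add_le_add (add_le_add (mul_le_mul_of_nonneg_left (Finset.sum_le_sum fun σ _ =>
      sum_ind_shift _ _ _ _ (abs_nonneg _)) (by positivity)) (mul_le_mul_of_nonneg_left
        (Finset.sum_le_sum fun i _ => sum_ind_shift _ _ _ _ (mul_nonneg (ind_nonneg _) (hw0 _)))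
        (by positivity))) ?_
    refine (mul_le_mul_of_nonneg_left (Finset.sum_le_sum fun i _ =>
      sum_ind_shift _ _ _ _ (by positivity)) (by positivity)).trans (le_of_eq ?_)
    simp only [Finset.sum_const, Finset.card_univ, Fintype.card_fin, nsmul_eq_mul]
    field_simp; ring
  have hT : ex T ≤ 1232 / b ^ 2 := by
    have hb2 : (0 : ℝ) < (b : ℝ) ^ 2 := by positivity
    have : ∀ ω, T ω ≤ 308 / b ^ 2 * Z ω ^ 4 := by
      intro ω
      simp only [T]
      by_cases h : x0 + l + kk ω ∉ Win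
      · rw [ind_pos h, one_mul]
        rw [hWin, not_le, show x0 + l + kk ω - x0 - l = kk ω by ring] at h
        have hz1 := zeta_nonneg hl (Z ω)
        have hz2 := zeta_le hl (Z ω)
        have e1 : ((x0 + l + kk ω - x0 : ℤ) : ℝ) / l = 1 + (Z ω - zeta l (Z ω)) := by
          simp only [kk, zeta]; push_cast; field_simp; ring
        have e2 : (b : ℝ) ≤ |Z ω| := by
          have f1 := Int.floor_le ((l : ℝ) * Z ω)
          have f2 := Int.lt_floor_add_one ((l : ℝ) * Z ω)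
          rcases lt_abs.mp h with h | h
          · have : ((b * l : ℤ) : ℝ) < (kk ω : ℤ) := by exact_mod_cast h
            push_cast at this
            refine le_trans ?_ (le_abs_self _)
            simp only [kk] at this
            nlinarith
          · have : ((b * l + 1 : ℤ) : ℝ) ≤ ((-kk ω : ℤ) : ℝ) := by exact_mod_cast h
            push_cast at this
            refine le_trans ?_ (neg_le_abs _)
            simp only [kk] at this
            nlinarith
        simp only [w]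
        rw [e1]
        have e3 : |1 + (Z ω - zeta l (Z ω))| ≤ 2 * |Z ω| := by
          have := le_abs_self (Z ω)
          have := neg_abs_le (Z ω)
          rw [abs_le]; constructor <;> linarith
        have e4 := pow_le_pow_left₀ (abs_nonneg _) e3 2
        have e5 := pow_le_pow_left₀ (by positivity) e2 2
        rw [mul_pow, sq_abs, sq_abs] at e4
        rw [sq_abs] at e5
        rw [div_mul_eq_mul_div, le_div_iff₀ hb2]
        have e6 : 4 ≤ (b : ℝ) ^ 2 := by nlinarith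
        have e7 : 48 * (1 + (Z ω - zeta l (Z ω))) ^ 2 + 464 ≤ 308 * Z ω ^ 2 := by nlinarith
        calc _ ≤ (308 * Z ω ^ 2) * Z ω ^ 2 := mul_le_mul e7 e5 hb2.le (by positivity)
          _ = _ := by ring
      · rw [ind_neg h, zero_mul]; positivity
    refine (ex_mono this).trans ?_
    rw [ex_mul_left]
    refine (mul_le_mul_of_nonneg_left h4 (by positivity)).trans (le_of_eq (by ring))
  have hXi := ex_Xi_sq Z hl (Finset.univ : Finset (Fin m))
  rw [← hzb] at hXi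
  have hfl := GG_fluct kk x0 l hm Win hτ
  rw [hWc] at hfl
  calc _ ≤ ex (fun y : Ω' => ex fun x : Fin m → Ω => r ⌊l * U y⌋ * Φ x ⌊l * U y⌋) := by
        refine ex_mono fun y => ex_mono fun x => ?_
        rw [mul_left_comm]
        exact mul_le_mul_of_nonneg_left (mul_le_mul_of_nonneg_right (step2 y x) (le_max_right _ _))
          (hr0 _)
    _ = ex (fun x : Fin m → Ω => ps * ∑ k ∈ Finset.Icc (-(l * s : ℤ)) (l * s), Φ x k) := by
        rw [ex_comm]
        exact ex_congr fun x => flatten (fun y => ⌊l * U y⌋) (l * s) hps hU (Φ x)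
    _ ≤ ex (fun x : Fin m → Ω => ps * ((48 * (b + 1) ^ 2 + 464) * ∑ σ ∈ Win, |G x σ - F σ| +
          8 * (m : ℝ)⁻¹ * ∑ i, T (x i) + 384 * Ξ x ^ 2)) :=
        ex_mono fun x => mul_le_mul_of_nonneg_left (step3 x) hps.le
    _ ≤ _ := by
        rw [ex_mul_left]
        refine mul_le_mul_of_nonneg_left ?_ hps.le
        rw [ex_add, ex_add, ex_mul_left, ex_mul_left, ex_mul_left,
          ex_sum Finset.univ (fun (i : Fin m) (x : Fin m → Ω) => T (x i))]
        simp only [ex_eval, Finset.sum_const, Finset.card_univ, Fintype.card_fin, nsmul_eq_mul]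
        have h5 : ex (fun x => Ξ x ^ 2) ≤ m * (1 / l) ^ 2 := hXi
        have h6 : 8 * (m : ℝ)⁻¹ * (m * ex T) ≤ 10000 / b ^ 2 := by
          have : 8 * (m : ℝ)⁻¹ * (m * ex T) = 8 * ex T := by field_simp
          rw [this]
          have : (10000 : ℝ) / b ^ 2 = 8 * (1232 / b ^ 2) + 144 / b ^ 2 := by ring
          have : (0 : ℝ) ≤ 144 / b ^ 2 := by positivity
          linarith
        have h7 := mul_le_mul_of_nonneg_left hfl
          (show (0 : ℝ) ≤ 48 * (b + 1) ^ 2 + 464 by positivity)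
        linarith

end Crest.Agent.R063
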