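import Mathlib

/-!
Uniform probability on finite product spaces (row 63; the first part is copied from row 34): averages,
independence, resampling and moments of sums.
-/

set_option autoImplicit false
set_option linter.unusedSectionVars false

namespace Crest.Agent.R063

open Finset

/-- Indicator of a proposition as a real number. -/
noncomputable def ind (p : Prop) : ℝ := by classical exact if p then 1 else 0

lemma ind_pos {p : Prop} (h : p) : ind p = 1 := by simp [ind, h]
lemma ind_neg {p : Prop} (h : ¬ p) : ind p = 0 := by simp [ind, h]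
lemma ind_nonneg (p : Prop) : 0 ≤ ind p := by
  by_cases h : p
  · simp [ind_pos h]
  · simp [ind_neg h]
lemma ind_le_one (p : Prop) : ind p ≤ 1 := by
  by_cases h : p
  · simp [ind_pos h]
  · simp [ind_neg h]
lemma ind_mono {p q : Prop} (h : p → q) : ind p ≤ ind q := by
  by_cases hp : p
  · rw [ind_pos hp, ind_pos (h hp)]
  · rw [ind_neg hp]; exact ind_nonneg q
lemma ind_congr {p q : Prop} (h : p ↔ q) : ind p = ind q := by rw [propext h]
lemma ind_not (p : Prop) : ind (¬ p) = 1 - ind p := by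
  by_cases hp : p
  · rw [ind_pos hp, ind_neg (not_not.mpr hp)]; norm_num
  · rw [ind_neg hp, ind_pos hp]; norm_num
lemma ind_and (p q : Prop) : ind (p ∧ q) = ind p * ind q := by
  by_cases hp : p
  · by_cases hq : q
    · rw [ind_pos hp, ind_pos hq, ind_pos ⟨hp, hq⟩]; norm_num
    · rw [ind_neg hq, ind_neg (fun h => hq h.2)]; norm_num
  · rw [ind_neg hp, ind_neg (fun h => hp h.1)]; norm_num

lemma ind_forall_mem {κ : Type*} (S : Finset κ) (p : κ → Prop) :
    ind (∀ t ∈ S, p t) = ∏ t ∈ S, ind (p t) := by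
  by_cases h : ∀ t ∈ S, p t
  · rw [ind_pos h]; exact (Finset.prod_eq_one fun t ht => ind_pos (h t ht)).symm
  · rw [ind_neg h]
    push Not at h
    obtain ⟨t, ht, hp⟩ := h
    exact (Finset.prod_eq_zero ht (ind_neg hp)).symm

lemma card_filter_eq_sum_ind {κ : Type*} (S : Finset κ) (p : κ → Prop) [DecidablePred p] :
    ((S.filter p).card : ℝ) = ∑ t ∈ S, ind (p t) := by
  rw [Finset.card_filter]
  push_cast
  refine Finset.sum_congr rfl fun t _ => ?_
  by_cases h : p t
  · rw [if_pos h, ind_pos h]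
  · rw [if_neg h, ind_neg h]

lemma ind_exists_le {κ : Type*} (S : Finset κ) (p : κ → Prop) :
    ind (∃ t ∈ S, p t) ≤ ∑ t ∈ S, ind (p t) := by
  by_cases h : ∃ t ∈ S, p t
  · obtain ⟨t, ht, hp⟩ := h
    rw [ind_pos ⟨t, ht, hp⟩]
    calc (1 : ℝ) = ind (p t) := (ind_pos hp).symm
      _ ≤ _ := Finset.single_le_sum (f := fun t => ind (p t)) (fun s _ => ind_nonneg _) ht
  · rw [ind_neg h]; exact Finset.sum_nonneg fun s _ => ind_nonneg _

/-- Average of a real function on a finite type. -/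
noncomputable def ex {Ω : Type*} [Fintype Ω] (f : Ω → ℝ) : ℝ := (∑ ω, f ω) / Fintype.card Ω

/-- Probability of an event under the uniform law on a finite type. -/
noncomputable def pr {Ω : Type*} [Fintype Ω] (E : Ω → Prop) : ℝ := ex fun ω => ind (E ω)

section basic
variable {Ω : Type*} [Fintype Ω]

lemma ex_mono {f g : Ω → ℝ} (h : ∀ ω, f ω ≤ g ω) : ex f ≤ ex g := by
  unfold ex
  exact div_le_div_of_nonneg_right (Finset.sum_le_sum fun ω _ => h ω) (Nat.cast_nonneg _)

lemma ex_nonneg {f : Ω → ℝ} (h : ∀ ω, 0 ≤ f ω) : 0 ≤ ex f := by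
  unfold ex
  exact div_nonneg (Finset.sum_nonneg fun ω _ => h ω) (Nat.cast_nonneg _)

lemma ex_const [Nonempty Ω] (c : ℝ) : ex (fun _ : Ω => c) = c := by
  unfold ex
  have : (Fintype.card Ω : ℝ) ≠ 0 := by exact_mod_cast Fintype.card_ne_zero
  simp only [Finset.sum_const, Finset.card_univ, nsmul_eq_mul]
  field_simp

lemma ex_sum {κ : Type*} (S : Finset κ) (f : κ → Ω → ℝ) :
    ex (fun ω => ∑ t ∈ S, f t ω) = ∑ t ∈ S, ex (f t) := by
  unfold ex
  rw [Finset.sum_comm, Finset.sum_div]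

lemma ex_add (f g : Ω → ℝ) : ex (fun ω => f ω + g ω) = ex f + ex g := by
  unfold ex
  rw [Finset.sum_add_distrib, add_div]

lemma ex_sub (f g : Ω → ℝ) : ex (fun ω => f ω - g ω) = ex f - ex g := by
  unfold ex
  rw [Finset.sum_sub_distrib, sub_div]

lemma ex_mul_left (c : ℝ) (f : Ω → ℝ) : ex (fun ω => c * f ω) = c * ex f := by
  unfold ex
  rw [← Finset.mul_sum, mul_div_assoc]

lemma ex_mul_right (c : ℝ) (f : Ω → ℝ) : ex (fun ω => f ω * c) = ex f * c := by
  simp_rw [mul_comm _ c]; exact ex_mul_left c f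

lemma ex_le_of_le [Nonempty Ω] {f : Ω → ℝ} {c : ℝ} (h : ∀ ω, f ω ≤ c) : ex f ≤ c := by
  have := ex_mono (f := f) (g := fun _ => c) h
  rwa [ex_const] at this

lemma le_ex_of_le [Nonempty Ω] {f : Ω → ℝ} {c : ℝ} (h : ∀ ω, c ≤ f ω) : c ≤ ex f := by
  have := ex_mono (f := fun _ => c) (g := f) h
  rwa [ex_const] at this

lemma ex_equiv {Ω' : Type*} [Fintype Ω'] (e : Ω ≃ Ω') (f : Ω' → ℝ) :
    ex (fun ω => f (e ω)) = ex f := by
  unfold ex
  rw [Equiv.sum_comp e f, Fintype.card_congr e]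

lemma ex_prod {Ω' : Type*} [Fintype Ω'] (f : Ω × Ω' → ℝ) :
    ex f = ex (fun a => ex (fun b => f (a, b))) := by
  unfold ex
  rw [Fintype.sum_prod_type, Fintype.card_prod, ← Finset.sum_div]
  push_cast
  rw [div_div, mul_comm]

lemma pr_nonneg (E : Ω → Prop) : 0 ≤ pr E := ex_nonneg fun _ => ind_nonneg _

lemma pr_le_one [Nonempty Ω] (E : Ω → Prop) : pr E ≤ 1 := ex_le_of_le fun _ => ind_le_one _

lemma pr_mono {E F : Ω → Prop} (h : ∀ ω, E ω → F ω) : pr E ≤ pr F :=
  ex_mono fun ω => ind_mono (h ω)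

lemma pr_not [Nonempty Ω] (E : Ω → Prop) : pr (fun ω => ¬ E ω) = 1 - pr E := by
  unfold pr
  simp_rw [ind_not]
  rw [ex_sub, ex_const]

lemma pr_or_le (E F : Ω → Prop) : pr (fun ω => E ω ∨ F ω) ≤ pr E + pr F := by
  unfold pr
  rw [← ex_add]
  refine ex_mono fun ω => ?_
  by_cases h : E ω
  · rw [ind_pos (Or.inl h), ind_pos h]; linarith [ind_nonneg (F ω)]
  · rw [ind_neg h, zero_add]; exact ind_mono fun h' => h'.resolve_left h

lemma pr_exists_le {κ : Type*} (S : Finset κ) (E : κ → Ω → Prop) :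
    pr (fun ω => ∃ t ∈ S, E t ω) ≤ ∑ t ∈ S, pr (E t) := by
  unfold pr
  rw [← ex_sum]
  exact ex_mono fun ω => ind_exists_le S fun t => E t ω

lemma pr_exists_le_card {κ : Type*} (S : Finset κ) (E : κ → Ω → Prop) {b : ℝ}
    (h : ∀ t ∈ S, pr (E t) ≤ b) : pr (fun ω => ∃ t ∈ S, E t ω) ≤ S.card * b := by
  refine (pr_exists_le S E).trans ?_
  simpa using Finset.sum_le_card_nsmul S _ b h

lemma exists_not_of_pr_lt_one [Nonempty Ω] {E : Ω → Prop} (h : pr E < 1) : ∃ ω, ¬ E ω := by
  by_contra hc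
  push Not at hc
  have : pr E = 1 := by
    unfold pr
    simp_rw [fun ω => ind_pos (hc ω)]
    exact ex_const 1
  linarith

lemma exists_of_pr_lt {E F : Ω → Prop} (h : pr F < pr E) : ∃ ω, E ω ∧ ¬ F ω := by
  by_contra hc
  push Not at hc
  exact absurd (pr_mono hc) (not_le.mpr h)

lemma pr_eq_card (E : Ω → Prop) [DecidablePred E] :
    pr E = ((Finset.univ.filter E).card : ℝ) / Fintype.card Ω := by
  unfold pr ex
  rw [card_filter_eq_sum_ind]

lemma pr_mem_finset [DecidableEq Ω] (B : Finset Ω) :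
    pr (fun ω => ω ∈ B) = (B.card : ℝ) / Fintype.card Ω := by
  rw [pr_eq_card]; simp

/-- Markov's inequality. -/
lemma markov {f : Ω → ℝ} (hf : ∀ ω, 0 ≤ f ω) {a : ℝ} (ha : 0 < a) :
    pr (fun ω => a ≤ f ω) ≤ ex f / a := by
  rw [le_div_iff₀ ha]
  unfold pr
  rw [← ex_mul_right]
  refine ex_mono fun ω => ?_
  by_cases h : a ≤ f ω
  · rw [ind_pos h]; linarith
  · rw [ind_neg h]; simpa using hf ω

/-- Reverse Markov inequality for bounded functions. -/
lemma reverse_markov [Nonempty Ω] {f : Ω → ℝ} {b a : ℝ} (hf : ∀ ω, f ω ≤ b) (ha : 0 ≤ a) :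
    ex f - a ≤ b * pr (fun ω => a ≤ f ω) := by
  unfold pr
  rw [← ex_mul_left]
  have : ex f - a = ex (fun ω => f ω - a) := by rw [ex_sub, ex_const]
  rw [this]
  refine ex_mono fun ω => ?_
  by_cases h : a ≤ f ω
  · rw [ind_pos h]; linarith [hf ω]
  · rw [ind_neg h]; linarith [not_le.mp h]

end basic

section pi
variable {ι : Type*} [Fintype ι] [DecidableEq ι] {A : ι → Type*} [∀ i, Fintype (A i)]

/-- Independence of the coordinates. -/
lemma ex_prod_coord (g : ∀ i, A i → ℝ) :
    ex (fun ω : ∀ i, A i => ∏ i, g i (ω i)) = ∏ i, ex (g i) := by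
  unfold ex
  rw [Finset.prod_div_distrib, Fintype.card_pi, Finset.prod_univ_sum]
  simp

lemma ex_prod_coord_mem [∀ i, Nonempty (A i)] (S : Finset ι) (g : ∀ i, A i → ℝ) :
    ex (fun ω : ∀ i, A i => ∏ i ∈ S, g i (ω i)) = ∏ i ∈ S, ex (g i) := by
  have h := ex_prod_coord (A := A) (fun i a => if i ∈ S then g i a else 1)
  have h1 : ∀ ω : ∀ i, A i, (∏ i, if i ∈ S then g i (ω i) else 1) = ∏ i ∈ S, g i (ω i) := by
    intro ω; rw [Finset.prod_ite_mem]; simp
  have h2 : (∏ i, ex (fun a : A i => if i ∈ S then g i a else 1)) = ∏ i ∈ S, ex (g i) := by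
    rw [← Finset.prod_subset (Finset.subset_univ S)]
    · exact Finset.prod_congr rfl fun i hi => by simp [hi]
    · intro i _ hi; simp [hi, ex_const]
  simp_rw [h1] at h
  rw [h, h2]

lemma pr_forall_coord [∀ i, Nonempty (A i)] (S : Finset ι) (E : ∀ i, A i → Prop) :
    pr (fun ω : ∀ i, A i => ∀ i ∈ S, E i (ω i)) = ∏ i ∈ S, pr (E i) := by
  unfold pr
  simp_rw [ind_forall_mem]
  exact ex_prod_coord_mem S fun i a => ind (E i a)

lemma ex_coord [∀ i, Nonempty (A i)] (i : ι) (g : ∀ i, A i → ℝ) :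
    ex (fun ω : ∀ i, A i => g i (ω i)) = ex (g i) := by
  simpa using ex_prod_coord_mem {i} g

/-- Resampling the coordinates in `S`. -/
lemma ex_resample [∀ i, Nonempty (A i)] (S : Finset ι) (f : (∀ i, A i) → ℝ) :
    ex f = ex (fun ω => ex (fun ω' => f (S.piecewise ω' ω))) := by
  let e : ((∀ i, A i) × (∀ i, A i)) ≃ ((∀ i, A i) × (∀ i, A i)) :=
    { toFun := fun x => (S.piecewise x.2 x.1, S.piecewise x.1 x.2)
      invFun := fun x => (S.piecewise x.2 x.1, S.piecewise x.1 x.2)
      left_inv := by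
        rintro ⟨a, b⟩
        ext i <;> by_cases h : i ∈ S <;> simp [Finset.piecewise, h]
      right_inv := by
        rintro ⟨a, b⟩
        ext i <;> by_cases h : i ∈ S <;> simp [Finset.piecewise, h] }
  have h1 := ex_equiv e (fun x => f x.1)
  rw [ex_prod, ex_prod] at h1
  simp only [ex_const] at h1
  exact h1.symm

/-- Resampling one coordinate. -/
lemma ex_update [∀ i, Nonempty (A i)] (i : ι) (f : (∀ i, A i) → ℝ) :
    ex f = ex (fun ω => ex (fun a : A i => f (Function.update ω i a))) := by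
  rw [ex_resample {i} f]
  congr 1
  funext ω
  have h : ∀ ω' : ∀ i, A i, ({i} : Finset ι).piecewise ω' ω = Function.update ω i (ω' i) := by
    intro ω'
    funext j
    by_cases hj : j = i
    · subst hj; simp [Finset.piecewise]
    · simp [Finset.piecewise, hj]
  simp_rw [h]
  have := ex_coord (A := A) i
    (fun j a => if hj : j = i then f (Function.update ω i (hj ▸ a)) else 0)
  simpa using this
end pi

section more
variable {Ω : Type*} [Fintype Ω]

lemma ex_congr {f g : Ω → ℝ} (h : ∀ ω, f ω = g ω) : ex f = ex g := by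
  rw [funext h]

lemma ex_neg (f : Ω → ℝ) : ex (fun ω => - f ω) = - ex f := by
  have := ex_mul_left (-1) f
  simpa using this

lemma ex_zero : ex (fun _ : Ω => (0 : ℝ)) = 0 := by simp [ex]

lemma ex_comm {Ω' : Type*} [Fintype Ω'] (f : Ω → Ω' → ℝ) :
    ex (fun a => ex (fun b => f a b)) = ex (fun b => ex (fun a => f a b)) := by
  have h1 := ex_prod (fun p : Ω × Ω' => f p.1 p.2)
  have h2 := ex_prod (fun p : Ω' × Ω => f p.2 p.1)
  have h3 := ex_equiv (Equiv.prodComm Ω Ω') (fun p : Ω' × Ω => f p.2 p.1)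
  simp only [Equiv.prodComm_apply, Prod.snd_swap, Prod.fst_swap] at h3
  rw [← h1, ← h2, h3]

lemma ind_sq (p : Prop) : ind p * ind p = ind p := by
  by_cases h : p
  · simp [ind_pos h]
  · simp [ind_neg h]

lemma ind_zero_or_one (p : Prop) : ind p = 0 ∨ ind p = 1 := by
  by_cases h : p
  · right; exact ind_pos h
  · left; exact ind_neg h

lemma sum_ind_mul {α : Type*} (S : Finset α) (a : α) (ha : a ∈ S) (g : α → ℝ) :
    ∑ b ∈ S, ind (a = b) * g b = g a := by
  classical
  rw [Finset.sum_eq_single a]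
  · rw [ind_pos rfl, one_mul]
  · intro b _ hb; rw [ind_neg (Ne.symm hb), zero_mul]
  · intro h; exact absurd ha h

lemma sum_ind_mul_le {α : Type*} (S : Finset α) (a : α) (g : α → ℝ) (hg : 0 ≤ g a) :
    ∑ b ∈ S, ind (a = b) * g b ≤ g a := by
  classical
  by_cases ha : a ∈ S
  · exact (sum_ind_mul S a ha g).le
  · rw [Finset.sum_eq_zero]
    · exact hg
    · intro b hb
      rw [ind_neg, zero_mul]
      rintro rfl; exact ha hb

/-- Decomposition of an average along the fibres of a map to a finite type. -/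
lemma ex_fiber {α : Type*} [Fintype α] (π : Ω → α) (G : α → Ω → ℝ) :
    ex (fun ω => G (π ω) ω) = ∑ a, ex (fun ω => ind (π ω = a) * G a ω) := by
  rw [← ex_sum]
  refine ex_congr fun ω => ?_
  exact (sum_ind_mul Finset.univ (π ω) (Finset.mem_univ _) (fun a => G a ω)).symm

end more

section moments
variable {ι : Type*} [Fintype ι] [DecidableEq ι] {A : Type*} [Fintype A] [Nonempty A]

lemma ex_eval (i : ι) (g : A → ℝ) : ex (fun x : ι → A => g (x i)) = ex g :=
  ex_coord (A := fun _ => A) i (fun _ => g)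

/-- A function not depending on coordinate `i` is independent of functions of coordinate `i`. -/
lemma ex_mul_indep (i : ι) (F : (ι → A) → ℝ) (hF : ∀ x a, F (Function.update x i a) = F x)
    (g : A → ℝ) : ex (fun x : ι → A => F x * g (x i)) = ex F * ex g := by
  rw [ex_update (A := fun _ => A) i]
  simp only [hF, Function.update_self]
  simp_rw [ex_mul_left]
  rw [ex_mul_right]

lemma ex_sum_centered (S : Finset ι) (W : ι → A → ℝ) (h0 : ∀ i, ex (W i) = 0) :
    ex (fun x : ι → A => ∑ i ∈ S, W i (x i)) = 0 := by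
  rw [ex_sum S (fun i (x : ι → A) => W i (x i))]
  exact Finset.sum_eq_zero fun i _ => by rw [ex_eval i (W i), h0]

lemma sum_update_notMem (S : Finset ι) (W : ι → A → ℝ) (i : ι) (hi : i ∉ S) (x : ι → A) (a : A) :
    ∑ j ∈ S, W j (Function.update x i a j) = ∑ j ∈ S, W j (x j) :=
  Finset.sum_congr rfl fun j hj => by
    rw [Function.update_of_ne (by rintro rfl; exact hi hj)]

/-- Second moment of a sum of independent centred variables. -/
lemma ex_sq_sum (S : Finset ι) (W : ι → A → ℝ) (h0 : ∀ i, ex (W i) = 0) :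
    ex (fun x : ι → A => (∑ i ∈ S, W i (x i)) ^ 2) = ∑ i ∈ S, ex (fun a => W i a ^ 2) := by
  induction S using Finset.induction_on with
  | empty => simp [ex_zero]
  | insert i S hi ih =>
    simp only [Finset.sum_insert hi]
    have h1 : ∀ x : ι → A, (W i (x i) + ∑ j ∈ S, W j (x j)) ^ 2 =
        W i (x i) ^ 2 + (∑ j ∈ S, W j (x j)) ^ 2 + 2 * ((∑ j ∈ S, W j (x j)) * W i (x i)) := by
      intro x; ring
    simp_rw [h1]
    rw [ex_add, ex_add, ex_mul_left, ih, ex_eval i (fun a => W i a ^ 2),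
      ex_mul_indep i (fun x => ∑ j ∈ S, W j (x j)) (fun x a => sum_update_notMem S W i hi x a) (W i),
      h0]
    ring

/-- Fourth moment of a sum of independent identically distributed centred variables. -/
lemma ex_four_sum (S : Finset ι) (W : A → ℝ) (h0 : ex W = 0) :
    ex (fun x : ι → A => (∑ i ∈ S, W (x i)) ^ 4) ≤
      S.card * ex (fun a => W a ^ 4) + 3 * S.card ^ 2 * ex (fun a => W a ^ 2) ^ 2 := by
  induction S using Finset.induction_on with
  | empty => simp [ex_zero]
  | insert i S hi ih =>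
    simp only [Finset.sum_insert hi, Finset.card_insert_of_notMem hi]
    have h1 : ∀ x : ι → A, (W (x i) + ∑ j ∈ S, W (x j)) ^ 4 =
        W (x i) ^ 4 + (∑ j ∈ S, W (x j)) ^ 4 + 4 * ((∑ j ∈ S, W (x j)) ^ 3 * W (x i))
          + 6 * ((∑ j ∈ S, W (x j)) ^ 2 * W (x i) ^ 2)
          + 4 * ((∑ j ∈ S, W (x j)) * W (x i) ^ 3) := by
      intro x; ring
    have hu := fun x a => sum_update_notMem S (fun _ => W) i hi x a
    simp_rw [h1]
    rw [ex_add, ex_add, ex_add, ex_add, ex_mul_left, ex_mul_left, ex_mul_left,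
      ex_eval i (fun a => W a ^ 4),
      ex_mul_indep i (fun x => (∑ j ∈ S, W (x j)) ^ 3) (fun x a => by rw [hu x a]) W,
      ex_mul_indep i (fun x => (∑ j ∈ S, W (x j)) ^ 2) (fun x a => by rw [hu x a])
        (fun a => W a ^ 2),
      ex_mul_indep i (fun x => (∑ j ∈ S, W (x j))) (fun x a => by rw [hu x a])
        (fun a => W a ^ 3),
      ex_sq_sum S (fun _ => W) (fun _ => h0), ex_sum_centered S (fun _ => W) (fun _ => h0), h0]
    simp only [Finset.sum_const, nsmul_eq_mul]
    push_cast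
    have hv : 0 ≤ ex (fun a => W a ^ 2) ^ 2 := sq_nonneg _
    nlinarith

end moments

end Crest.Agent.R063
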