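import Crest.Agent.R063.Prob

/-!
Rounding a real function on `X^s` to an integer function modulo the span of the axis lines
(row 63).
-/

set_option autoImplicit false
set_option linter.unusedSectionVars false

namespace Crest.Agent.R063

open Finset

/-- A bit as a real number. -/
def bit (b : Bool) : ℝ := if b then 1 else 0

/-- Derandomised independent rounding: separable cost plus a quadratic form. -/
lemma round_quad {Y X' : Type} [Fintype X'] [DecidableEq Y] (θ : Y → ℝ) (h0 : ∀ y, 0 ≤ θ y)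
    (h1 : ∀ y, θ y ≤ 1) (A : Y → Bool → ℝ) (w : X' → ℝ) (v : Y → X' → ℝ) (S : Finset Y) :
    ∀ u : X' → ℝ, ∃ b : Y → Bool,
      ∑ y ∈ S, A y (b y) + ∑ x, w x * (u x + ∑ y ∈ S, (bit (b y) - θ y) * v y x) ^ 2 ≤
        ∑ y ∈ S, ((1 - θ y) * A y false + θ y * A y true) + ∑ x, w x * u x ^ 2 +
          ∑ y ∈ S, θ y * (1 - θ y) * ∑ x, w x * v y x ^ 2 := by
  induction S using Finset.induction_on with
  | empty => intro u; exact ⟨fun _ => false, by simp⟩
  | insert y S hy ih =>
    intro u
    let Φ : Bool → ℝ := fun β => A y β + ∑ x, w x * (u x + (bit β - θ y) * v y x) ^ 2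
    have hΦ : (1 - θ y) * Φ false + θ y * Φ true =
        ((1 - θ y) * A y false + θ y * A y true) + ∑ x, w x * u x ^ 2 +
          θ y * (1 - θ y) * ∑ x, w x * v y x ^ 2 := by
      simp only [Φ, mul_add, Finset.mul_sum]
      have : ∑ x, (1 - θ y) * (w x * (u x + (bit false - θ y) * v y x) ^ 2) +
          ∑ x, θ y * (w x * (u x + (bit true - θ y) * v y x) ^ 2) =
          ∑ x, w x * u x ^ 2 + ∑ x, θ y * (1 - θ y) * (w x * v y x ^ 2) := by
        rw [← Finset.sum_add_distrib, ← Finset.sum_add_distrib]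
        refine Finset.sum_congr rfl fun x _ => ?_
        simp only [bit, Bool.false_eq_true, if_false, if_true]; ring
      linarith
    obtain ⟨β, hβ⟩ : ∃ β, Φ β ≤ (1 - θ y) * Φ false + θ y * Φ true := by
      by_cases hle : Φ false ≤ Φ true
      · exact ⟨false, by nlinarith [h0 y]⟩
      · exact ⟨true, by nlinarith [h1 y, not_le.mp hle]⟩
    obtain ⟨b, hb⟩ := ih fun x => u x + (bit β - θ y) * v y x
    refine ⟨Function.update b y β, ?_⟩
    have hup : ∀ z ∈ S, Function.update b y β z = b z := fun z hz =>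
      Function.update_of_ne (by rintro rfl; exact hy hz) _ _
    simp only [Finset.sum_insert hy, Function.update_self]
    rw [Finset.sum_congr rfl fun z hz => by rw [hup z hz]]
    have h3 : ∑ x, w x * (u x + ((bit β - θ y) * v y x +
        ∑ z ∈ S, (bit (Function.update b y β z) - θ z) * v z x)) ^ 2 =
        ∑ x, w x * (u x + (bit β - θ y) * v y x + ∑ z ∈ S, (bit (b z) - θ z) * v z x) ^ 2 := by
      refine Finset.sum_congr rfl fun x _ => ?_
      rw [Finset.sum_congr rfl fun z hz => by rw [hup z hz], add_assoc]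
    rw [h3]
    simp only [Φ] at hβ hΦ
    linarith

variable {X : Type} [Fintype X] [DecidableEq X]

/-- The span of the functions that do not depend on one of the coordinates. -/
def Ln (X : Type) (s : ℕ) : Submodule ℝ ((Fin s → X) → ℝ) :=
  Submodule.span ℝ {φ | ∃ i, ∀ x a, φ (Function.update x i a) = φ x}

lemma Ln_zero {φ : (Fin 0 → X) → ℝ} (h : φ ∈ Ln X 0) : φ = 0 := by
  have : {φ : (Fin 0 → X) → ℝ | ∃ i, ∀ x a, φ (Function.update x i a) = φ x} = ∅ := by
    ext φ; simp
  unfold Ln at h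
  rw [this, Submodule.span_empty] at h
  simpa using h

lemma Ln_tail {s : ℕ} (e : (Fin s → X) → ℝ) :
    (fun x : Fin (s + 1) → X => e (Fin.tail x)) ∈ Ln X (s + 1) :=
  Submodule.subset_span ⟨0, fun x a => by simp only [Fin.tail_update_zero]⟩

lemma Ln_lift {s : ℕ} (χ : X → ℝ) {ψ : (Fin s → X) → ℝ} (h : ψ ∈ Ln X s) :
    (fun x : Fin (s + 1) → X => χ (x 0) * ψ (Fin.tail x)) ∈ Ln X (s + 1) := by
  induction h using Submodule.span_induction with
  | mem ψ h =>
    obtain ⟨i, hi⟩ := h
    refine Submodule.subset_span ⟨i.succ, fun x a => ?_⟩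
    simp only [Fin.tail_update_succ, hi, Function.update_of_ne (Fin.succ_ne_zero i).symm]
  | zero => simp only [Pi.zero_apply, mul_zero]; exact Submodule.zero_mem _
  | add ψ ψ' _ _ h1 h2 => simp only [Pi.add_apply, mul_add]; exact Submodule.add_mem _ h1 h2
  | smul c ψ _ h1 =>
    convert Submodule.smul_mem _ c h1 using 1
    funext x; simp only [Pi.smul_apply, smul_eq_mul]; ring

lemma Ln_sum {s : ℕ} {κ : Type*} (S : Finset κ) (F : κ → (Fin s → X) → ℝ)
    (h : ∀ j ∈ S, F j ∈ Ln X s) : (fun x => ∑ j ∈ S, F j x) ∈ Ln X s := by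
  have := Submodule.sum_mem (Ln X s) h
  convert this using 1
  funext x; simp

lemma Ln_slices {s : ℕ} (φ : (Fin (s + 1) → X) → ℝ)
    (h : ∀ a, (fun y : Fin s → X => φ (Fin.cons a y)) ∈ Ln X s) : φ ∈ Ln X (s + 1) := by
  have : φ = fun x => ∑ a, ind (x 0 = a) * φ (Fin.cons a (Fin.tail x)) := by
    funext x
    rw [sum_ind_mul _ _ (Finset.mem_univ _) (fun a => φ (Fin.cons a (Fin.tail x))),
      Fin.cons_self_tail]
  rw [this]
  exact Ln_sum _ (fun a x => ind (x 0 = a) * φ (Fin.cons a (Fin.tail x))) fun a _ =>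
    Ln_lift (fun u => ind (u = a)) (h a)

lemma Ln_down [Nonempty X] {s : ℕ} {φ : (Fin (s + 1) → X) → ℝ} (h : φ ∈ Ln X (s + 1)) :
    ∃ e : (Fin s → X) → ℝ, ∀ a, (fun y : Fin s → X => φ (Fin.cons a y) - e y) ∈ Ln X s := by
  induction h using Submodule.span_induction with
  | mem φ h =>
    obtain ⟨i, hi⟩ := h
    refine Fin.cases (motive := fun i => (∀ x a, φ (Function.update x i a) = φ x) → _) ?_ ?_ i hi
    · intro hi
      obtain ⟨a0⟩ := ‹Nonempty X›
      refine ⟨fun y => φ (Fin.cons a0 y), fun a => ?_⟩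
      have : (fun y : Fin s → X => φ (Fin.cons a y) - φ (Fin.cons a0 y)) = 0 := by
        funext y
        have := hi (Fin.cons a0 y) a
        rw [Fin.update_cons_zero] at this
        simp [this]
      rw [this]; exact Submodule.zero_mem _
    · intro j hj
      refine ⟨0, fun a => Submodule.subset_span ⟨j, fun y b => ?_⟩⟩
      simp only [Pi.zero_apply, sub_zero]
      rw [Fin.cons_update, hj]
  | zero => exact ⟨0, fun a => by simp only [Pi.zero_apply, sub_zero]; exact (Ln X s).zero_mem⟩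
  | add φ φ' _ _ h1 h2 =>
    obtain ⟨e, he⟩ := h1
    obtain ⟨e', he'⟩ := h2
    refine ⟨e + e', fun a => ?_⟩
    convert Submodule.add_mem _ (he a) (he' a) using 1
    funext y; simp only [Pi.add_apply]; ring
  | smul c φ _ h1 =>
    obtain ⟨e, he⟩ := h1
    refine ⟨c • e, fun a => ?_⟩
    convert Submodule.smul_mem _ c (he a) using 1
    funext y; simp only [Pi.smul_apply, smul_eq_mul]; ring

/-- The diffusion kernel. -/
noncomputable def Ker (π : X → ℝ) {s : ℕ} (x y : Fin s → X) : ℝ :=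
  ∏ i, (ind (x i = y i) - π (y i))

lemma Ker_mem (π : X → ℝ) (s : ℕ) (y : Fin s → X) :
    (fun x => Ker π x y - ind (x = y)) ∈ Ln X s := by
  induction s with
  | zero =>
    have : (fun x => Ker π x y - ind (x = y)) = 0 := by
      funext x; simp [Ker, ind_pos (Subsingleton.elim x y)]
    rw [this]; exact Submodule.zero_mem _
  | succ s ih =>
    have h1 := Ln_lift (fun a => ind (a = y 0)) (ih (Fin.tail y))
    have h2 := Submodule.smul_mem _ (π (y 0)) (Ln_tail (fun x => Ker π x (Fin.tail y)))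
    convert Submodule.sub_mem _ h1 h2 using 1
    funext x
    have h3 : ind (x = y) = ind (x 0 = y 0) * ind (Fin.tail x = Fin.tail y) := by
      rw [← ind_and]
      refine ind_congr ⟨fun h => by simp [h], fun h => ?_⟩
      rw [← Fin.cons_self_tail x, ← Fin.cons_self_tail y, h.1, h.2]
    simp only [Pi.sub_apply, Pi.smul_apply, smul_eq_mul, Ker, Fin.prod_univ_succ, h3, Fin.tail]
    ring

lemma Ker_apply_mem (π : X → ℝ) (s : ℕ) (ξ : (Fin s → X) → ℝ) :
    (fun x => ∑ y, ξ y * Ker π x y - ξ x) ∈ Ln X s := by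
  have := Ln_sum Finset.univ (fun y x => ξ y * (Ker π x y - ind (x = y))) fun y _ =>
    Submodule.smul_mem _ (ξ y) (Ker_mem π s y)
  convert this using 1
  funext x
  simp only [mul_sub, Finset.sum_sub_distrib]
  congr 1
  simp_rw [mul_comm (ξ _)]
  exact (sum_ind_mul _ _ (Finset.mem_univ _) ξ).symm

lemma Ker_abs (π : X → ℝ) (h0 : ∀ a, 0 ≤ π a) (h1 : ∑ a, π a = 1) {s : ℕ} (x : Fin s → X) :
    ∑ y, |Ker π x y| ≤ 2 ^ s := by
  have : ∑ y : Fin s → X, |Ker π x y| = ∏ i : Fin s, ∑ b, |ind (x i = b) - π b| := by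
    rw [Finset.prod_univ_sum]
    simp only [Ker, Finset.abs_prod, Fintype.piFinset_univ]
  rw [this]
  calc ∏ i : Fin s, ∑ b, |ind (x i = b) - π b| ≤ ∏ _i : Fin s, (2 : ℝ) := by
        refine Finset.prod_le_prod (fun i _ => Finset.sum_nonneg fun b _ => abs_nonneg _)
          fun i _ => ?_
        calc ∑ b, |ind (x i = b) - π b| ≤ ∑ b, (ind (x i = b) * 1 + π b) := by
              refine Finset.sum_le_sum fun b _ => ?_
              rw [abs_le]; constructor <;> linarith [ind_nonneg (x i = b), h0 b]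
          _ = 2 := by
              rw [Finset.sum_add_distrib, h1, sum_ind_mul _ _ (Finset.mem_univ _) (fun _ => 1)]
              norm_num
    _ = 2 ^ s := by simp

lemma Ker_sq (π ω : X → ℝ) (s : ℕ) :
    ∑ y : Fin s → X, ∑ x : Fin s → X, (∏ i, ω (x i)) * Ker π x y ^ 2 =
      (∑ a, ω a * ∑ b, (ind (a = b) - π b) ^ 2) ^ s := by
  rw [Finset.sum_comm]
  have h1 : ∀ x : Fin s → X, ∑ y : Fin s → X, (∏ i, ω (x i)) * Ker π x y ^ 2 =
      ∏ i, (ω (x i) * ∑ b, (ind (x i = b) - π b) ^ 2) := by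
    intro x
    rw [Finset.prod_mul_distrib, ← Finset.mul_sum, Finset.prod_univ_sum]
    simp only [Ker, Fintype.piFinset_univ, Finset.prod_pow]
  simp_rw [h1]
  have h2 := Finset.prod_univ_sum (fun _ : Fin s => (Finset.univ : Finset X))
    (fun _ a => ω a * ∑ b, (ind (a = b) - π b) ^ 2)
  simp only [Fintype.piFinset_univ, Finset.prod_const, Finset.card_univ, Fintype.card_fin] at h2
  exact h2.symm

lemma sum_cons {s : ℕ} (F : (Fin (s + 1) → X) → ℝ) :
    ∑ x, F x = ∑ a, ∑ y : Fin s → X, F (Fin.cons a y) := by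
  rw [← Fintype.sum_prod_type']
  exact (Equiv.sum_comp (Fin.consEquiv fun _ => X) F).symm

theorem rounding (π ω : X → ℝ) (o : X) (χ : ℝ) (hπ0 : ∀ a, 0 ≤ π a) (hπ1 : ∑ a, π a = 1)
    (hω : ∀ a, 0 ≤ ω a) (hχ1 : ∑ a ∈ Finset.univ.erase o, ω a ≤ χ)
    (hχ2 : ∑ a, ω a * ∑ b, (ind (a = b) - π b) ^ 2 ≤ χ) (s : ℕ) :
    ∀ (Lc : ℝ) (h g b : (Fin s → X) → ℝ) (c : (Fin s → X) → ℤ → ℝ), 0 ≤ Lc →
      (∃ n : (Fin s → X) → ℤ, (fun x => h x - n x) ∈ Ln X s) →
      (∀ x t, (1 - Int.fract t) * c x ⌊t⌋ + Int.fract t * c x (⌊t⌋ + 1) ≤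
        b x + Lc * (∏ i, ω (x i)) * (t - g x) ^ 2) →
      ∃ f : (Fin s → X) → ℤ, (fun x => (f x : ℝ) - h x) ∈ Ln X s ∧ (∀ x, |(f x : ℝ) - h x| ≤ 2 ^ s) ∧
        ∑ x, c x (f x) ≤ ∑ x, b x +
          Lc * ((s + 1) * ∑ x, (∏ i, ω (x i)) * (h x - g x) ^ 2 + s ^ 3 * χ ^ s) := by
  have hχ : 0 ≤ χ := (Finset.sum_nonneg fun a _ => hω a).trans hχ1
  have : Nonempty X := ⟨o⟩
  induction s with
  | zero =>
    intro Lc h g b c hL hn hc
    obtain ⟨n, hn⟩ := hn
    have h0 := Ln_zero hn
    have h1 : ∀ x, h x = n x := fun x => by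
      have := congrFun h0 x; simp only [Pi.zero_apply] at this; linarith
    refine ⟨n, ?_, ?_, ?_⟩
    · have : (fun x => (n x : ℝ) - h x) = 0 := by funext x; simp [h1]
      rw [this]; exact Submodule.zero_mem _
    · intro x; simp [h1]
    · simp only [Finset.univ_unique, Finset.sum_singleton]
      have := hc default (n default)
      simp only [Int.fract_intCast, Int.floor_intCast] at this
      rw [h1]
      simp only [Nat.cast_zero] 
      linarith
  | succ s ih =>
    intro Lc h g b c hL hn hc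
    obtain ⟨n, hn⟩ := hn
    obtain ⟨e0, he0⟩ := Ln_down hn
    let W : (Fin s → X) → ℝ := fun y => ∏ i, ω (y i)
    have hW : ∀ y, 0 ≤ W y := fun y => Finset.prod_nonneg fun i _ => hω _
    have hWc : ∀ a (y : Fin s → X), ∏ i, ω ((Fin.cons a y : Fin (s + 1) → X) i) = ω a * W y := by
      intro a y; rw [Fin.prod_univ_succ]; simp [W]
    let ho : (Fin s → X) → ℝ := fun y => h (Fin.cons o y)
    let lam : ℝ := Lc * χ * ((s + 1) * (s + 2))
    have hlam : 0 ≤ lam := by positivity
    obtain ⟨β, hβ⟩ := round_quad (fun y => Int.fract (ho y)) (fun y => Int.fract_nonneg _)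
      (fun y => (Int.fract_lt_one _).le)
      (fun y β => c (Fin.cons o y) (if β then ⌊ho y⌋ + 1 else ⌊ho y⌋))
      (fun x => lam * W x) (fun y x => Ker π x y) Finset.univ 0
    let fo : (Fin s → X) → ℤ := fun y => if β y then ⌊ho y⌋ + 1 else ⌊ho y⌋
    have hfo : ∀ y, (fo y : ℝ) - ho y = bit (β y) - Int.fract (ho y) := by
      intro y
      simp only [fo, bit, Int.fract]
      split_ifs <;> push_cast <;> ring
    have hfo1 : ∀ y, |(fo y : ℝ) - ho y| ≤ 1 := by
      intro y
      rw [hfo, abs_le]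
      have := Int.fract_nonneg (ho y)
      have := Int.fract_lt_one (ho y)
      simp only [bit]
      split_ifs <;> constructor <;> linarith
    let e : (Fin s → X) → ℝ := fun x => ∑ y, ((fo y : ℝ) - ho y) * Ker π x y
    have he : (fun x => e x - ((fo x : ℝ) - ho x)) ∈ Ln X s :=
      Ker_apply_mem π s fun y => (fo y : ℝ) - ho y
    have he2 : ∀ x, |e x| ≤ 2 ^ s := by
      intro x
      refine (Finset.abs_sum_le_sum_abs _ _).trans (le_trans ?_ (Ker_abs π hπ0 hπ1 x))
      refine Finset.sum_le_sum fun y _ => ?_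
      rw [abs_mul]
      exact mul_le_of_le_one_left (abs_nonneg _) (hfo1 y)
    -- the cost of the base slice
    have hbase : ∑ y, c (Fin.cons o y) (fo y) + lam * ∑ x, W x * e x ^ 2 ≤
        ∑ y, b (Fin.cons o y) + Lc * ω o * ∑ y, W y * (ho y - g (Fin.cons o y)) ^ 2
          + lam * (χ ^ s / 4) := by
      simp only [Pi.zero_apply, zero_add, Bool.false_eq_true, if_false, if_true] at hβ
      have e1 : ∑ x, lam * W x * (∑ y, (bit (β y) - Int.fract (ho y)) * Ker π x y) ^ 2 =
          lam * ∑ x, W x * e x ^ 2 := by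
        rw [Finset.mul_sum]
        refine Finset.sum_congr rfl fun x _ => ?_
        simp only [e, hfo]; ring
      have e2 : ∑ y, ((1 - Int.fract (ho y)) * c (Fin.cons o y) ⌊ho y⌋ +
          Int.fract (ho y) * c (Fin.cons o y) (⌊ho y⌋ + 1)) ≤
          ∑ y, b (Fin.cons o y) + Lc * ω o * ∑ y, W y * (ho y - g (Fin.cons o y)) ^ 2 := by
        rw [Finset.mul_sum, ← Finset.sum_add_distrib]
        refine Finset.sum_le_sum fun y _ => (hc _ _).trans (le_of_eq ?_)
        rw [hWc]; ring
      have e3 : ∑ y, Int.fract (ho y) * (1 - Int.fract (ho y)) * ∑ x, lam * W x * Ker π x y ^ 2 ≤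
          lam * (χ ^ s / 4) := by
        calc _ ≤ ∑ y, (1 / 4) * ∑ x, lam * W x * Ker π x y ^ 2 := by
              refine Finset.sum_le_sum fun y _ => mul_le_mul_of_nonneg_right ?_
                (Finset.sum_nonneg fun x _ => by have := hW x; positivity)
              nlinarith [sq_nonneg (Int.fract (ho y) - 1 / 2)]
          _ = lam * ((∑ y : Fin s → X, ∑ x : Fin s → X, (∏ i, ω (x i)) * Ker π x y ^ 2) / 4) := by
              simp only [W, Finset.mul_sum, Finset.sum_div]
              refine Finset.sum_congr rfl fun y _ => Finset.sum_congr rfl fun x _ => by ring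
          _ ≤ lam * (χ ^ s / 4) := by
              rw [Ker_sq]
              refine mul_le_mul_of_nonneg_left (div_le_div_of_nonneg_right
                (pow_le_pow_left₀ (Finset.sum_nonneg fun a _ => mul_nonneg (hω a)
                  (Finset.sum_nonneg fun b _ => sq_nonneg _)) hχ2 s) (by norm_num)) hlam
      simp only [ne_eq, OfNat.ofNat_ne_zero, not_false_eq_true, zero_pow, mul_zero,
        Finset.sum_const_zero, add_zero] at hβ
      rw [e1] at hβ
      have e4 : ∑ y, c (Fin.cons o y) (if β y = true then ⌊ho y⌋ + 1 else ⌊ho y⌋) =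
          ∑ y, c (Fin.cons o y) (fo y) := rfl
      linarith
    -- the other slices
    have hoth : ∀ a, ∃ f : (Fin s → X) → ℤ,
        (fun y => (f y : ℝ) - (h (Fin.cons a y) + e y)) ∈ Ln X s ∧
        (∀ y, |(f y : ℝ) - (h (Fin.cons a y) + e y)| ≤ 2 ^ s) ∧
        ∑ y, c (Fin.cons a y) (f y) ≤ ∑ y, b (Fin.cons a y) + Lc * ω a *
          ((s + 1) * ∑ y, W y * (h (Fin.cons a y) + e y - g (Fin.cons a y)) ^ 2 + s ^ 3 * χ ^ s) := by
      intro a
      refine ih (Lc * ω a) (fun y => h (Fin.cons a y) + e y) (fun y => g (Fin.cons a y))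
        (fun y => b (Fin.cons a y)) (fun y => c (Fin.cons a y)) (mul_nonneg hL (hω a))
        ⟨fun y => n (Fin.cons a y) - n (Fin.cons o y) + fo y, ?_⟩ ?_
      · convert Submodule.add_mem _ (Submodule.sub_mem _ (he0 a) (he0 o)) he using 1
        funext y
        simp only [Pi.add_apply, Pi.sub_apply, ho]; push_cast; ring
      · intro y t
        refine (hc _ _).trans (le_of_eq ?_)
        rw [hWc]; ring
    choose fa hfa1 hfa2 hfa3 using hoth
    let f : (Fin (s + 1) → X) → ℤ := fun x => if x 0 = o then fo (Fin.tail x) else fa (x 0) (Fin.tail x)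
    have hf_o : ∀ y, f (Fin.cons o y) = fo y := by intro y; simp [f]
    have hf_a : ∀ a, a ≠ o → ∀ y, f (Fin.cons a y) = fa a y := by intro a ha y; simp [f, ha]
    refine ⟨f, ?_, ?_, ?_⟩
    · have h1 : (fun x => (f x : ℝ) - h x - e (Fin.tail x)) ∈ Ln X (s + 1) := by
        refine Ln_slices _ fun a => ?_
        by_cases ha : a = o
        · subst ha
          convert Submodule.neg_mem _ he using 1
          funext y; simp only [hf_o, Fin.tail_cons, Pi.neg_apply, ho]; ring
        · convert hfa1 a using 1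
          funext y; simp only [hf_a a ha, Fin.tail_cons]; ring
      convert Submodule.add_mem _ h1 (Ln_tail e) using 1
      funext x; simp
    · intro x
      rw [← Fin.cons_self_tail x]
      have h2s : (1 : ℝ) ≤ 2 ^ s := one_le_pow₀ (by norm_num)
      by_cases ha : x 0 = o
      · rw [ha, hf_o]
        have := hfo1 (Fin.tail x)
        simp only [ho] at this
        rw [pow_succ]; linarith
      · rw [hf_a _ ha]
        have h1 := hfa2 (x 0) (Fin.tail x)
        have h2 := he2 (Fin.tail x)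
        rw [abs_le] at h1 h2 ⊢
        rw [pow_succ]
        constructor <;> linarith [h1.1, h1.2, h2.1, h2.2]
    · rw [sum_cons, sum_cons b, sum_cons fun x => (∏ i, ω (x i)) * (h x - g x) ^ 2]
      simp only [hWc]
      rw [← Finset.add_sum_erase _ _ (Finset.mem_univ o),
        ← Finset.add_sum_erase _ (fun a => ∑ y, b (Fin.cons a y)) (Finset.mem_univ o),
        ← Finset.add_sum_erase _ (fun a => ∑ y, ω a * W y * (h (Fin.cons a y) - g (Fin.cons a y)) ^ 2)
          (Finset.mem_univ o)]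
      simp only [hf_o]
      set E2 := ∑ x, W x * e x ^ 2 with hE2
      have hE2n : 0 ≤ E2 := Finset.sum_nonneg fun x _ => mul_nonneg (hW x) (sq_nonneg _)
      have h3 : ∑ a ∈ Finset.univ.erase o, ∑ y, c (Fin.cons a y) (f (Fin.cons a y)) ≤
          ∑ a ∈ Finset.univ.erase o, (∑ y, b (Fin.cons a y) +
            Lc * (s + 2) * ∑ y, ω a * W y * (h (Fin.cons a y) - g (Fin.cons a y)) ^ 2 +
            ω a * (Lc * ((s + 1) * (s + 2) * E2 + s ^ 3 * χ ^ s))) := by
        refine Finset.sum_le_sum fun a ha => ?_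
        simp only [hf_a a (Finset.ne_of_mem_erase ha)]
        refine (hfa3 a).trans ?_
        have h4 : ((s : ℝ) + 1) * ∑ y, W y * (h (Fin.cons a y) + e y - g (Fin.cons a y)) ^ 2 ≤
            (s + 2) * ∑ y, W y * (h (Fin.cons a y) - g (Fin.cons a y)) ^ 2 +
              (s + 1) * (s + 2) * E2 := by
          rw [hE2, Finset.mul_sum, Finset.mul_sum, Finset.mul_sum, ← Finset.sum_add_distrib]
          refine Finset.sum_le_sum fun y _ => ?_
          have hs : (0 : ℝ) ≤ s := Nat.cast_nonneg s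
          have := mul_nonneg (hW y)
            (sq_nonneg (h (Fin.cons a y) - g (Fin.cons a y) - (s + 1) * e y))
          nlinarith
        have h5 : ∑ y, ω a * W y * (h (Fin.cons a y) - g (Fin.cons a y)) ^ 2 =
            ω a * ∑ y, W y * (h (Fin.cons a y) - g (Fin.cons a y)) ^ 2 := by
          rw [Finset.mul_sum]; exact Finset.sum_congr rfl fun y _ => by ring
        rw [h5]
        have h6 := mul_le_mul_of_nonneg_left h4 (mul_nonneg hL (hω a))
        nlinarith
      rw [Finset.sum_add_distrib, Finset.sum_add_distrib, ← Finset.sum_mul, ← Finset.mul_sum] at h3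
      have h7 : (∑ a ∈ Finset.univ.erase o, ω a) * (Lc * ((s + 1) * (s + 2) * E2 + s ^ 3 * χ ^ s)) ≤
          χ * (Lc * ((s + 1) * (s + 2) * E2 + s ^ 3 * χ ^ s)) :=
        mul_le_mul_of_nonneg_right hχ1 (by positivity)
      have h8 : ∑ y, ω o * W y * (h (Fin.cons o y) - g (Fin.cons o y)) ^ 2 =
            ω o * ∑ y, W y * (ho y - g (Fin.cons o y)) ^ 2 := by
          rw [Finset.mul_sum]; exact Finset.sum_congr rfl fun y _ => by simp only [ho]; ring
      rw [h8]
      set P0 := ∑ y, W y * (ho y - g (Fin.cons o y)) ^ 2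
      have hP0 : 0 ≤ P0 := Finset.sum_nonneg fun x _ => mul_nonneg (hW x) (sq_nonneg _)
      set P1 := ∑ a ∈ Finset.univ.erase o, ∑ y, ω a * W y * (h (Fin.cons a y) - g (Fin.cons a y)) ^ 2
      have hs : (0 : ℝ) ≤ s := Nat.cast_nonneg s
      have h9 : 0 ≤ Lc * ω o * P0 * (s + 1) := by have := hω o; positivity
      have h10 : 0 ≤ Lc * χ * χ ^ s * (((s : ℝ) + 1) ^ 3 - s ^ 3 - (s + 1) * (s + 2) / 4) := by
        refine mul_nonneg (by positivity) ?_
        nlinarith
      simp only [lam] at hbase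
      push_cast
      rw [pow_succ χ]
      nlinarith

end Crest.Agent.R063
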