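import Crest.Agent.R063.Test
import Crest.Agent.R063.CLT
import Crest.Agent.R063.Cube

/-!
From a source to a source with two costs and a better ratio (row 63).
-/

set_option autoImplicit false
set_option linter.unusedSectionVars false

namespace Crest.Agent.R063

open Finset Filter
open scoped Topology

section
variable {Ω : Type} [Fintype Ω] [Nonempty Ω]

/-- Normalised sum of independent copies. -/
noncomputable def Zn (W : Ω → ℝ) (N : ℕ) (x : Fin N → Ω) : ℝ := (√N)⁻¹ * ∑ j, W (x j)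

lemma Zn_mean (W : Ω → ℝ) (h0 : ex W = 0) (N : ℕ) : ex (Zn W N) = 0 := by
  unfold Zn
  rw [ex_mul_left, ex_sum_centered _ (fun _ => W) fun _ => h0, mul_zero]

lemma Zn_sq (W : Ω → ℝ) (h0 : ex W = 0) (h1 : ex (fun ω => W ω ^ 2) = 1) {N : ℕ} (hN : 0 < N) :
    ex (fun x => Zn W N x ^ 2) = 1 := by
  have hN' : (0 : ℝ) < N := by exact_mod_cast hN
  simp only [Zn, mul_pow]
  rw [ex_mul_left, ex_sq_sum _ (fun _ => W) fun _ => h0, h1, inv_pow, Real.sq_sqrt hN'.le]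
  simp [hN'.ne']

lemma Zn_four (W : Ω → ℝ) (h0 : ex W = 0) (h1 : ex (fun ω => W ω ^ 2) = 1) :
    ∀ᶠ N : ℕ in atTop, ex (fun x => Zn W N x ^ 4) ≤ 4 := by
  obtain ⟨N0, hN0⟩ := exists_nat_ge (ex fun ω => W ω ^ 4)
  filter_upwards [eventually_ge_atTop N0, eventually_gt_atTop 0] with N hN hNpos
  have hN' : (0 : ℝ) < N := by exact_mod_cast hNpos
  have hN1 : (N0 : ℝ) ≤ N := by exact_mod_cast hN
  simp only [Zn, mul_pow]
  rw [ex_mul_left]
  have h2 := ex_four_sum (Finset.univ : Finset (Fin N)) W h0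
  rw [h1, Finset.card_univ, Fintype.card_fin] at h2
  have h3 : (√(N : ℝ))⁻¹ ^ 4 = ((N : ℝ) ^ 2)⁻¹ := by
    rw [inv_pow, show (4 : ℕ) = 2 * 2 from rfl, pow_mul, Real.sq_sqrt hN'.le]
  rw [h3, inv_mul_le_iff₀ (by positivity)]
  nlinarith

lemma floor_mul_eq_iff {l : ℝ} (hl : 0 < l) (z : ℝ) (k : ℤ) :
    ⌊l * z⌋ = k ↔ k / l ≤ z ∧ z < (k + 1) / l := by
  rw [Int.floor_eq_iff, div_le_iff₀ hl, lt_div_iff₀ hl, mul_comm]

lemma clt_floor (W : Ω → ℝ) (h0 : ex W = 0) (h1 : ex (fun ω => W ω ^ 2) = 1) {l : ℝ} (hl : 0 < l)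
    (k : ℤ) : Tendsto (fun N : ℕ => pr fun x : Fin N → Ω => ⌊l * Zn W N x⌋ = k) atTop
      (𝓝 (gam (k / l) ((k + 1) / l))) := by
  simp_rw [floor_mul_eq_iff hl]
  exact clt W h0 h1 (by gcongr; linarith)

lemma ev_dom (W : Ω → ℝ) (h0 : ex W = 0) (h1 : ex (fun ω => W ω ^ 2) = 1) {l : ℕ} (hl : 0 < l)
    (R : ℤ) : ∀ᶠ N : ℕ in atTop, ∀ k : ℤ, |k| ≤ R → 8 * pr (fun x => ⌊l * Zn W N x⌋ = k) ≤
      64 * pr (fun x => ⌊l * Zn W N x⌋ = k + l) + pr (fun x => ⌊l * Zn W N x⌋ = k - l) := by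
  have hl' : (0 : ℝ) < l := by exact_mod_cast hl
  have : ∀ᶠ N : ℕ in atTop, ∀ k ∈ Finset.Icc (-R) R, 8 * pr (fun x => ⌊l * Zn W N x⌋ = k) ≤
      64 * pr (fun x => ⌊l * Zn W N x⌋ = k + l) + pr (fun x => ⌊l * Zn W N x⌋ = k - l) := by
    refine (eventually_all_finset _).mpr fun k _ => ?_
    have a1 := (clt_floor W h0 h1 hl' k).const_mul 8
    have a2 := ((clt_floor W h0 h1 hl' (k + l)).const_mul 64).add (clt_floor W h0 h1 hl' (k - l))
    refine (a1.eventually_lt a2 ?_).mono fun N h => h.le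
    have hlt : (k : ℝ) / l < (k + 1) / l := by gcongr; linarith
    have b1 := gam_pos hlt
    have b2 := gam_dom hlt.le
    have e1 : ((k + l : ℤ) : ℝ) / l = k / l + 1 := by push_cast; field_simp
    have e2 : (((k + l : ℤ) : ℝ) + 1) / l = (k + 1) / l + 1 := by push_cast; field_simp; ring
    have e3 : ((k - l : ℤ) : ℝ) / l = k / l - 1 := by push_cast; field_simp
    have e4 : (((k - l : ℤ) : ℝ) + 1) / l = (k + 1) / l - 1 := by push_cast; field_simp; ring
    rw [e1, e2, e3, e4]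
    linarith
  exact this.mono fun N h k hk => h k (by rw [Finset.mem_Icc, ← abs_le]; exact hk)

lemma ev_thin (W : Ω → ℝ) (h0 : ex W = 0) (h1 : ex (fun ω => W ω ^ 2) = 1) {c : ℝ} (hc : 0 < c)
    (hg : ∀ a b : ℝ, -2 ≤ a → a ≤ b → b ≤ 2 → 2 * c * (b - a) ≤ gam a b) {κ : Type} [Fintype κ]
    (η : κ → ℝ) (hη : ∀ j, 0 < η j ∧ η j ≤ 1) :
    ∀ᶠ N : ℕ in atTop, ∀ j, c * η j ≤ pr fun x => 0 ≤ Zn W N x ∧ Zn W N x < η j := by
  refine eventually_all.mpr fun j => ?_
  have a1 := clt W h0 h1 (hη j).1.le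
  refine (a1.eventually (lt_mem_nhds ?_)).mono fun N h => h.le
  have := hg 0 (η j) (by norm_num) (hη j).1.le (by linarith [(hη j).2])
  nlinarith [mul_pos hc (hη j).1]

lemma ev_wide (W : Ω → ℝ) (h0 : ex W = 0) (h1 : ex (fun ω => W ω ^ 2) = 1) {c : ℝ} (hc : 0 < c)
    (hg : ∀ a b : ℝ, -2 ≤ a → a ≤ b → b ≤ 2 → 2 * c * (b - a) ≤ gam a b) {l s : ℕ} (hl : 0 < l)
    (hs : 0 < s) : ∀ᶠ N : ℕ in atTop, ∀ k : ℤ, |k| ≤ l * s →
      c / (l * s) ≤ pr fun y => ⌊l * (s * Zn W (s ^ 2 * N) y)⌋ = k := by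
  have hl' : (1 : ℝ) ≤ l := by exact_mod_cast hl
  have hs' : (1 : ℝ) ≤ s := by exact_mod_cast hs
  have hls : (1 : ℝ) ≤ l * s := by nlinarith
  have hls0 : (0 : ℝ) < l * s := by linarith
  have ht : Tendsto (fun N : ℕ => s ^ 2 * N) atTop atTop :=
    tendsto_id.const_mul_atTop' (by positivity)
  have : ∀ᶠ N : ℕ in atTop, ∀ k ∈ Finset.Icc (-(l * s : ℤ)) (l * s),
      c / (l * s) ≤ pr fun y => ⌊l * (s * Zn W (s ^ 2 * N) y)⌋ = k := by
    refine (eventually_all_finset _).mpr fun k hk => ?_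
    have a1 := (clt_floor W h0 h1 hls0 k).comp ht
    simp_rw [← mul_assoc]
    refine (a1.eventually (lt_mem_nhds ?_)).mono fun N h => h.le
    rw [Finset.mem_Icc] at hk
    have k1 : -((l : ℝ) * s) ≤ k := by exact_mod_cast hk.1
    have k2 : (k : ℝ) ≤ l * s := by exact_mod_cast hk.2
    have := hg (k / (l * s)) ((k + 1) / (l * s)) (by rw [le_div_iff₀ hls0]; linarith)
      (by gcongr; linarith) (by rw [div_le_iff₀ hls0]; linarith)
    have e : 2 * c * (((k : ℝ) + 1) / (l * s) - k / (l * s)) = 2 * (c / (l * s)) := by ring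
    have : 0 < c / (l * s) := by positivity
    linarith
  exact this.mono fun N h k hk => h k (by rw [Finset.mem_Icc, ← abs_le]; exact hk)

end

lemma lines_deg {A B : Type} [Fintype A] [Cube A] [Fintype B] [Cube B] {DA DB m K : ℕ}
    {Z : A → ℝ} {U : B → ℝ} (hZ : Lab DA Z) (hU : Lab DB U)
    {F : (Fin m → ℝ) → ℝ → (Fin (K + 1) → ℝ) → ℝ} (hF : Lines F) :
    (fun p : (Fin m → A) × B × (Fin (K + 1) → A) =>
      F (fun j => Z (p.1 j)) (U p.2.1) (fun j => Z (p.2.2 j))) ∈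
        Deg ((Fin m → A) × B × (Fin (K + 1) → A)) ((m + K) * DA + DB) := by
  obtain ⟨ψ, ψ', h1, h2, h3⟩ := hF
  have full : ∀ n : ℕ, Lab (n * DA) (fun (x : Fin n → A) k => Z (x k)) := by
    intro n
    have := Lab.pi (κ := Fin n) (π := fun _ => Z) (D := fun _ => DA) fun _ => hZ
    simpa using this
  have part : ∀ (n : ℕ) (i : Fin n), ∃ D, D + DA = n * DA ∧
      Lab D (fun x : Fin n → A => Function.update (fun k => Z (x k)) i 0) := by
    intro n i
    have := Lab.pi (κ := Fin n) (π := fun k => if k = i then fun _ => 0 else Z)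
      (D := fun k => if k = i then 0 else DA) fun k => by
        by_cases hk : k = i
        · simp only [hk, if_true]; exact Lab.const 0
        · simp only [hk, if_false]; exact hZ
    refine ⟨_, ?_, by
      convert this using 2 with x
      funext k
      by_cases hk : k = i
      · subst hk; simp
      · simp [hk]⟩
    rw [← Finset.sum_erase_add _ _ (Finset.mem_univ i), if_pos rfl, add_zero,
      Finset.sum_congr rfl fun k hk => if_neg (Finset.ne_of_mem_erase hk)]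
    have := Finset.sum_erase_add Finset.univ (fun _ => DA) (Finset.mem_univ i)
    simpa using this
  simp only [h3]
  refine Submodule.add_mem _ (sum_mem_Deg _ _ (fun i (p : (Fin m → A) × B × (Fin (K + 1) → A)) =>
      ψ i (fun j => Z (p.1 j)) (U p.2.1) (fun j => Z (p.2.2 j))) fun i _ => ?_)
    (sum_mem_Deg _ _ (fun i (p : (Fin m → A) × B × (Fin (K + 1) → A)) =>
      ψ' i (fun j => Z (p.1 j)) (U p.2.1) (fun j => Z (p.2.2 j))) fun i _ => ?_)
  · obtain ⟨D, hD, hL⟩ := part m i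
    have := (hL.prod (hU.prod (full (K + 1)))) fun a => ψ i a.1 a.2.1 a.2.2
    simp only [h1] at this
    refine Deg_mono (le_of_eq ?_) this
    nlinarith
  · obtain ⟨D, hD, hL⟩ := part (K + 1) i
    have := ((full m).prod (hU.prod hL)) fun a => ψ' i a.1 a.2.1 a.2.2
    simp only [h2] at this
    refine Deg_mono (le_of_eq ?_) this
    nlinarith

theorem step1 : ∃ (mt : ℕ) (κ : ℝ), 0 < mt ∧ 0 < κ ∧
    ∀ (Ω : Type) [Fintype Ω] [Cube Ω] (D : ℕ) (M : Ω → ℝ), Lab D M → Orth M id →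
      0 < ex (fun x => M x ^ 2) →
      ∃ (Ω₁ : Type) (_ : Fintype Ω₁) (_ : Cube Ω₁) (N : ℕ) (α : Type) (π : Ω₁ → Option α)
        (μ : Option α → ℝ), 0 < N ∧ (fun x => ind (π x = none)) ∈ Deg Ω₁ (mt * (N * D)) ∧
        (∀ a, (fun x => ind (π x = some a)) ∈ Deg Ω₁ (mt * (N * D) + N * D)) ∧ Orth π μ ∧
        N * ex (fun x => M x ^ 2) * (mt + 1 - pr (fun x => π x = none) + κ) ≤
          ex fun x => μ (π x) ^ 2 := by
  classical
  obtain ⟨c, hc, hc1, hg⟩ := gam_lower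
  obtain ⟨m, s, K, l, b, η, κ, hκ, hl, hs, hm, hη, ht⟩ := test hc hc1
  refine ⟨m + K + s ^ 2, κ, by omega, hκ, fun Ω _ _ D M hM hO hV => ?_⟩
  set V := ex (fun x => M x ^ 2) with hVdef
  have hsV : 0 < √V := Real.sqrt_pos.mpr hV
  let W : Ω → ℝ := fun x => (√V)⁻¹ * M x
  have hM0 : ex M = 0 := hO.mean
  have h0 : ex W = 0 := by simp only [W]; rw [ex_mul_left, hM0, mul_zero]
  have h1 : ex (fun x => W x ^ 2) = 1 := by
    simp only [W, mul_pow]
    rw [ex_mul_left, inv_pow, Real.sq_sqrt hV.le, ← hVdef, inv_mul_cancel₀ hV.ne']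
  obtain ⟨N, hN, a1, a2, a3, a4⟩ := ((eventually_gt_atTop 0).and ((Zn_four W h0 h1).and
    ((ev_dom W h0 h1 hl (b * l)).and ((ev_wide W h0 h1 hc hg hl hs).and
      (ev_thin W h0 h1 hc hg η hη))))).exists
  have hN' : (0 : ℝ) < N := by exact_mod_cast hN
  have hs' : (0 : ℝ) < s := by exact_mod_cast hs
  obtain ⟨F, hF1, hF2, hF3⟩ := ht (Fin N → Ω) (Fin (s ^ 2 * N) → Ω) (Zn W N)
    (fun y => s * Zn W (s ^ 2 * N) y) (Zn_mean W h0 N) (Zn_sq W h0 h1 hN) a1 a2 a3 a4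
  let Ω₁ := (Fin m → Fin N → Ω) × (Fin (s ^ 2 * N) → Ω) × (Fin (K + 1) → Fin N → Ω)
  let α := (Fin m → Fin N → ℝ) × (Fin (s ^ 2 * N) → ℝ) × (Fin (K + 1) → Fin N → ℝ)
  let lab : Ω₁ → α := fun p =>
    (fun j k => M (p.1 j k), fun k => M (p.2.1 k), fun j k => M (p.2.2 j k))
  let tot : α → ℝ := fun a => ∑ j, ∑ k, a.1 j k + (∑ k, a.2.1 k + ∑ j, ∑ k, a.2.2 j k)
  let zz : (Fin N → ℝ) → ℝ := fun a => (√N)⁻¹ * ∑ k, (√V)⁻¹ * a k
  let uu : (Fin (s ^ 2 * N) → ℝ) → ℝ := fun a =>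
    s * ((√((s ^ 2 * N : ℕ) : ℝ))⁻¹ * ∑ k, (√V)⁻¹ * a k)
  let Fa : α → ℝ := fun a => F (fun j => zz (a.1 j)) (uu a.2.1) (fun j => zz (a.2.2 j))
  have hO1 : Orth lab tot := (hO.pi.pi).prod (hO.pi.prod hO.pi.pi)
  have hLN : ∀ n : ℕ, Lab (n * D) (fun (x : Fin n → Ω) k => M (x k)) := by
    intro n
    have := Lab.pi (κ := Fin n) (π := fun _ => M) (D := fun _ => D) fun _ => hM
    simpa using this
  have hLNN : ∀ n : ℕ, Lab (n * (N * D)) (fun (x : Fin n → Fin N → Ω) j k => M (x j k)) := by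
    intro n
    have := Lab.pi (κ := Fin n) (π := fun _ (x : Fin N → Ω) k => M (x k)) (D := fun _ => N * D)
      fun _ => hLN N
    simpa using this
  have hL1 : Lab (m * (N * D) + (s ^ 2 * N * D + (K + 1) * (N * D))) lab :=
    (hLNN m).prod ((hLN _).prod (hLNN (K + 1)))
  have hFdeg : (fun p => Fa (lab p)) ∈ Deg Ω₁ ((m + K) * (N * D) + s ^ 2 * N * D) :=
    lines_deg ((hLN N).comp zz) ((hLN _).comp uu) hF1
  let ψ : α → Option α := fun a => if Fa a = 1 then none else some a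
  have hnone : ∀ a, ind (ψ a = none) = Fa a := by
    intro a
    rcases hF2 (fun j => zz (a.1 j)) (uu a.2.1) (fun j => zz (a.2.2 j)) with h | h
    · have h' : Fa a = 0 := h
      rw [h', ind_neg]; simp [ψ, h']
    · have h' : Fa a = 1 := h
      rw [h', ind_pos]; simp [ψ, h']
  obtain ⟨μ, hμ⟩ := exists_orth (fun p => ψ (lab p))
  refine ⟨Ω₁, inferInstance, inferInstance, N, α, fun p => ψ (lab p), μ, hN, ?_, ?_, hμ, ?_⟩
  · simp only [hnone]
    exact Deg_mono (le_of_eq (by ring)) hFdeg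
  · intro a
    exact Deg_mono (le_of_eq (by ring)) (hL1 fun a' => ind (ψ a' = some a))
  · let φ : Option α → ℝ := fun o => o.elim 0 tot
    have hφ : ∀ a, φ (ψ a) = (1 - Fa a) * tot a := by
      intro a
      rcases hF2 (fun j => zz (a.1 j)) (uu a.2.1) (fun j => zz (a.2.2 j)) with h | h
      · have h' : Fa a = 0 := h
        simp [φ, ψ, h']
      · have h' : Fa a = 1 := h
        simp [φ, ψ, h']
    have hφ2 : ∀ a, φ (ψ a) ^ 2 = tot a ^ 2 - Fa a * tot a ^ 2 ∧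
        φ (ψ a) * tot a = tot a ^ 2 - Fa a * tot a ^ 2 := by
      intro a
      rw [hφ]
      rcases hF2 (fun j => zz (a.1 j)) (uu a.2.1) (fun j => zz (a.2.2 j)) with h | h
      · have h' : Fa a = 0 := h
        rw [h']; constructor <;> ring
      · have h' : Fa a = 1 := h
        rw [h']; constructor <;> ring
    refine le_trans ?_ (hμ.sq_ge φ)
    rw [hO1.mul_L fun a => φ (ψ a)]
    simp only [fun a => (hφ2 a).1, fun a => (hφ2 a).2]
    rw [ex_sub]
    -- the total in terms of the normalised symbols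
    let S : Ω₁ → ℝ := fun p => s * Zn W (s ^ 2 * N) p.2.1 + ∑ j, Zn W N (p.1 j) + ∑ j, Zn W N (p.2.2 j)
    have hsN : 0 < √(N : ℝ) := Real.sqrt_pos.mpr hN'
    have htot : ∀ p, tot (lab p) = √N * √V * S p := by
      intro p
      have e1 : √((s ^ 2 * N : ℕ) : ℝ) = s * √N := by
        push_cast
        rw [Real.sqrt_mul (sq_nonneg _), Real.sqrt_sq hs'.le]
      simp only [tot, lab, S, Zn, W, e1, ← Finset.mul_sum]
      field_simp
      ring
    have hsq : ∀ p, tot (lab p) ^ 2 = N * V * S p ^ 2 := by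
      intro p
      rw [htot, mul_pow, mul_pow, Real.sq_sqrt hN'.le, Real.sq_sqrt hV.le]
    have hS2 : ex (fun p => S p ^ 2) = m + K + s ^ 2 + 1 := by
      have b0 := Zn_mean W h0 N
      have b1 := Zn_sq W h0 h1 hN
      have b2 := Zn_mean W h0 (s ^ 2 * N)
      have b3 := Zn_sq W h0 h1 (show 0 < s ^ 2 * N by positivity)
      have c1 : ∀ n : ℕ, ex (fun x : Fin n → Fin N → Ω => ∑ j, Zn W N (x j)) = 0 := fun n =>
        ex_sum_centered _ (fun _ => Zn W N) fun _ => b0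
      have c2 : ∀ n : ℕ, ex (fun x : Fin n → Fin N → Ω => (∑ j, Zn W N (x j)) ^ 2) = n := by
        intro n
        rw [ex_sq_sum _ (fun _ => Zn W N) fun _ => b0, b1]; simp
      rw [ex_prod]
      simp_rw [ex_prod]
      have d1 : ∀ y : ℝ, ex (fun t : Fin (K + 1) → Fin N → Ω => (y + ∑ j, Zn W N (t j)) ^ 2) =
          y ^ 2 + (K + 1) := by
        intro y
        simp_rw [add_sq]
        rw [ex_add, ex_add, ex_const, ex_mul_left, c1, c2]; push_cast; ring
      have d2 : ∀ v : ℝ, ex (fun y : Fin (s ^ 2 * N) → Ω => (s * Zn W (s ^ 2 * N) y + v) ^ 2 + (K + 1)) =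
          v ^ 2 + (s ^ 2 + (K + 1)) := by
        intro v
        simp_rw [add_sq, mul_pow]
        rw [ex_add, ex_add, ex_add, ex_const, ex_const, ex_mul_left, ex_mul_right, ex_mul_left,
          ex_mul_left, b2, b3]
        ring
      simp only [S, d1, d2]
      rw [ex_add, ex_const, c2]; ring
    have hF4 : ex (fun p => Fa (lab p) * (S p ^ 2 - 1)) ≤ -κ := hF3
    simp only [mul_sub, mul_one] at hF4
    rw [ex_sub] at hF4
    have hP : pr (fun p => ψ (lab p) = none) = ex fun p => Fa (lab p) :=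
      ex_congr fun p => hnone _
    simp only [hsq, hP]
    simp_rw [mul_left_comm (Fa _)]
    rw [ex_mul_left, ex_mul_left, hS2]
    push_cast
    have := mul_le_mul_of_nonneg_left hF4 (show 0 ≤ N * V by positivity)
    linarith

end Crest.Agent.R063
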