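import Crest.Agent.R063.Step1

/-!
From average cost to worst-case cost, and iteration of the amplification step (row 63).
-/

set_option autoImplicit false
set_option linter.unusedSectionVars false

namespace Crest.Agent.R063

open Finset Filter
open scoped Topology

theorem step2 {Ω : Type} [Fintype Ω] [Cube Ω] {α : Type} (π : Ω → Option α) (μ : Option α → ℝ)
    (D₂ D₀ : ℕ) (hD : 0 < D₂) (h1 : (fun x => ind (π x = none)) ∈ Deg Ω D₂)
    (h2 : ∀ a, (fun x => ind (π x = some a)) ∈ Deg Ω (D₂ + D₀)) (hO : Orth π μ) {ε : ℝ}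
    (hε : 0 < ε) :
    ∃ (Ω' : Type) (_ : Fintype Ω') (_ : Cube Ω') (D' : ℕ) (M' : Ω' → ℝ) (n : ℝ), 0 < n ∧ 0 < D' ∧
      Lab D' M' ∧ Orth M' id ∧ (D' : ℝ) ≤ n * (D₂ + D₀ * (1 - pr (fun x => π x = none) + ε)) ∧
      n * (ex (fun x => μ (π x) ^ 2) - ε) ≤ ex fun x => M' x ^ 2 := by
  classical
  obtain ⟨B, hB⟩ : ∃ B : ℝ, ∀ x, |μ (π x)| ≤ B := by
    obtain ⟨B, hB⟩ := Finite.exists_le fun x => |μ (π x)|
    exact ⟨B, hB⟩
  obtain ⟨n, hn⟩ := exists_nat_ge (1 + 4 * B ^ 2 / ε ^ 5)
  have hq : 0 ≤ 4 * B ^ 2 / ε ^ 5 := by positivity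
  have hn1 : (1 : ℝ) ≤ n := by linarith
  have hn0 : (0 : ℝ) < n := by linarith
  have hnn : 0 < n := by exact_mod_cast hn0
  set P := pr (fun x => π x = none) with hP
  have hP0 : 0 ≤ P := pr_nonneg _
  have hP1 : P ≤ 1 := pr_le_one _
  let lab : (Fin n → Ω) → (Fin n → Option α) := fun x j => π (x j)
  let G : (Fin n → Option α) → Prop := fun a => n * (P - ε) ≤ ∑ j, ind (a j = none)
  let d : Option α → ℕ := fun o => o.elim D₂ fun _ => D₂ + D₀
  let D' : ℕ := n * D₂ + ⌊n * (1 - P + ε)⌋₊ * D₀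
  have hd : ∀ o, (fun x => ind (π x = o)) ∈ Deg Ω (d o) := by
    rintro (_ | a)
    · exact h1
    · exact h2 a
  have hcost : ∀ a, G a → ∑ j, d (a j) ≤ D' := by
    intro a ha
    let t : ℕ := ∑ j, if a j = none then 0 else 1
    have e1 : ∑ j, d (a j) = n * D₂ + t * D₀ := by
      have : ∀ j, d (a j) = D₂ + (if a j = none then 0 else 1) * D₀ := by
        intro j; cases a j <;> simp [d]
      simp only [this, Finset.sum_add_distrib, t, Finset.sum_mul]
      simp
    have e2 : (t : ℝ) = n - ∑ j, ind (a j = none) := by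
      simp only [t]
      push_cast
      rw [eq_sub_iff_add_eq, ← Finset.sum_add_distrib]
      have : ∀ j, ((if a j = none then 0 else 1 : ℝ)) + ind (a j = none) = 1 := by
        intro j
        by_cases h : a j = none
        · rw [if_pos h, ind_pos h]; norm_num
        · rw [if_neg h, ind_neg h]; norm_num
      simp [this]
    have e3 : t ≤ ⌊n * (1 - P + ε)⌋₊ := by
      refine Nat.le_floor ?_
      simp only [G] at ha
      rw [e2]; linarith
    rw [e1]
    exact Nat.add_le_add_left (Nat.mul_le_mul_right _ e3) _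
  let ψ : (Fin n → Option α) → Option (Fin n → Option α) := fun a => if G a then some a else none
  have hL : Lab D' (fun x => ψ (lab x)) := by
    intro φ
    have e1 : (fun x => φ (ψ (lab x))) =
        (fun x => (fun a => if G a then φ (some a) - φ none else 0) (lab x)) + fun _ => φ none := by
      funext x
      simp only [ψ, Pi.add_apply]
      split_ifs <;> ring
    rw [e1]
    refine Submodule.add_mem _ ?_ (const_mem_Deg _ _)
    refine mem_Deg_of_cost lab (fun a => ∑ j, d (a j))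
      (pi_ind_mem_Deg (fun _ => π) (fun _ => d) fun _ => hd) D'
      (fun a => if G a then φ (some a) - φ none else 0) fun a ha => hcost a ?_
    by_contra h
    exact ha (if_neg h)
  obtain ⟨μ', hμ'⟩ := exists_orth (fun x => ψ (lab x))
  refine ⟨Fin n → Ω, inferInstance, inferInstance, D', fun x => μ' (ψ (lab x)), n, hn0, ?_,
    hL.comp μ', Orth.comp (ψ := μ') (μ := id) hμ', ?_, ?_⟩
  · have := Nat.mul_pos hnn hD
    simp only [D']; omega
  · have := Nat.floor_le (show 0 ≤ n * (1 - P + ε) by have : 0 ≤ 1 - P + ε := by linarith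
                                                      positivity)
    simp only [D']
    push_cast
    nlinarith [Nat.cast_nonneg (α := ℝ) D₀]
  · let tot : (Fin n → Option α) → ℝ := fun a => ∑ j, μ (a j)
    let φ : Option (Fin n → Option α) → ℝ := fun o => o.elim 0 tot
    have hφ : ∀ a, φ (ψ a) ^ 2 = tot a ^ 2 - ind (¬ G a) * tot a ^ 2 ∧
        φ (ψ a) * tot a = tot a ^ 2 - ind (¬ G a) * tot a ^ 2 := by
      intro a
      by_cases h : G a
      · rw [ind_neg (not_not.mpr h)]; simp [φ, ψ, h, sq]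
      · rw [ind_pos h]; simp [φ, ψ, h]
    refine le_trans ?_ (hμ'.sq_ge φ)
    have hO1 : Orth lab tot := hO.pi
    rw [hO1.mul_L fun a => φ (ψ a)]
    simp only [fun a => (hφ a).1, fun a => (hφ a).2]
    rw [ex_sub]
    have e1 : ex (fun x => tot (lab x) ^ 2) = n * ex (fun x => μ (π x) ^ 2) := by
      simp only [tot, lab]
      rw [ex_sq_sum _ (fun _ x => μ (π x)) fun _ => hO.mean]; simp
    have e2 : ex (fun x => ind (¬ G (lab x)) * tot (lab x) ^ 2) ≤ n * ε := by
      let W : Ω → ℝ := fun x => ind (π x = none) - P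
      have w0 : ex W = 0 := by simp only [W]; rw [ex_sub, ex_const]; exact sub_self _
      have w1 : ∀ x, W x ^ 2 ≤ 1 := fun x => by
        have := ind_nonneg (π x = none)
        have := ind_le_one (π x = none)
        simp only [W]; nlinarith
      have w2 : ex (fun x => W x ^ 2) ≤ 1 := ex_le_of_le w1
      have w3 : 0 ≤ ex (fun x => W x ^ 2) := ex_nonneg fun _ => sq_nonneg _
      have w4 : ex (fun x => W x ^ 4) ≤ 1 := ex_le_of_le fun x => by
        nlinarith [w1 x, sq_nonneg (W x)]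
      have w5 := ex_four_sum (Finset.univ : Finset (Fin n)) W w0
      rw [Finset.card_univ, Fintype.card_fin] at w5
      have w6 : ex (fun x : Fin n → Ω => (∑ i, W (x i)) ^ 4) ≤ 4 * n ^ 2 := by
        have : ex (fun x => W x ^ 2) ^ 2 ≤ 1 := pow_le_one₀ w3 w2
        nlinarith
      have w7 : ∀ x, ind (¬ G (lab x)) * tot (lab x) ^ 2 ≤
          B ^ 2 / (n ^ 2 * ε ^ 4) * (∑ i, W (x i)) ^ 4 := by
        intro x
        by_cases h : G (lab x)
        · rw [ind_neg (not_not.mpr h), zero_mul]; positivity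
        · rw [ind_pos h, one_mul]
          have u1 : |tot (lab x)| ≤ n * B := by
            refine (Finset.abs_sum_le_sum_abs _ _).trans ?_
            simpa using Finset.sum_le_card_nsmul Finset.univ _ B fun j _ => hB (x j)
          have u2 := pow_le_pow_left₀ (abs_nonneg _) u1 2
          rw [sq_abs] at u2
          have u3 : n * ε ≤ -∑ i, W (x i) := by
            simp only [G, lab, not_le] at h
            simp only [W, Finset.sum_sub_distrib, Finset.sum_const, Finset.card_univ,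
              Fintype.card_fin, nsmul_eq_mul]
            linarith
          have u4 := pow_le_pow_left₀ (by positivity) u3 4
          rw [Even.neg_pow (by decide)] at u4
          refine u2.trans (le_trans (le_of_eq ?_) (mul_le_mul_of_nonneg_left u4 (by positivity)))
          field_simp
      refine (ex_mono w7).trans ?_
      rw [ex_mul_left]
      refine (mul_le_mul_of_nonneg_left w6 (by positivity)).trans ?_
      have : B ^ 2 / (n ^ 2 * ε ^ 4) * (4 * n ^ 2) = 4 * B ^ 2 / ε ^ 5 * ε := by field_simp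
      rw [this]
      exact mul_le_mul_of_nonneg_right (by linarith) hε.le
    rw [e1]
    linarith

/-- There is a source of ratio at least `ρ`. -/
def Rat (ρ : ℝ) : Prop :=
  ∃ (Ω : Type) (_ : Fintype Ω) (_ : Cube Ω) (D : ℕ) (M : Ω → ℝ), 0 < D ∧ Lab D M ∧ Orth M id ∧
    ρ * D ≤ ex fun x => M x ^ 2

lemma Rat_one : Rat 1 := by
  refine ⟨Bool, inferInstance, cubeBool, 1, @L Bool cubeBool, one_pos, fun φ => ?_, fun φ => ?_, ?_⟩
  · refine Submodule.subset_span ⟨Finset.univ, by rfl, fun x y h => ?_⟩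
    have : x = y := cubeBool.e.injective (funext fun i => h i (Finset.mem_univ _))
    rw [this]
  · simp [ex_zero]
  · have : ∀ x : Bool, @L Bool cubeBool x ^ 2 = 1 := by
      intro x
      have : @L Bool cubeBool x = sg x := by
        unfold L
        exact Fintype.sum_unique (fun i : Unit => sg (cubeBool.e x i))
      rw [this]; cases x <;> simp [sg]
    simp only [this, ex_const]; simp

theorem Rat_step : ∃ κ : ℝ, 0 < κ ∧ ∀ ρ, 0 < ρ → Rat ρ → Rat (ρ * (1 + κ)) := by
  obtain ⟨mt, κ, hmt, hκ, h⟩ := step1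
  have hmt' : (0 : ℝ) < mt := by exact_mod_cast hmt
  refine ⟨κ / (2 * (mt + 1 + κ)), by positivity, ?_⟩
  rintro ρ hρ ⟨Ω, _, _, D, M, hD, hL, hO, hV⟩
  have hD' : (0 : ℝ) < D := by exact_mod_cast hD
  have hV0 : 0 < ex fun x => M x ^ 2 := lt_of_lt_of_le (by positivity) hV
  obtain ⟨Ω₁, _, _, N, α, π, μ, hN, a1, a2, a3, a4⟩ := h Ω D M hL hO hV0
  have hN' : (0 : ℝ) < N := by exact_mod_cast hN
  set V := ex fun x => M x ^ 2
  obtain ⟨Ω', _, _, D', M', n, hn, b1, b2, b3, b4, b5⟩ := step2 π μ _ _ (by positivity) a1 a2 a3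
    (ε := min (κ / 4) (N * V * κ / 4)) (lt_min (by positivity) (by positivity))
  refine ⟨Ω', inferInstance, inferInstance, D', M', b1, b2, b3, le_trans ?_ b5⟩
  have c1 := min_le_left (κ / 4) (N * V * κ / 4)
  have c2 := min_le_right (κ / 4) (N * V * κ / 4)
  have hP0 : 0 ≤ pr (fun x => π x = none) := pr_nonneg _
  have hP1 : pr (fun x => π x = none) ≤ 1 := pr_le_one _
  generalize pr (fun x => π x = none) = P at *
  generalize min (κ / 4) (N * V * κ / 4) = ε at *
  push_cast at b4
  have c3 : (D' : ℝ) ≤ n * (N * D) * (mt + 1 - P + κ / 4) := by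
    refine b4.trans ?_
    have := mul_le_mul_of_nonneg_left c1 (show 0 ≤ n * (N * D) by positivity)
    linarith
  have c4 : (1 + κ / (2 * (mt + 1 + κ))) * (mt + 1 - P + κ / 4) ≤ mt + 1 - P + 3 * κ / 4 := by
    have : κ / (2 * (mt + 1 + κ)) * (mt + 1 - P + κ / 4) ≤ κ / 2 := by
      rw [div_mul_eq_mul_div, div_le_div_iff₀ (by positivity) (by norm_num)]
      nlinarith
    linarith
  have c5 : 0 ≤ (mt : ℝ) + 1 - P + 3 * κ / 4 := by linarith
  calc ρ * (1 + κ / (2 * (mt + 1 + κ))) * D'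
      ≤ ρ * (1 + κ / (2 * (mt + 1 + κ))) * (n * (N * D) * (mt + 1 - P + κ / 4)) :=
        mul_le_mul_of_nonneg_left c3 (by positivity)
    _ = n * N * (ρ * D) * ((1 + κ / (2 * (mt + 1 + κ))) * (mt + 1 - P + κ / 4)) := by ring
    _ ≤ n * N * V * (mt + 1 - P + 3 * κ / 4) :=
        mul_le_mul (mul_le_mul_of_nonneg_left hV (by positivity)) c4
          (mul_nonneg (by positivity) (by linarith)) (by positivity)
    _ ≤ _ := by
        have := mul_le_mul_of_nonneg_left (show N * V * (mt + 1 - P + 3 * κ / 4) ≤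
          ex (fun x => μ (π x) ^ 2) - ε by linarith) hn.le
        linarith

theorem Rat_all (ρ : ℝ) : ∃ ρ', ρ < ρ' ∧ Rat ρ' := by
  obtain ⟨κ, hκ, h⟩ := Rat_step
  have : ∀ n : ℕ, Rat ((1 + κ) ^ n) := by
    intro n
    induction n with
    | zero => simpa using Rat_one
    | succ n ih => rw [pow_succ]; exact h _ (by positivity) ih
  obtain ⟨n, hn⟩ := pow_unbounded_of_one_lt ρ (show 1 < 1 + κ by linarith)
  exact ⟨_, hn, this n⟩

theorem exists_boolean (C : ℝ) (hC : 0 < C) :
    ∃ (Ω : Type) (_ : Fintype Ω) (_ : Cube Ω) (d : ℕ) (f : Ω → Bool),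
      (fun x => sg (f x)) ∈ Deg Ω d ∧ C * √d < ex fun x => sg (f x) * L x := by
  classical
  obtain ⟨ρ, hρ, Ω, _, _, D, M, hD, hL, hO, hV⟩ := Rat_all (16 * C ^ 2)
  have hD' : (0 : ℝ) < D := by exact_mod_cast hD
  have hρ0 : 0 < ρ := lt_trans (by positivity) hρ
  have hV0 : 0 < ex fun x => M x ^ 2 := lt_of_lt_of_le (by positivity) hV
  set V := ex fun x => M x ^ 2 with hVdef
  have hsV : 0 < √V := Real.sqrt_pos.mpr hV0
  let W : Ω → ℝ := fun x => (√V)⁻¹ * M x
  have hM0 : ex M = 0 := hO.mean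
  have h0 : ex W = 0 := by simp only [W]; rw [ex_mul_left, hM0, mul_zero]
  have h1 : ex (fun x => W x ^ 2) = 1 := by
    simp only [W, mul_pow]
    rw [ex_mul_left, inv_pow, Real.sq_sqrt hV0.le, ← hVdef, inv_mul_cancel₀ hV0.ne']
  obtain ⟨N, hN, h4⟩ := ((eventually_gt_atTop 0).and (Zn_four W h0 h1)).exists
  have hN' : (0 : ℝ) < N := by exact_mod_cast hN
  have hsN : 0 < √(N : ℝ) := Real.sqrt_pos.mpr hN'
  have h2 := Zn_sq W h0 h1 hN
  let lab : (Fin N → Ω) → (Fin N → ℝ) := fun x k => M (x k)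
  have hLN : Lab (N * D) lab := by
    have := Lab.pi (κ := Fin N) (π := fun _ => M) (D := fun _ => D) fun _ => hL
    simpa using this
  have hO1 : Orth lab (fun a => ∑ k, a k) := hO.pi
  refine ⟨Fin N → Ω, inferInstance, inferInstance, N * D, fun x => decide (0 ≤ ∑ k, lab x k),
    hLN fun a => sg (decide (0 ≤ ∑ k, a k)), ?_⟩
  rw [hO1.mul_L fun a => sg (decide (0 ≤ ∑ k, a k))]
  have e1 : ∀ x, sg (decide (0 ≤ ∑ k, lab x k)) * ∑ k, lab x k = √N * √V * |Zn W N x| := by
    intro x
    have e2 : ∑ k, lab x k = √N * √V * Zn W N x := by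
      simp only [lab, Zn, W, ← Finset.mul_sum]; field_simp
    have e3 : sg (decide (0 ≤ ∑ k, lab x k)) * ∑ k, lab x k = |∑ k, lab x k| := by
      by_cases h : 0 ≤ ∑ k, lab x k
      · simp [sg, h, abs_of_nonneg h]
      · simp [sg, h, abs_of_neg (not_le.mp h)]
    rw [e3, e2, abs_mul, abs_of_pos (mul_pos hsN hsV)]
  simp only [e1]
  rw [ex_mul_left]
  have e4 : 1 / 4 ≤ ex fun x => |Zn W N x| := by
    have : ∀ z : ℝ, 1 / 2 * z ^ 2 - 1 / 16 * z ^ 4 ≤ |z| := by
      intro z
      rw [← sq_abs z, show z ^ 4 = |z| ^ 4 by rw [← abs_pow, abs_of_nonneg (by positivity)]]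
      have h := abs_nonneg z
      generalize |z| = t at h
      have : 0 ≤ 16 - 8 * t + t ^ 3 := by nlinarith [mul_nonneg h (sq_nonneg (t - 2)), sq_nonneg (t - 2), sq_nonneg (t - 1)]
      nlinarith [mul_nonneg h this]
    refine le_trans ?_ (ex_mono fun x => this (Zn W N x))
    rw [ex_sub, ex_mul_left, ex_mul_left, h2]
    linarith
  have e5 : 4 * C * √((N * D : ℕ) : ℝ) < √N * √V := by
    rw [← Real.sqrt_mul hN'.le, ← Real.sqrt_sq (show 0 ≤ 4 * C by positivity),
      ← Real.sqrt_mul (sq_nonneg _)]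
    refine Real.sqrt_lt_sqrt (by positivity) ?_
    push_cast
    have : 16 * C ^ 2 * D < V := lt_of_lt_of_le (mul_lt_mul_of_pos_right hρ hD') hV
    nlinarith
  nlinarith [mul_pos hsN hsV]

end Crest.Agent.R063
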