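import Crest.Agent.R063.Core

/-!
Choice of the parameters (row 63).
-/

set_option autoImplicit false
set_option linter.unusedSectionVars false

namespace Crest.Agent.R063

open Finset Filter
open scoped Topology

lemma exists_r (C₁ C₂ : ℝ) : ∃ r : ℕ, 1 ≤ r ∧ C₁ / r ≤ 1 / 4 ∧
    C₂ * ((r : ℝ) ^ 43 * Real.exp (-((r : ℝ) / 18))) ≤ 1 / 4 := by
  have h1 : Tendsto (fun r : ℕ => C₁ / (r : ℝ)) atTop (𝓝 0) := tendsto_const_div_atTop_nhds_zero_nat C₁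
  have h2 : Tendsto (fun r : ℕ => (r : ℝ) / 18) atTop atTop :=
    tendsto_natCast_atTop_atTop.atTop_div_const (by norm_num)
  have h3 := ((Real.tendsto_pow_mul_exp_neg_atTop_nhds_zero 43).comp h2).const_mul (C₂ * 18 ^ 43)
  rw [mul_zero] at h3
  obtain ⟨r, hr1, hr2, hr3⟩ := ((eventually_ge_atTop 1).and
    ((h1.eventually (ge_mem_nhds (show (0 : ℝ) < 1 / 4 by norm_num))).and
      (h3.eventually (ge_mem_nhds (show (0 : ℝ) < 1 / 4 by norm_num))))).exists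
  refine ⟨r, hr1, hr2, le_trans (le_of_eq ?_) hr3⟩
  simp only [Function.comp]
  rw [div_pow]; field_simp

theorem test {c : ℝ} (hc : 0 < c) (hc1 : c ≤ 1) :
    ∃ (m s K l b : ℕ) (η : Fin (K + 1) → ℝ) (κ : ℝ), 0 < κ ∧ 0 < l ∧ 0 < s ∧ 0 < m ∧
      (∀ j, 0 < η j ∧ η j ≤ 1) ∧
      ∀ (Ω Ω' : Type) [Fintype Ω] [Nonempty Ω] [Fintype Ω'] [Nonempty Ω'] (Z : Ω → ℝ) (U : Ω' → ℝ),
        ex Z = 0 → ex (fun ω => Z ω ^ 2) = 1 → ex (fun ω => Z ω ^ 4) ≤ 4 →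
        (∀ k : ℤ, |k| ≤ b * l → 8 * pr (fun ω => ⌊l * Z ω⌋ = k) ≤
          64 * pr (fun ω => ⌊l * Z ω⌋ = k + l) + pr (fun ω => ⌊l * Z ω⌋ = k - l)) →
        (∀ k : ℤ, |k| ≤ l * s → c / (l * s) ≤ pr fun y => ⌊l * U y⌋ = k) →
        (∀ j, c * η j ≤ pr fun ω => 0 ≤ Z ω ∧ Z ω < η j) →
        ∃ F : (Fin m → ℝ) → ℝ → (Fin (K + 1) → ℝ) → ℝ, Lines F ∧
          (∀ z u t, F z u t = 0 ∨ F z u t = 1) ∧
          ex (fun p : (Fin m → Ω) × Ω' × (Fin (K + 1) → Ω) =>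
            F (fun j => Z (p.1 j)) (U p.2.1) (fun j => Z (p.2.2 j)) *
              ((U p.2.1 + ∑ j, Z (p.1 j) + ∑ j, Z (p.2.2 j)) ^ 2 - 1)) ≤ -κ := by
  obtain ⟨b, hb⟩ := exists_nat_ge (2 + 16000000 / c)
  have hb0 : (0 : ℝ) ≤ 16000000 / c := by positivity
  have hb2 : (2 : ℝ) ≤ b := by linarith
  have hb3 : 800 / c * (10000 / (b : ℝ) ^ 2) ≤ 1 / 2 := by
    have h1 : 16000000 / c ≤ (b : ℝ) ^ 2 := by nlinarith
    rw [div_le_iff₀ hc] at h1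
    rw [div_mul_div_comm, div_le_div_iff₀ (by positivity) (by norm_num)]
    nlinarith
  obtain ⟨r, hr1, hr2, hr3⟩ := exists_r
    (10000 + 800 / c * ((48 * (b + 1) ^ 2 + 464) * (2 * b + 1 + 3121) + 384))
    (73 * 60 / c * (320000 * 3 / c ^ 2 * (32 * 61 ^ 2 + 64) * 33))
  have hr : (1 : ℝ) ≤ r := by exact_mod_cast hr1
  have hr0 : (0 : ℝ) < r := by linarith
  have hw0 : (0 : ℝ) ≤ ((r ^ 6 : ℕ) : ℝ) + 2 := by positivity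
  refine ⟨r ^ 6, 60 * r ^ 3, 2 ^ r ^ 6 + 1, r ^ 4, b, eta _ (((r ^ 6 : ℕ) : ℝ) + 2),
    (∏ j, c * eta (2 ^ r ^ 6 + 1) (((r ^ 6 : ℕ) : ℝ) + 2) j) *
      (c / (((r ^ 4 : ℕ) : ℝ) * ((60 * r ^ 3 : ℕ) : ℝ)) / 73),
    mul_pos (Finset.prod_pos fun j _ => mul_pos hc (eta_pos hw0 j)) (by positivity),
    by positivity, by positivity, by positivity, fun j => ⟨eta_pos hw0 j, eta_le_one hw0 j⟩, ?_⟩
  intro Ω Ω' _ _ _ _ Z U h0 h2 h4 hdom hU hq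
  have hps : 0 < c / (((r ^ 4 : ℕ) : ℝ) * ((60 * r ^ 3 : ℕ) : ℝ)) := by positivity
  obtain ⟨F, hF1, hF2, hF3⟩ := core Z U h0 h2 h4 (l := r ^ 4) (m := r ^ 6) (s := 60 * r ^ 3) (b := b)
    (by positivity) (by positivity) (by nlinarith [Nat.zero_le (r ^ 6)]) (by exact_mod_cast hb2)
    (τ := Real.exp (-((r : ℝ) / 18))) (τ' := 1 / r ^ 5) hc hc1 (Real.exp_pos _)
    (Real.exp_le_one_iff.mpr (by linarith [show (0 : ℝ) ≤ r / 18 by positivity])) (by positivity)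
    hps hdom hU hq
  refine ⟨F, hF1, hF2, hF3.trans ?_⟩
  have hP : (∏ j, c * eta (2 ^ r ^ 6 + 1) (((r ^ 6 : ℕ) : ℝ) + 2) j) ≤
      ∏ j, pr fun ω => 0 ≤ Z ω ∧ Z ω < eta (2 ^ r ^ 6 + 1) (((r ^ 6 : ℕ) : ℝ) + 2) j :=
    Finset.prod_le_prod (fun j _ => (mul_pos hc (eta_pos hw0 j)).le) fun j _ => hq j
  have hP0 : 0 ≤ ∏ j, pr fun ω => 0 ≤ Z ω ∧ Z ω < eta (2 ^ r ^ 6 + 1) (((r ^ 6 : ℕ) : ℝ) + 2) j :=
    Finset.prod_nonneg fun _ _ => pr_nonneg _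
  generalize (∏ j, pr fun ω => 0 ≤ Z ω ∧ Z ω < eta (2 ^ r ^ 6 + 1) (((r ^ 6 : ℕ) : ℝ) + 2) j) = P
    at hP hP0
  generalize (∏ j, c * eta (2 ^ r ^ 6 + 1) (((r ^ 6 : ℕ) : ℝ) + 2) j) = P' at hP
  push_cast at hps ⊢
  set τ := Real.exp (-((r : ℝ) / 18)) with hτ
  have hτ0 : 0 < τ := Real.exp_pos _
  have p2 : (r : ℝ) ≤ r ^ 2 := by nlinarith
  have p3 : (1 : ℝ) ≤ r ^ 3 := one_le_pow₀ hr
  have p4 : (1 : ℝ) ≤ r ^ 4 := one_le_pow₀ hr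
  have p6 : (1 : ℝ) ≤ r ^ 6 := one_le_pow₀ hr
  have p12 : (r : ℝ) ^ 6 ≤ r ^ 12 := pow_le_pow_right₀ hr (by norm_num)
  have p18 : (1 : ℝ) ≤ r ^ 18 := one_le_pow₀ hr
  have t1 : (r : ℝ) ^ 6 * (1 / r ^ 4) ^ 2 ≤ 1 / r := by
    have : (r : ℝ) ^ 6 * (1 / r ^ 4) ^ 2 = 1 / r ^ 2 := by field_simp
    rw [this]; exact one_div_le_one_div_of_le hr0 p2
  have t2 : (2 * (b : ℝ) * r ^ 4 + 1) * (1 / r ^ 5) + 3121 / (1 / r ^ 5 * r ^ 6) ≤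
      (2 * b + 1 + 3121) * (1 / r) := by
    have e1 : (2 * (b : ℝ) * r ^ 4 + 1) * (1 / r ^ 5) + 3121 / (1 / r ^ 5 * r ^ 6) =
        (2 * b + 1 / r ^ 4 + 3121) * (1 / r) := by field_simp
    rw [e1]
    have : (1 : ℝ) / r ^ 4 ≤ 1 := by rw [div_le_one (by positivity)]; exact p4
    gcongr
  have t3 : (1 - 1 / (9 * (r : ℝ) ^ 4) + 2 / r ^ 6) ^ r ^ 6 ≤ 9 * τ ^ 2 := by
    have e0 : (0 : ℝ) ≤ 1 - 1 / (9 * r ^ 4) + 2 / r ^ 6 := by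
      have : (1 : ℝ) / (9 * r ^ 4) ≤ 1 := by rw [div_le_one (by positivity)]; linarith
      have : (0 : ℝ) ≤ 2 / r ^ 6 := by positivity
      linarith
    calc _ ≤ Real.exp (-(1 / (9 * (r : ℝ) ^ 4)) + 2 / r ^ 6) ^ r ^ 6 :=
          pow_le_pow_left₀ e0 (by linarith [Real.add_one_le_exp (-(1 / (9 * (r : ℝ) ^ 4)) + 2 / r ^ 6)]) _
      _ = Real.exp (2 - r ^ 2 / 9) := by
          rw [← Real.exp_nat_mul]; congr 1; push_cast; field_simp; ring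
      _ ≤ Real.exp (2 - r / 9) := Real.exp_le_exp.2 (by linarith)
      _ = Real.exp 1 ^ 2 * τ ^ 2 := by
          rw [hτ, ← Real.exp_nat_mul, ← Real.exp_nat_mul, ← Real.exp_add]; congr 1; push_cast; ring
      _ ≤ 9 * τ ^ 2 := by
          have := Real.exp_one_lt_d9
          have := Real.exp_pos 1
          gcongr; nlinarith
  have t4 : 6 * τ + 3 / τ * (((r : ℝ) ^ 6) ^ 3 * (1 - 1 / (9 * (r : ℝ) ^ 4) + 2 / r ^ 6) ^ r ^ 6) ≤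
      33 * r ^ 18 * τ := by
    have e1 : 3 / τ * (((r : ℝ) ^ 6) ^ 3 * (1 - 1 / (9 * (r : ℝ) ^ 4) + 2 / r ^ 6) ^ r ^ 6) ≤
        3 / τ * (((r : ℝ) ^ 6) ^ 3 * (9 * τ ^ 2)) := by gcongr
    have e2 : 3 / τ * (((r : ℝ) ^ 6) ^ 3 * (9 * τ ^ 2)) = 27 * r ^ 18 * τ := by field_simp; ring
    nlinarith
  have t5 : 320000 * ((r : ℝ) ^ 6 + 2) / c ^ 2 * (32 * (60 * r ^ 3 + 1) ^ 2 + 32 * (r ^ 6) ^ 2 + 32) ≤
      320000 * (3 * r ^ 6) / c ^ 2 * ((32 * 61 ^ 2 + 64) * r ^ 12) := by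
    have e1 : (60 * (r : ℝ) ^ 3 + 1) ^ 2 ≤ 61 ^ 2 * r ^ 12 := by
      have : (60 * (r : ℝ) ^ 3 + 1) ^ 2 ≤ (61 * r ^ 3) ^ 2 :=
        pow_le_pow_left₀ (by positivity) (by linarith) 2
      nlinarith
    have e2 : ((r : ℝ) ^ 6) ^ 2 = r ^ 12 := by ring
    gcongr
    · linarith
    · rw [e2]; nlinarith
  have t6 : 320000 * ((r : ℝ) ^ 6 + 2) / c ^ 2 * (32 * (60 * r ^ 3 + 1) ^ 2 + 32 * (r ^ 6) ^ 2 + 32) *
      (6 * τ + 3 / τ * (((r : ℝ) ^ 6) ^ 3 * (1 - 1 / (9 * (r : ℝ) ^ 4) + 2 / r ^ 6) ^ r ^ 6)) ≤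
      c / (r ^ 4 * (60 * r ^ 3)) / 73 * (1 / 4) := by
    have e0 : (0 : ℝ) ≤ 1 - 1 / (9 * r ^ 4) + 2 / r ^ 6 := by
      have : (1 : ℝ) / (9 * r ^ 4) ≤ 1 := by rw [div_le_one (by positivity)]; linarith
      have : (0 : ℝ) ≤ 2 / r ^ 6 := by positivity
      linarith
    refine (mul_le_mul t5 t4 (by positivity) (by positivity)).trans ?_
    refine le_trans (le_of_eq ?_) (mul_le_mul_of_nonneg_left hr3 (by positivity))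
    field_simp
  have t7 : 10000 * ((r : ℝ) ^ 6 * (1 / r ^ 4) ^ 2) + 800 / c *
      ((48 * (b + 1) ^ 2 + 464) * ((2 * (b : ℝ) * r ^ 4 + 1) * (1 / r ^ 5) +
        3121 / (1 / r ^ 5 * r ^ 6)) + 10000 / b ^ 2 + 384 * ((r : ℝ) ^ 6 * (1 / r ^ 4) ^ 2)) ≤
      3 / 4 := by
    have e1 := mul_le_mul_of_nonneg_left t2 (show (0 : ℝ) ≤ 48 * (b + 1) ^ 2 + 464 by positivity)
    have e2 : 800 / c * ((48 * (b + 1) ^ 2 + 464) * ((2 * (b : ℝ) * r ^ 4 + 1) * (1 / r ^ 5) +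
        3121 / (1 / r ^ 5 * r ^ 6)) + 10000 / b ^ 2 + 384 * ((r : ℝ) ^ 6 * (1 / r ^ 4) ^ 2)) ≤
        800 / c * ((48 * (b + 1) ^ 2 + 464) * ((2 * b + 1 + 3121) * (1 / r)) + 10000 / b ^ 2 +
          384 * (1 / r)) := mul_le_mul_of_nonneg_left (by linarith) (by positivity)
    have e3 : (10000 + 800 / c * ((48 * ((b : ℝ) + 1) ^ 2 + 464) * (2 * b + 1 + 3121) + 384)) / r =
        10000 * (1 / r) + 800 / c * ((48 * (b + 1) ^ 2 + 464) * ((2 * b + 1 + 3121) * (1 / r)) +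
          384 * (1 / r)) := by ring
    rw [e3] at hr2
    nlinarith
  set ps := c / ((r : ℝ) ^ 4 * (60 * r ^ 3)) with hpsdef
  have t8 := mul_le_mul_of_nonneg_left t7 (show 0 ≤ ps / 73 by positivity)
  refine le_trans (mul_le_mul_of_nonneg_left (show _ ≤ -(ps / 73) by linarith) hP0) ?_
  have := mul_le_mul_of_nonneg_right hP (show 0 ≤ ps / 73 by positivity)
  linarith

end Crest.Agent.R063
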